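import Vale.Agent.P219.Var.AnisoVolume

/-!
# P219 module VarAniso: first variation with an anisotropic weight

As `exists_variation_bound`, with `Ψ v = (1 - τ f(|v|/R, p v/(|p||v|))) v` in normal coordinates at
`y`. The covector `p` at `y` is arbitrary; it is `du y` in the application, where the last cosine is
`ucos hG u x y`.
-/

open MeasureTheory Set

namespace Vale.Agent.P219

variable {n : ℕ} {G : EE n → Form n}

theorem exists_variation_bound_aniso (hn : 2 ≤ n) (hG : IsCH G) (A : Aniso) (o : EE n)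
    (R₀ lo hi : ℝ) (hlo : 0 < lo) :
    ∃ C₁ : ℝ, ∀ θ > 0, ∃ τ₀ > 0, ∀ τ, 0 < τ → τ ≤ τ₀ → ∀ u, Adm hG o R₀ u →
      ∀ y ∈ gball hG o R₀, ∀ p : EE n →L[ℝ] ℝ, p ≠ 0 →
        ∀ R ∈ Icc lo hi, pMass G u = omega n * R ^ n →
          ∃ u', Adm hG o R₀ u' ∧
            deficit G u' ≤ deficit G u
              - τ * ((∫ x, conorm G x (fderiv ℝ u x) *
                  A.K n (gdist hG x y / R) (ucos hG u y x)
                    (p (logG hG y x) / (gdist hG y x * conorm G y p)) ∂rVol G)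
                - C₁ * ∫ x, |u x ^ sobExp n - u x| ∂rVol G)
              + τ * θ * (1 + TV G u) := by
  obtain ⟨C, hC⟩ := A.bdd
  have hC0 : 0 ≤ C :=
    le_trans (abs_nonneg _) (hC 0 0 le_rfl ⟨by norm_num, by norm_num⟩).1
  have hn1 : (2 : ℝ) ≤ n := by exact_mod_cast hn
  -- the compact set of all radial coordinates
  set s : Set (EE n × EE n) :=
    (fun q : EE n × EE n => (q.1, logG hG q.1 q.2)) '' (gball hG o R₀ ×ˢ gball hG o R₀) with hs
  have hsc : IsCompact s := ((isCompact_gball hG o R₀).prod (isCompact_gball hG o R₀)).image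
    (continuous_fst.prodMk (continuous_logG hG))
  obtain ⟨CJ₀, hCJ₀⟩ := hsc.exists_bound_of_continuousOn (contDiff_jac hG).continuous.continuousOn
  obtain ⟨CD₀, hCD₀⟩ := hsc.exists_bound_of_continuousOn (continuous_jacD hG).continuousOn
  set CJ := max CJ₀ 0
  set CD := max CD₀ 0
  have hCJ : 0 ≤ CJ := le_max_right _ _
  have hCD : 0 ≤ CD := le_max_right _ _
  set CB := CJ * (((n : ℝ) + 1) * C) + C * CD with hCBdef
  have hCB : 0 ≤ CB := by positivity
  set N := ((n : ℝ) - 1) / lo with hN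
  have hN0 : 0 ≤ N := div_nonneg (by linarith) hlo.le
  refine ⟨N * CB, fun θ hθ => ?_⟩
  set Mx := omega n * |hi| ^ n with hMx
  set Wn := omega n * |hi| ^ (n - 1) with hWn
  have hom := omega_nonneg n
  have hMx0 : 0 ≤ Mx := by positivity
  set θ₁ := θ / (8 * (N * Mx * C + 1)) with hθ₁
  have hθ₁0 : 0 < θ₁ := by positivity
  obtain ⟨δ, hδ, -, hδs⟩ := exists_jac_expansion hG hsc θ₁ hθ₁0
  set K₂ := (2 * C) ^ 2 * ((n : ℝ) ^ 2 * CJ + 2 * n * CD) with hK₂
  set E₀ := 2 * θ₁ * (2 * C) + K₂ with hE₀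
  set K₁ := 12 * ((n : ℝ) + 19) ^ 2 * C ^ 2 with hK₁
  set K₃ := N * Mx * K₂ + Wn * (CB + E₀) ^ 2 with hK₃
  have hK₃0 : 0 ≤ K₃ := by positivity
  set τ₀ := min (min (min 1 (δ / (C + 1))) (1 / (4 * ((n : ℝ) + 19) * (2 * C + 1))))
    (min (1 / (2 * (CB + E₀ + 1))) (min (θ / (2 * (K₃ + 1))) (θ / (K₁ + 1)))) with hτ₀
  refine ⟨τ₀, by positivity, fun τ hτ hττ u hu y hy p hp R hR hV => ?_⟩
  simp only [hτ₀, le_min_iff] at hττ
  obtain ⟨⟨⟨t1, t2⟩, t3⟩, t4, t5, t6⟩ := hττ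
  rw [le_div_iff₀ (by positivity)] at t2 t3 t4 t5 t6
  have hRpos : 0 < R := lt_of_lt_of_le hlo hR.1
  have hεδ : τ * C ≤ δ := by linarith
  have hε20 : ((n : ℝ) + 19) * (2 * (τ * C)) ≤ 1 / 4 := by
    have : 0 ≤ ((n : ℝ) + 19) * τ := by positivity
    linarith
  have hεn : (n : ℝ) * (2 * (τ * C)) ≤ 1 / 2 := by
    have := mul_nonneg hτ.le hC0
    linarith
  have h4 : τ * C ≤ 1 / 4 := by
    have := mul_nonneg (Nat.cast_nonneg (α := ℝ) n) (mul_nonneg hτ.le hC0)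
    linarith
  obtain ⟨L, hL, hd⟩ := exists_det_sq hG y
  obtain ⟨e, he, hep⟩ := exists_ecos_eq hG hL hp
  obtain ⟨u', hadm, hTV, hM'⟩ :=
    exists_competitor_aniso hn hG hL hd A p he hep hC hRpos hτ.le h4 (by linarith) hy hu
  refine ⟨u', hadm, ?_⟩
  have hS : ∀ x, u x ≠ 0 → |jac hG y (logG hG y x)| ≤ CJ ∧ |jacD hG y (logG hG y x)| ≤ CD ∧
      ∀ l : ℝ, 1 - δ ≤ l → l ≤ 1 → |jac hG y (l • logG hG y x) - jac hG y (logG hG y x)
        - (l - 1) * jacD hG y (logG hG y x)| ≤ θ₁ * (1 - l) := by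
    intro x hx
    have hq : (y, logG hG y x) ∈ s :=
      ⟨(y, x), ⟨hy, hu.supp (subset_tsupport _ (Function.mem_support.2 hx))⟩, rfl⟩
    exact ⟨(hCJ₀ _ hq).trans (le_max_left _ _), (hCD₀ _ hq).trans (le_max_left _ _),
      fun l h1 h2 => hδs _ hq l h1 h2⟩
  obtain ⟨hv1, hv2⟩ := volume_variation_aniso hn hG hL hd A p he hep hC hRpos hτ.le hθ₁0.le hεδ
    hεn hu.smooth hu.hasCompactSupport hu.nonneg hS hCJ hCD
  rw [← hM', hV, ← hCBdef] at hv1 hv2
  set err := τ * (2 * C) ^ 2 * ((n : ℝ) ^ 2 * CJ + 2 * n * CD) + 2 * θ₁ * (2 * C) with herr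
  have herr0 : 0 ≤ err := by positivity
  have herrE : err ≤ E₀ := by
    have := mul_le_of_le_one_left (show 0 ≤ K₂ by positivity) t1
    rw [herr, hE₀, mul_assoc τ, ← hK₂]
    linarith
  have hM0 : 0 < omega n * R ^ n := mul_pos (omega_pos' n) (pow_pos hRpos n)
  have hd1 : |(pMass G u' - omega n * R ^ n) / (omega n * R ^ n)| ≤ τ * (CB + err) := by
    rw [abs_div, abs_of_pos hM0, div_le_iff₀ hM0]
    exact hv1
  have hd2 : |(pMass G u' - omega n * R ^ n) / (omega n * R ^ n)| ≤ 1 / 2 := by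
    refine hd1.trans ?_
    have := mul_le_mul_of_nonneg_left herrE hτ.le
    linarith
  have hg := gI_expansion hn hRpos hd2
  have hg1 : omega n * R ^ n * (1 + (pMass G u' - omega n * R ^ n) / (omega n * R ^ n))
      = pMass G u' := by
    rw [mul_add, mul_one, mul_div_cancel₀ _ hM0.ne']; ring
  rw [hg1, mul_div_cancel₀ _ hM0.ne'] at hg
  have hRhi : R ≤ |hi| := le_trans hR.2 (le_abs_self hi)
  have hCE : N * Mx * (2 * θ₁ * (2 * C)) ≤ θ / 2 := by
    have h3 : θ₁ * (8 * (N * Mx * C + 1)) = θ := by rw [hθ₁]; field_simp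
    linarith
  have herr' : err = τ * K₂ + 2 * θ₁ * (2 * C) := by rw [herr, hK₂]; ring
  have key := variation_arith
    (I₁ := ∫ x, conorm G x (fderiv ℝ u x) * tvKa hG A p R u y x ∂rVol G)
    (TV₀ := TV G u) (TV₁ := TV G u') (K₂ := K₂) (K₁ := K₁) (N := N) (θ := θ) (Mx := Mx) (Wn := Wn)
    (Rn := R ^ n) rfl hd1 (gI_pow hn hRpos) hg hv2
    (hTV.trans (le_of_eq (by rw [hK₁]; ring))) hRpos hτ.le (by positivity) hCB
    (integral_nonneg fun x => abs_nonneg _) hN0 hM0.le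
    (integral_nonneg fun x => conorm_nonneg _ _) herr0 herr' (by linarith) (by positivity)
    (div_le_div_of_nonneg_left (by linarith) hlo hR.1)
    (mul_le_mul_of_nonneg_left (pow_le_pow_left₀ hRpos.le hRhi n) hom)
    (mul_le_mul_of_nonneg_left (pow_le_pow_left₀ hRpos.le hRhi _) hom)
    hCE
    (by
      have : E₀ = K₂ + 2 * θ₁ * (2 * C) := by rw [hE₀]; ring
      rw [← this, ← hK₃]; linarith)
    (by linarith) (div_nonneg (by linarith) hRpos.le)
  rw [integral_kernel_aniso hn hG A p hC hRpos hu.smooth hu.hasCompactSupport y]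
  unfold deficit
  rw [hV]
  linarith

end Vale.Agent.P219
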