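import Vale.Agent.P219.Var.Averaged
import Vale.Agent.P219.Var.VarAniso
import Vale.Agent.P219.Lines.APair

/-!
# P219 module AAveraged: the anisotropic variation inequality integrated over the centres

`exists_variation_bound_aniso` at `y` with `p = du y` has `ucos hG u x y` as last cosine; integrating
against `|du y|` and relabelling by Fubini gives the pair inequality.
-/

open MeasureTheory Set

namespace Vale.Agent.P219

variable {n : ℕ} {G : EE n → Form n}

lemma Aniso.continuous_K (A : Aniso) (k : ℕ) :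
    Continuous fun p : ℝ × ℝ × ℝ => A.K k p.1 p.2.1 p.2.2 := by
  have hf : Continuous fun p : ℝ × ℝ => A.f p.1 p.2 :=
    continuous_iff_continuousAt.2 fun p => (A.hasDeriv p.1 p.2).continuousAt
  have hm : Continuous fun p : ℝ × ℝ × ℝ => ((p.1, p.2.2) : ℝ × ℝ) := by fun_prop
  have h1 : Continuous fun p : ℝ × ℝ × ℝ => A.f p.1 p.2.2 := hf.comp hm
  have h2 : Continuous fun p : ℝ × ℝ × ℝ => A.ft p.1 p.2.2 := A.cont_ft.comp hm
  have h3 : Continuous fun p : ℝ × ℝ × ℝ => A.fu p.1 p.2.2 := A.cont_fu.comp hm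
  unfold Aniso.K
  fun_prop

lemma Aniso.bdd_K (A : Aniso) (k : ℕ) :
    ∃ B, ∀ t c u, 0 ≤ t → |c| ≤ 1 → |u| ≤ 1 → ‖A.K k t c u‖ ≤ B := by
  obtain ⟨C, hC⟩ := A.bdd
  refine ⟨(C + C) * 1 + ((k : ℝ) + 3) * C + ((k : ℝ) + 1) * C * 1 + C * 1 * 1,
    fun t c u ht hc hu => ?_⟩
  obtain ⟨h1, h2, h3, h4⟩ := hC t u ht (mem_Icc.2 (abs_le.1 hu))
  have hC0 : 0 ≤ C := (abs_nonneg _).trans h1
  have hc2 : c ^ 2 ≤ 1 := (sq_le_one_iff_abs_le_one c).2 hc
  have hk : (0 : ℝ) ≤ k := Nat.cast_nonneg k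
  have a : |1 - c ^ 2| ≤ 1 := abs_le.2 ⟨by nlinarith, by nlinarith⟩
  have b : |(k : ℝ) - 2 + c ^ 2| ≤ (k : ℝ) + 3 := abs_le.2 ⟨by nlinarith, by nlinarith⟩
  have d : |(k : ℝ) - 1| ≤ (k : ℝ) + 1 := abs_le.2 ⟨by linarith, by linarith⟩
  have hu2 : u ^ 2 ≤ 1 := (sq_le_one_iff_abs_le_one u).2 hu
  have e : Real.sqrt ((1 - u ^ 2) * (1 - c ^ 2)) ≤ 1 := Real.sqrt_le_one.2
    (mul_le_one₀ (by nlinarith) (by nlinarith) (by nlinarith))
  have e1 := mul_le_mul ((abs_add_le _ _).trans (add_le_add h1 h3)) a (abs_nonneg _)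
    (add_nonneg hC0 hC0)
  have e2 := mul_le_mul b h1 (abs_nonneg _) (by linarith)
  have e3 := mul_le_mul (mul_le_mul d h2 (abs_nonneg _) (by linarith)) hc (abs_nonneg _)
    (by positivity)
  have e4 := mul_le_mul (mul_le_mul h4 hc (abs_nonneg _) hC0) e (Real.sqrt_nonneg _)
    (by positivity)
  rw [Real.norm_eq_abs, Aniso.K]
  refine (abs_sub _ _).trans ((add_le_add ((abs_sub _ _).trans (add_le_add (abs_add_le _ _) le_rfl))
    le_rfl).trans ?_)
  simp only [abs_mul, abs_abs, abs_of_nonneg (Real.sqrt_nonneg _)] at e1 e2 e3 e4 ⊢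
  linarith

theorem exists_averaged_bound_aniso (hn : 2 ≤ n) (hG : IsCH G) (C : ACalib n) (o : EE n)
    (R₀ lo hi : ℝ) (hlo : 0 < lo) :
    ∃ C₁ : ℝ, ∀ θ > 0, ∃ τ₀ > 0, ∀ τ, 0 < τ → τ ≤ τ₀ → ∀ m : ℝ,
      (∀ v, Adm hG o R₀ v → m ≤ deficit G v) → ∀ u, Adm hG o R₀ u →
      ∀ R ∈ Icc lo hi, pMass G u = omega n * R ^ n →
        ∀ err : ℝ, err = (deficit G u - m) / τ + θ * (1 + TV G u)
            + C₁ * (∫ x, |u x ^ sobExp n - u x| ∂rVol G) →
          API hG C u R ≤ C.α * TV G u ^ 2 + err * TV G u := by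
  obtain ⟨C₁, hC⟩ := exists_variation_bound_aniso hn hG C.bdry o R₀ lo hi hlo
  refine ⟨C₁, fun θ hθ => ?_⟩
  obtain ⟨τ₀, hτ₀, hC'⟩ := hC θ hθ
  refine ⟨τ₀, hτ₀, fun τ hτ hτle m hm u hu R hR hmass err herr => ?_⟩
  have := isFiniteMeasureOnCompacts_rVol hG
  have : IsLocallyFiniteMeasure (rVol G) :=
    isLocallyFiniteMeasure_of_isFiniteMeasureOnCompacts
  have hR0 : 0 < R := hlo.trans_le hR.1
  set μ := rVol G
  have hball : IsCompact (gball hG o R₀) := isCompact_gball hG o R₀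
  set w : EE n → ℝ := fun x => conorm G x (fderiv ℝ u x) with hw
  have hwc : Continuous w :=
    (continuous_conorm hG).comp (continuous_id.prodMk (hu.smooth.continuous_fderiv one_ne_zero))
  have hwsupp : ∀ x, w x ≠ 0 → x ∈ gball hG o R₀ := by
    intro x hx
    refine hu.supp (support_fderiv_subset ℝ ?_)
    simp only [Function.mem_support]
    intro h
    exact hx (by simp [w, conorm, h])
  have hwcs : HasCompactSupport w :=
    HasCompactSupport.intro hball fun x hx => by_contra fun h => hx (hwsupp x h)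
  have hwi : Integrable w μ := hwc.integrable_of_hasCompactSupport hwcs
  have hw0 : ∀ x, 0 ≤ w x := fun x => conorm_nonneg x _
  have hTV : TV G u = ∫ x, w x ∂μ := rfl
  -- the two kernels
  have hd : Continuous fun q : EE n × EE n => gdist hG q.1 q.2 / R :=
    (continuous_gdist hG).div_const R
  have hd0 : ∀ q : EE n × EE n, 0 ≤ gdist hG q.1 q.2 / R := fun q =>
    div_nonneg (gnorm_nonneg _ _) hR0.le
  have hu1 : Measurable fun q : EE n × EE n => ucos hG u q.2 q.1 :=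
    (measurable_ucos hG hu.smooth).comp measurable_swap
  have hu2 : Measurable fun q : EE n × EE n => ucos hG u q.1 q.2 := measurable_ucos hG hu.smooth
  obtain ⟨B, hB⟩ := C.bdry.bdd_K n
  set kb : EE n → EE n → ℝ :=
    fun x y => C.bdry.K n (gdist hG x y / R) (ucos hG u y x) (ucos hG u x y)
  set ks : EE n → EE n → ℝ :=
    fun x y => C.bdry.K n (gdist hG x y / R) (ucos hG u x y) (ucos hG u y x)
  have ib : Integrable (fun q : EE n × EE n => w q.1 * w q.2 * kb q.1 q.2) (μ.prod μ) :=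
    integrable_pair μ hwi hwi (k := fun q => kb q.1 q.2)
      ((C.bdry.continuous_K n).measurable.comp (hd.measurable.prodMk (hu1.prodMk hu2)))
      fun q => hB _ _ _ (hd0 q) (abs_ucos_le_one hG u _ _) (abs_ucos_le_one hG u _ _)
  have is' : Integrable (fun q : EE n × EE n => w q.1 * w q.2 * ks q.1 q.2) (μ.prod μ) :=
    integrable_pair μ hwi hwi (k := fun q => ks q.1 q.2)
      ((C.bdry.continuous_K n).measurable.comp (hd.measurable.prodMk (hu2.prodMk hu1)))
      fun q => hB _ _ _ (hd0 q) (abs_ucos_le_one hG u _ _) (abs_ucos_le_one hG u _ _)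
  -- the variation at one centre, along `du y`
  have hJ : ∀ y, w y ≠ 0 → ∫ x, w x * kb x y ∂μ ≤ err := by
    intro y hy
    have hp : fderiv ℝ u y ≠ 0 := fun h => hy (by simp [w, conorm, h])
    obtain ⟨u', hu', hle⟩ :=
      hC' τ hτ hτle u hu y (hwsupp y hy) (fderiv ℝ u y) hp R hR hmass
    have hmu := hm u' hu'
    have e : (∫ x, conorm G x (fderiv ℝ u x) *
        C.bdry.K n (gdist hG x y / R) (ucos hG u y x)
          (fderiv ℝ u y (logG hG y x) / (gdist hG y x * conorm G y (fderiv ℝ u y))) ∂rVol G)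
        = ∫ x, w x * kb x y ∂μ := rfl
    rw [e] at hle
    set J := ∫ x, w x * kb x y ∂μ
    have h2 : J - C₁ * (∫ x, |u x ^ sobExp n - u x| ∂μ) - θ * (1 + TV G u)
        ≤ (deficit G u - m) / τ := by
      rw [le_div_iff₀ hτ]
      linarith
    rw [herr]
    linarith
  have h1 := pair_le μ hwi hw0 ib hJ
  have h2 : ∫ q, w q.1 * w q.2 * ks q.1 q.2 ∂μ.prod μ ≤ err * ∫ y, w y ∂μ := by
    rw [← integral_prod_swap (fun q : EE n × EE n => w q.1 * w q.2 * ks q.1 q.2)]
    refine le_trans (le_of_eq (integral_congr_ae (Filter.Eventually.of_forall fun q => ?_))) h1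
    simp only [Prod.fst_swap, Prod.snd_swap, kb, ks]
    rw [gdist_comm hG q.2 q.1, mul_comm (w q.2)]
  have i0 : Integrable (fun q : EE n × EE n => w q.1 * w q.2 * C.α) (μ.prod μ) :=
    (hwi.mul_prod hwi).mul_const _
  have ibs : Integrable (fun q : EE n × EE n =>
      (w q.1 * w q.2 * kb q.1 q.2 + w q.1 * w q.2 * ks q.1 q.2) / 2) (μ.prod μ) :=
    (ib.add is').div_const 2
  have e : API hG C u R = ∫ q, (w q.1 * w q.2 * C.α
      + (w q.1 * w q.2 * kb q.1 q.2 + w q.1 * w q.2 * ks q.1 q.2) / 2) ∂μ.prod μ := by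
    rw [integral_prod _ (by exact i0.add ibs)]
    refine integral_congr_ae (Filter.Eventually.of_forall fun x => ?_)
    refine integral_congr_ae (Filter.Eventually.of_forall fun y => ?_)
    simp only [ACalib.Q, w, kb, ks]
    ring
  rw [e, integral_add i0 ibs, integral_div, integral_add ib is', integral_mul_const,
    integral_prod_mul, hTV]
  linarith [h1, h2, sq (∫ x, w x ∂μ)]

end Vale.Agent.P219
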