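import Vale.Agent.P219.Geo.Dist

/-!
# P219 module Bands: tools

The band is a `C¹` cut-off; averaged over the level it gives back the function, and by Minkowski's
inequality the `L^p` norms of the bands average to at least the norm of the average.
-/

open MeasureTheory Set Filter Topology

namespace Vale.Agent.P219.Bands

variable {n : ℕ} {G : EE n → Form n}

/-- The derivative of the smooth step. -/
noncomputable def stepDeriv (t : ℝ) : ℝ :=
  6 * max 0 (min 1 t) - 6 * max 0 (min 1 t) ^ 2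

lemma stepDeriv_nonneg (t : ℝ) : 0 ≤ stepDeriv t := by
  have h0 : 0 ≤ max 0 (min 1 t) := le_max_left _ _
  have h1 : max 0 (min 1 t) ≤ 1 := max_le zero_le_one (min_le_left _ _)
  unfold stepDeriv
  nlinarith

lemma continuous_stepDeriv : Continuous stepDeriv := by unfold stepDeriv; fun_prop

lemma stepFun_eq (t : ℝ) :
    stepFun t = 3 * max 0 (min 1 t) ^ 2 - 2 * max 0 (min 1 t) ^ 3 := by
  rw [stepFun]
  split_ifs with h h'
  · rw [max_eq_left ((min_le_right 1 t).trans h)]; ring
  · rw [min_eq_left h', max_eq_right zero_le_one]; ring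
  · rw [min_eq_right (not_le.1 h').le, max_eq_right (not_le.1 h).le]

lemma continuous_stepFun : Continuous stepFun := by
  rw [show stepFun = fun t => _ from funext stepFun_eq]
  fun_prop

lemma stepFun_nonneg (t : ℝ) : 0 ≤ stepFun t := by
  rw [stepFun_eq]
  have h0 : 0 ≤ max 0 (min 1 t) := le_max_left _ _
  have h1 : max 0 (min 1 t) ≤ 1 := max_le zero_le_one (min_le_left _ _)
  nlinarith [sq_nonneg (max 0 (min 1 t))]

lemma stepFun_le_one (t : ℝ) : stepFun t ≤ 1 := by
  rw [stepFun_eq]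
  have h0 : 0 ≤ max 0 (min 1 t) := le_max_left _ _
  have h1 : max 0 (min 1 t) ≤ 1 := max_le zero_le_one (min_le_left _ _)
  nlinarith [mul_nonneg (sq_nonneg (1 - max 0 (min 1 t))) h0, sq_nonneg (1 - max 0 (min 1 t))]

lemma stepFun_of_nonpos {t : ℝ} (h : t ≤ 0) : stepFun t = 0 := by simp [stepFun, h]

lemma stepFun_of_one_le {t : ℝ} (h : 1 ≤ t) : stepFun t = 1 := by
  simp [stepFun, h, not_le.2 (lt_of_lt_of_le zero_lt_one h)]

lemma hasDerivAt_stepFun (t : ℝ) : HasDerivAt stepFun (stepDeriv t) t := by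
  have haway : ∀ y : ℝ, y ≠ 0 → y ≠ 1 → HasDerivAt stepFun (stepDeriv y) y := by
    intro y hy0 hy1
    rcases lt_or_gt_of_ne hy0 with h | h
    · have e : stepFun =ᶠ[𝓝 y] fun _ => (0 : ℝ) :=
        eventually_of_mem (Iio_mem_nhds h) fun z hz => stepFun_of_nonpos (le_of_lt hz)
      refine ((hasDerivAt_const y (0 : ℝ)).congr_of_eventuallyEq e).congr_deriv ?_
      simp [stepDeriv, max_eq_left ((min_le_right 1 y).trans h.le)]
    rcases lt_or_gt_of_ne hy1 with h' | h'
    · have e : stepFun =ᶠ[𝓝 y] fun z => 3 * z ^ 2 - 2 * z ^ 3 :=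
        eventually_of_mem (Ioo_mem_nhds h h') fun z hz => by
          simp [stepFun, not_le.2 hz.1, not_le.2 hz.2]
      refine ((((hasDerivAt_pow 2 y).const_mul 3).sub ((hasDerivAt_pow 3 y).const_mul 2)
        ).congr_of_eventuallyEq e).congr_deriv ?_
      simp [stepDeriv, min_eq_right h'.le, max_eq_right h.le]
      ring
    · have e : stepFun =ᶠ[𝓝 y] fun _ => (1 : ℝ) :=
        eventually_of_mem (Ioi_mem_nhds h') fun z hz => stepFun_of_one_le (le_of_lt hz)
      refine ((hasDerivAt_const y (1 : ℝ)).congr_of_eventuallyEq e).congr_deriv ?_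
      simp [stepDeriv, min_eq_left h'.le]
  have hP : ∀ y : ℝ, HasDerivAt (fun z => 3 * z ^ 2 - 2 * z ^ 3) (6 * y - 6 * y ^ 2) y :=
    fun y => (((hasDerivAt_pow 2 y).const_mul 3).sub ((hasDerivAt_pow 3 y).const_mul 2)
      ).congr_deriv (by push_cast; ring)
  by_cases h0 : t = 0
  · subst h0
    have hl : HasDerivWithinAt stepFun (stepDeriv 0) (Iic 0) 0 :=
      ((hasDerivWithinAt_const (0 : ℝ) (Iic (0 : ℝ)) (0 : ℝ)).congr (fun z hz => stepFun_of_nonpos hz)
        (stepFun_of_nonpos le_rfl)).congr_deriv (by simp [stepDeriv])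
    have hr : HasDerivWithinAt stepFun (stepDeriv 0) (Ici 0) 0 := by
      refine (((hP 0).hasDerivWithinAt (s := Ici 0)).congr_of_eventuallyEq
        (eventually_of_mem (inter_mem_nhdsWithin _ (Iio_mem_nhds zero_lt_one)) ?_)
        (by simp [stepFun_of_nonpos])).congr_deriv (by simp [stepDeriv])
      rintro z ⟨hz0, hz1⟩
      rw [stepFun_eq, min_eq_right (le_of_lt hz1), max_eq_right hz0]
    simpa using hl.union hr
  by_cases h1 : t = 1
  · subst h1
    have hr : HasDerivWithinAt stepFun (stepDeriv 1) (Ici 1) 1 :=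
      ((hasDerivWithinAt_const (1 : ℝ) (Ici (1 : ℝ)) (1 : ℝ)).congr (fun z hz => stepFun_of_one_le hz)
        (stepFun_of_one_le le_rfl)).congr_deriv (by simp [stepDeriv])
    have hl : HasDerivWithinAt stepFun (stepDeriv 1) (Iic 1) 1 := by
      refine (((hP 1).hasDerivWithinAt (s := Iic 1)).congr_of_eventuallyEq
        (eventually_of_mem (inter_mem_nhdsWithin _ (Ioi_mem_nhds zero_lt_one)) ?_)
        (by rw [stepFun_of_one_le le_rfl]; norm_num)).congr_deriv (by simp [stepDeriv])
      rintro z ⟨hz1, hz0⟩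
      rw [stepFun_eq, min_eq_right hz1, max_eq_right (le_of_lt hz0)]
    simpa using hl.union hr
  exact haway t h0 h1

lemma contDiff_stepFun : ContDiff ℝ 1 stepFun :=
  contDiff_one_iff_deriv.2 ⟨fun t => (hasDerivAt_stepFun t).differentiableAt, by
    rw [show deriv stepFun = stepDeriv from funext fun t => (hasDerivAt_stepFun t).deriv]
    exact continuous_stepDeriv⟩

lemma band_nonneg (κ s : ℝ) (u : EE n → ℝ) (x : EE n) : 0 ≤ band κ s u x := stepFun_nonneg _

lemma band_le_one (κ s : ℝ) (u : EE n → ℝ) (x : EE n) : band κ s u x ≤ 1 := stepFun_le_one _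

lemma contDiff_band (κ s : ℝ) {u : EE n → ℝ} (hu : ContDiff ℝ 1 u) :
    ContDiff ℝ 1 (band κ s u) :=
  contDiff_stepFun.comp ((contDiff_const.mul (hu.sub contDiff_const)).sub contDiff_const)

lemma continuous_band_uncurry (κ : ℝ) {u : EE n → ℝ} (hu : Continuous u) :
    Continuous fun p : ℝ × EE n => band κ p.1 u p.2 :=
  continuous_stepFun.comp (by fun_prop)

lemma band_eq_zero {κ s : ℝ} {u : EE n → ℝ} (hκ : 0 ≤ κ) (hs : 0 ≤ s) {x : EE n}
    (hx : x ∉ tsupport u) : band κ s u x = 0 :=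
  stepFun_of_nonpos (by rw [image_eq_zero_of_notMem_tsupport hx]; nlinarith)

lemma fderiv_band (κ s : ℝ) {u : EE n → ℝ} (hu : ContDiff ℝ 1 u) (x : EE n) :
    fderiv ℝ (band κ s u) x = (stepDeriv (κ * (u x - s) - 1) * κ) • fderiv ℝ u x := by
  have h1 : HasFDerivAt (fun z => κ * (u z - s) - 1) (κ • fderiv ℝ u x) x :=
    ((((hu.differentiable one_ne_zero x).hasFDerivAt).sub_const s).const_mul κ).sub_const 1
  exact ((hasDerivAt_stepFun _).comp_hasFDerivAt x h1).fderiv.trans (by rw [smul_smul])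

lemma conorm_band (hG : IsCH G) {κ : ℝ} (hκ : 0 ≤ κ) (s : ℝ) {u : EE n → ℝ} (hu : ContDiff ℝ 1 u)
    (x : EE n) : conorm G x (fderiv ℝ (band κ s u) x) =
      stepDeriv (κ * (u x - s) - 1) * κ * conorm G x (fderiv ℝ u x) := by
  rw [fderiv_band κ s hu, conorm_smul hG,
    abs_of_nonneg (mul_nonneg (stepDeriv_nonneg _) hκ)]

lemma integral_weight_le (κ U : ℝ) :
    ∫ s in Icc (0 : ℝ) 1, stepDeriv (κ * (U - s) - 1) * κ ≤ 1 := by
  have hd : ∀ s, HasDerivAt (fun r => -stepFun (κ * (U - r) - 1))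
      (stepDeriv (κ * (U - s) - 1) * κ) s := fun s =>
    (((hasDerivAt_stepFun _).comp s
      ((((hasDerivAt_id s).const_sub U).const_mul κ).sub_const 1)).neg).congr_deriv (by simp)
  have hc : Continuous fun s => stepDeriv (κ * (U - s) - 1) * κ :=
    (continuous_stepDeriv.comp (by fun_prop)).mul continuous_const
  rw [integral_Icc_eq_integral_Ioc, ← intervalIntegral.integral_of_le zero_le_one,
    intervalIntegral.integral_eq_sub_of_hasDerivAt (fun s _ => hd s) (hc.intervalIntegrable _ _)]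
  linarith [stepFun_nonneg (κ * (U - 1) - 1), stepFun_le_one (κ * (U - 0) - 1)]

lemma one_lt_sobExp (hn : 2 ≤ n) : 1 < sobExp n := by
  have : (2 : ℝ) ≤ n := by exact_mod_cast hn
  rw [sobExp, one_lt_div (by linarith)]
  linarith

lemma holder_sobExp (hn : 2 ≤ n) : (sobExp n).HolderConjugate (n : ℝ) := by
  have h2 : (2 : ℝ) ≤ n := by exact_mod_cast hn
  rw [Real.holderConjugate_iff]
  refine ⟨one_lt_sobExp hn, ?_⟩
  rw [sobExp, inv_div]
  field_simp
  ring

lemma gI_coef_nonneg (n : ℕ) : 0 ≤ (n : ℝ) * omega n ^ (1 / n : ℝ) :=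
  mul_nonneg (Nat.cast_nonneg n) (Real.rpow_nonneg ENNReal.toReal_nonneg _)

/-- Minkowski's integral inequality in the form used for the bands. -/
lemma minkowski {μ : Measure (EE n)} [IsFiniteMeasure μ] {p q : ℝ} (hpq : p.HolderConjugate q)
    {b : ℝ → EE n → ℝ} (hb : Continuous fun z : ℝ × EE n => b z.1 z.2)
    (hb0 : ∀ s x, 0 ≤ b s x) (hb1 : ∀ s x, b s x ≤ 1) :
    (∫ x, (∫ s in Icc (0 : ℝ) 1, b s x) ^ p ∂μ) ^ (1 / p) ≤
      ∫ s in Icc (0 : ℝ) 1, (∫ x, b s x ^ p ∂μ) ^ (1 / p) := by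
  have hp := hpq.lt
  have hp0 : 0 ≤ p := by linarith
  have hq0 : 0 < q := hpq.symm.pos
  set ν := (volume : Measure ℝ).restrict (Icc (0 : ℝ) 1)
  have : IsFiniteMeasure ν := ⟨by simp [ν, Real.volume_Icc]⟩
  set U : EE n → ℝ := fun x => ∫ s, b s x ∂ν with hU
  have hUc : Continuous U := continuous_parametric_integral_of_continuous
    (f := fun x s => b s x) (hb.comp (continuous_snd.prodMk continuous_fst)) isCompact_Icc
  have hU0 : ∀ x, 0 ≤ U x := fun x => integral_nonneg fun s => hb0 s x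
  have hU1 : ∀ x, U x ≤ 1 := fun x => by
    refine (integral_mono_of_nonneg (Eventually.of_forall fun s => hb0 s x) (integrable_const 1)
      (Eventually.of_forall fun s => hb1 s x)).trans ?_
    simp [ν, Real.volume_Icc, Measure.real]
  set W : EE n → ℝ := fun x => U x ^ (p - 1) with hW
  have hWc : Continuous W := hUc.rpow_const fun _ => Or.inr (by linarith)
  have hW0 : ∀ x, 0 ≤ W x := fun x => Real.rpow_nonneg (hU0 x) _
  have hW1 : ∀ x, W x ≤ 1 := fun x => Real.rpow_le_one (hU0 x) (hU1 x) (by linarith)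
  set N := ∫ x, U x ^ p ∂μ with hN
  have hN0 : 0 ≤ N := integral_nonneg fun x => Real.rpow_nonneg (hU0 x) _
  set M : ℝ → ℝ := fun s => (∫ x, b s x ^ p ∂μ) ^ (1 / p) with hM
  have hM0 : ∀ s, 0 ≤ M s := fun s =>
    Real.rpow_nonneg (integral_nonneg fun x => Real.rpow_nonneg (hb0 s x) _) _
  have hsec : ∀ s, Continuous (b s) := fun s => hb.comp (continuous_const.prodMk continuous_id)
  have hMc : Continuous M := by
    refine Continuous.rpow_const ?_ fun _ => Or.inr (by positivity)
    refine continuous_of_dominated (fun s => ((hsec s).rpow_const fun _ => Or.inr hp0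
      ).aestronglyMeasurable) (fun s => Eventually.of_forall fun x => ?_) (integrable_const 1)
      (Eventually.of_forall fun x => (hb.comp (continuous_id.prodMk continuous_const)).rpow_const
        fun _ => Or.inr hp0)
    rw [Real.norm_eq_abs, abs_of_nonneg (Real.rpow_nonneg (hb0 s x) _)]
    exact Real.rpow_le_one (hb0 s x) (hb1 s x) hp0
  have hNeq : N = ∫ s, ∫ x, b s x * W x ∂μ ∂ν := by
    rw [integral_integral_swap (f := fun s x => b s x * W x)]
    · refine integral_congr_ae (Eventually.of_forall fun x => ?_)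
      show U x ^ p = ∫ s, b s x * W x ∂ν
      rw [integral_mul_const]
      show U x ^ p = U x * U x ^ (p - 1)
      conv_rhs => rw [mul_comm, ← Real.rpow_add_one' (hU0 x) (by linarith)]
      rw [sub_add_cancel]
    · exact (integrable_const (1 : ℝ)).mono' (hb.mul (hWc.comp continuous_snd)).aestronglyMeasurable
        (Eventually.of_forall fun z => by
          show ‖b z.1 z.2 * W z.2‖ ≤ 1
          rw [Real.norm_eq_abs, abs_of_nonneg (mul_nonneg (hb0 _ _) (hW0 _))]
          exact mul_le_one₀ (hb1 _ _) (hW0 _) (hW1 _))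
  have hhol : ∀ s, ∫ x, b s x * W x ∂μ ≤ M s * N ^ (1 / q) := fun s => by
    refine (integral_mul_le_Lp_mul_Lq_of_nonneg hpq (Eventually.of_forall (hb0 s))
      (Eventually.of_forall hW0)
      (MemLp.of_bound (hsec s).aestronglyMeasurable 1 (Eventually.of_forall fun x => by
        rw [Real.norm_eq_abs, abs_of_nonneg (hb0 s x)]; exact hb1 s x))
      (MemLp.of_bound hWc.aestronglyMeasurable 1 (Eventually.of_forall fun x => by
        rw [Real.norm_eq_abs, abs_of_nonneg (hW0 x)]; exact hW1 x))).trans_eq ?_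
    have e : ∀ x, W x ^ q = U x ^ p := fun x => by
      rw [hW, ← Real.rpow_mul (hU0 x), hpq.sub_one_mul_conj]
    simp only [hM, e, hN]
  have hle : N ≤ (∫ s, M s ∂ν) * N ^ (1 / q) := by
    rw [← integral_mul_const]
    refine hNeq.le.trans (integral_mono_of_nonneg (Eventually.of_forall fun s => ?_)
      ((hMc.integrableOn_Icc).mul_const _) (Eventually.of_forall hhol))
    exact integral_nonneg fun x => mul_nonneg (hb0 s x) (hW0 x)
  show N ^ (1 / p) ≤ ∫ s, M s ∂ν
  rcases hN0.eq_or_lt with h | h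
  · rw [← h, Real.zero_rpow (by positivity)]
    exact integral_nonneg hM0
  · refine le_of_mul_le_mul_right ?_ (Real.rpow_pos_of_pos h (1 / q))
    rw [← Real.rpow_add h, one_div, one_div, hpq.inv_add_inv_eq_one, Real.rpow_one]
    exact hle.trans_eq (by rw [one_div])

end Vale.Agent.P219.Bands
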