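import Vale.Agent.P219.Geo.Dist
import Vale.Agent.P219.Var.BandsTools

/-!
# P219 module Bands: a good transversal level of a near-minimiser
-/

open MeasureTheory Set Filter Topology

namespace Vale.Agent.P219

open Bands

variable {n : ℕ} {G : EE n → Form n}

theorem band_adm (hG : IsCH G) {o : EE n} {R₀ κ s : ℝ} {u : EE n → ℝ} (hu : Adm hG o R₀ u)
    (hs : 0 < s) (hκ : 0 < κ) : Adm hG o R₀ (band κ s u) where
  smooth := contDiff_band κ s hu.smooth
  supp := (closure_minimal (fun x hx => by
    by_contra h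
    exact hx (band_eq_zero hκ.le hs.le h)) (isClosed_tsupport u)).trans hu.supp
  nonneg := band_nonneg κ s u
  le_one := band_le_one κ s u

namespace Bands

lemma isCompact_supp (hG : IsCH G) {o : EE n} {R₀ : ℝ} {u : EE n → ℝ} (hu : Adm hG o R₀ u) :
    IsCompact (tsupport u) :=
  (isCompact_gball hG o R₀).of_isClosed_subset (isClosed_tsupport u) hu.supp

lemma band_rpow_eq_zero (hn : 2 ≤ n) {κ s : ℝ} {u : EE n → ℝ} (hκ : 0 ≤ κ) (hs : 0 ≤ s)
    {x : EE n} (hx : x ∉ tsupport u) : |band κ s u x| ^ sobExp n = 0 := by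
  rw [band_eq_zero hκ hs hx, abs_zero, Real.zero_rpow (by linarith [one_lt_sobExp hn])]

lemma pMass_band_eq (hn : 2 ≤ n) {κ s : ℝ} {u : EE n → ℝ} (hκ : 0 ≤ κ) (hs : 0 ≤ s) :
    pMass G (band κ s u) = ∫ x in tsupport u, band κ s u x ^ sobExp n ∂rVol G := by
  have e : ∀ x, band κ s u x ^ sobExp n = |band κ s u x| ^ sobExp n := fun x => by
    rw [abs_of_nonneg (band_nonneg κ s u x)]
  simp only [e]
  exact (setIntegral_eq_integral_of_forall_compl_eq_zero fun x hx =>
    band_rpow_eq_zero hn hκ hs hx).symm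

lemma TV_band_eq (hG : IsCH G) {κ s : ℝ} {u : EE n → ℝ} (hκ : 0 ≤ κ)
    (hu : ContDiff ℝ 1 u) : TV G (band κ s u) = ∫ x in tsupport u,
      stepDeriv (κ * (u x - s) - 1) * κ * conorm G x (fderiv ℝ u x) ∂rVol G := by
  rw [TV]
  simp only [conorm_band hG hκ s hu]
  refine (setIntegral_eq_integral_of_forall_compl_eq_zero fun x hx => ?_).symm
  have : fderiv ℝ u x = 0 := by
    by_contra h
    exact hx (support_fderiv_subset ℝ h)
  rw [this, (conorm_eq_zero hG).2 rfl, mul_zero]

lemma tendsto_band {κ : ℕ → ℝ} (hκ : Tendsto κ atTop atTop) (s : ℝ) (u : EE n → ℝ) (x : EE n) :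
    Tendsto (fun k => band (κ k) s u x) atTop (𝓝 ({y | s < u y}.indicator (fun _ => (1 : ℝ)) x)) := by
  by_cases h : s < u x
  · rw [indicator_of_mem (show x ∈ {y | s < u y} from h)]
    refine tendsto_const_nhds.congr' ?_
    filter_upwards [(hκ.atTop_mul_const (sub_pos.2 h)).eventually_ge_atTop 2] with k hk
    exact (stepFun_of_one_le (by linarith)).symm
  · rw [indicator_of_notMem (show x ∉ {y | s < u y} from h)]
    refine tendsto_const_nhds.congr' ?_
    filter_upwards [hκ.eventually_ge_atTop 0] with k hk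
    exact (stepFun_of_nonpos (by nlinarith)).symm

lemma continuous_speed (hG : IsCH G) {u : EE n → ℝ} (hu : ContDiff ℝ 1 u) :
    Continuous fun z : (EE n × EE n) × ℝ =>
      fderiv ℝ u (geoPt hG z.1 z.2) (flowG hG z.2 z.1).2 := by
  have hf : Continuous fun z : (EE n × EE n) × ℝ => flowG hG z.2 z.1 :=
    (continuous_flowG hG).comp (continuous_snd.prodMk continuous_fst)
  exact ((hu.continuous_fderiv one_ne_zero).comp hf.fst).clm_apply hf.snd

lemma hasDerivAt_along (hG : IsCH G) {u : EE n → ℝ} (hu : ContDiff ℝ 1 u) (q : EE n × EE n)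
    (t : ℝ) : HasDerivAt (fun r => u (geoPt hG q r))
      (fderiv ℝ u (geoPt hG q t) (flowG hG t q).2) t := by
  have h1 : HasDerivAt (fun r => geoPt hG q r) (flowG hG t q).2 t :=
    (hasFDerivAt_fst (𝕜 := ℝ) (E := EE n) (F := EE n)).comp_hasDerivAt t (hasDerivAt_flowG hG q t)
  exact (hu.differentiable one_ne_zero _).hasFDerivAt.comp_hasDerivAt t h1

lemma ae_transversal (hG : IsCH G) {u : EE n → ℝ} (hu : ContDiff ℝ 1 u) :
    ∀ᵐ s : ℝ, Transversal hG u s := by
  set C : Set ((EE n × EE n) × ℝ) :=
    {z | fderiv ℝ u (geoPt hG z.1 z.2) (flowG hG z.2 z.1).2 = 0} with hC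
  set Φ : (EE n × EE n) × ℝ → (EE n × EE n) × ℝ := fun z => (z.1, u (geoPt hG z.1 z.2)) with hΦ
  have hCcl : IsClosed C := isClosed_eq (continuous_speed hG hu) continuous_const
  have hΦc : Continuous Φ := continuous_fst.prodMk (hu.continuous.comp
    ((continuous_flowG hG).comp (continuous_snd.prodMk continuous_fst)).fst)
  obtain ⟨Kc, hKc, hKU⟩ :=
    (isSigmaCompact_univ.of_isClosed_subset hCcl (subset_univ C)).image hΦc
  have hBm : MeasurableSet (Φ '' C) := by
    rw [← hKU]
    exact MeasurableSet.iUnion fun i => (hKc i).isClosed.measurableSet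
  have hsl : ∀ᵐ q ∂phase G, ∀ᵐ s : ℝ, (q, s) ∉ Φ '' C := Eventually.of_forall fun q => by
    set S := {t : ℝ | fderiv ℝ u (geoPt hG q t) (flowG hG t q).2 = 0} with hS
    have h0 : volume ((fun r => u (geoPt hG q r)) '' S) = 0 := by
      refine addHaar_image_eq_zero_of_det_fderivWithin_eq_zero volume
        (f' := fun _ => (0 : ℝ →L[ℝ] ℝ)) (fun t ht => ?_) fun t _ => ?_
      · have h1 := hasDerivAt_along hG hu q t
        rw [show fderiv ℝ u (geoPt hG q t) (flowG hG t q).2 = 0 from ht] at h1
        exact (h1.hasFDerivAt.congr_fderiv (by ext; simp)).hasFDerivWithinAt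
      · simp [ContinuousLinearMap.det]
    refine measure_mono_null ?_ h0
    intro s hs
    obtain ⟨z, hz, e⟩ := not_not.1 hs
    obtain ⟨e1, e2⟩ := Prod.ext_iff.1 e
    simp only [hΦ] at e1 e2
    refine ⟨z.2, ?_, ?_⟩
    · show fderiv ℝ u (geoPt hG q z.2) (flowG hG z.2 q).2 = 0
      rw [← e1]; exact hz
    · show u (geoPt hG q z.2) = s
      rw [← e1]; exact e2
  have hmeas : MeasurableSet {z : (EE n × EE n) × ℝ | (z.1, z.2) ∉ Φ '' C} := hBm.compl
  have : SigmaFinite (phase G) := SigmaFinite.withDensity_ofReal _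
  filter_upwards [(Measure.ae_ae_comm hmeas).1 hsl] with s hs
  filter_upwards [hs] with q hq t ht
  rw [(hasDerivAt_along hG hu q t).deriv]
  exact fun hd => hq ⟨(q, t), hd, by simp [hΦ, ht]⟩

end Bands

theorem tendsto_pMass_band (hn : 2 ≤ n) (hG : IsCH G) {o : EE n} {R₀ s : ℝ} {u : EE n → ℝ}
    (hu : Adm hG o R₀ u) (hs : 0 < s) {κ : ℕ → ℝ} (hκ : Tendsto κ atTop atTop) :
    Tendsto (fun k => pMass G (band (κ k) s u)) atTop (𝓝 (rVol G {x | s < u x}).toReal) ∧
      Tendsto (fun k => ∫ x, |band (κ k) s u x ^ sobExp n - band (κ k) s u x| ∂rVol G)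
        atTop (𝓝 0) := by
  have := isFiniteMeasureOnCompacts_rVol hG
  have hp := one_lt_sobExp hn
  have hK := isCompact_supp hG hu
  have hdom : Integrable ((tsupport u).indicator fun _ => (1 : ℝ)) (rVol G) :=
    (integrable_indicator_iff hK.measurableSet).2
      (integrableOn_const (hs := hK.measure_lt_top.ne))
  have hmem : ∀ᶠ k in atTop, ∀ x, band (κ k) s u x ≤ (tsupport u).indicator (fun _ => (1 : ℝ)) x := by
    filter_upwards [hκ.eventually_ge_atTop 0] with k hk x
    by_cases hx : x ∈ tsupport u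
    · rw [indicator_of_mem hx]; exact band_le_one _ _ _ _
    · rw [indicator_of_notMem hx, band_eq_zero hk hs.le hx]
  have hmeas : MeasurableSet {x | s < u x} :=
    (isOpen_lt continuous_const hu.smooth.continuous).measurableSet
  have hc : ∀ k, Continuous (band (κ k) s u) := fun k => (contDiff_band _ _ hu.smooth).continuous
  have hpow : ∀ k x, 0 ≤ band (κ k) s u x ^ sobExp n ∧
      band (κ k) s u x ^ sobExp n ≤ band (κ k) s u x := fun k x =>
    ⟨Real.rpow_nonneg (band_nonneg _ _ _ _) _,
      Real.rpow_le_self_of_le_one (band_nonneg _ _ _ _) (band_le_one _ _ _ _) hp.le⟩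
  constructor
  · have h1 := tendsto_integral_filter_of_dominated_convergence (μ := rVol G) (l := atTop)
      (F := fun k x => |band (κ k) s u x| ^ sobExp n)
      (f := {y | s < u y}.indicator fun _ => (1 : ℝ)) _
      (Eventually.of_forall fun k => ((hc k).abs.rpow_const fun _ => Or.inr (by linarith)
        ).aestronglyMeasurable)
      (hmem.mono fun k hk => Eventually.of_forall fun x => by
        rw [abs_of_nonneg (band_nonneg _ _ _ _), Real.norm_eq_abs, abs_of_nonneg (hpow k x).1]
        exact (hpow k x).2.trans (hk x))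
      hdom (Eventually.of_forall fun x => by
        have h2 := (tendsto_band hκ s u x).abs.rpow_const (p := sobExp n) (Or.inr (by linarith))
        convert h2 using 2
        by_cases hx : x ∈ {y | s < u y}
        · rw [indicator_of_mem hx, abs_one, Real.one_rpow]
        · rw [indicator_of_notMem hx, abs_zero, Real.zero_rpow (by linarith)])
    rw [integral_indicator hmeas, setIntegral_const, smul_eq_mul, mul_one] at h1
    exact h1
  · have h1 := tendsto_integral_filter_of_dominated_convergence (μ := rVol G) (l := atTop)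
      (F := fun k x => |band (κ k) s u x ^ sobExp n - band (κ k) s u x|) (f := fun _ => (0 : ℝ)) _
      (Eventually.of_forall fun k => ((((hc k).rpow_const fun _ => Or.inr (by linarith)).sub
        (hc k)).abs).aestronglyMeasurable)
      (hmem.mono fun k hk => Eventually.of_forall fun x => by
        rw [Real.norm_eq_abs, abs_abs, abs_of_nonpos (by linarith [(hpow k x).2])]
        linarith [hk x, (hpow k x).1])
      hdom (Eventually.of_forall fun x => by
        have h2 := (((tendsto_band hκ s u x).rpow_const (p := sobExp n) (Or.inr (by linarith))).sub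
          (tendsto_band hκ s u x)).abs
        convert h2 using 2
        by_cases hx : x ∈ {y | s < u y}
        · simp [indicator_of_mem hx]
        · simp [indicator_of_notMem hx, Real.zero_rpow (by linarith : sobExp n ≠ 0)])
    rwa [integral_zero] at h1

theorem exists_good_level (hn : 2 ≤ n) (hG : IsCH G) {o : EE n} {R₀ m ε : ℝ} {u : EE n → ℝ}
    (hu : Adm hG o R₀ u) (hm : ∀ v, Adm hG o R₀ v → m ≤ deficit G v) (hε : 0 < ε)
    (hmin : deficit G u ≤ m + ε) :
    ∃ s ∈ Ioo (0 : ℝ) 1, Transversal hG u s ∧ ∃ κ : ℕ → ℝ, Tendsto κ atTop atTop ∧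
      ∀ k, 0 < κ k ∧ deficit G (band (κ k) s u) ≤ m + 3 * ε := by
  have := isFiniteMeasureOnCompacts_rVol hG
  have hK := isCompact_supp hG hu
  have : IsFiniteMeasure ((rVol G).restrict (tsupport u)) :=
    isFiniteMeasure_restrict.2 hK.measure_lt_top.ne
  have hp := one_lt_sobExp hn
  have hp0 : 0 ≤ sobExp n := by linarith
  have hinv : ((n : ℝ) - 1) / n = 1 / sobExp n := by rw [sobExp, one_div_div]
  set μ := (rVol G).restrict (tsupport u) with hμ
  have : IsFiniteMeasure ((volume : Measure ℝ).restrict (Icc (0 : ℝ) 1)) :=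
    ⟨by simp [Real.volume_Icc]⟩
  set ν := (volume : Measure ℝ).restrict (Icc (0 : ℝ) 1) with hν
  set c := (n : ℝ) * omega n ^ (1 / n : ℝ) with hcd
  have hc0 : 0 ≤ c := gI_coef_nonneg n
  set κ : ℕ → ℝ := fun k => (k : ℝ) + 1 with hκd
  have hκ0 : ∀ k, 0 < κ k := fun k => by positivity
  have hκt : Tendsto κ atTop atTop := tendsto_atTop_add_const_right _ 1 tendsto_natCast_atTop_atTop
  have huc := hu.smooth.continuous
  set w : EE n → ℝ := fun x => conorm G x (fderiv ℝ u x) with hw
  have hwc : Continuous w :=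
    (continuous_conorm hG).comp (continuous_id.prodMk (hu.smooth.continuous_fderiv one_ne_zero))
  have hwI : Integrable w μ := hwc.continuousOn.integrableOn_compact hK
  have hw0 : ∀ x, 0 ≤ w x := fun x => conorm_nonneg x _
  set T : ℕ → ℝ → ℝ := fun k s => ∫ x, stepDeriv (κ k * (u x - s) - 1) * κ k * w x ∂μ with hT
  set P : ℕ → ℝ → ℝ := fun k s =>
    (∫ x, band (κ k) s u x ^ sobExp n ∂μ) ^ (1 / sobExp n) with hP
  have hkern : ∀ k, Continuous fun z : ℝ × EE n =>
      stepDeriv (κ k * (u z.2 - z.1) - 1) * κ k * w z.2 := fun k =>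
    (((continuous_stepDeriv.comp (by fun_prop))).mul continuous_const).mul
      (hwc.comp continuous_snd)
  have hTc : ∀ k, Continuous (T k) := fun k =>
    continuous_parametric_integral_of_continuous
      (f := fun s x => stepDeriv (κ k * (u x - s) - 1) * κ k * w x) (hkern k) hK
  have hPc : ∀ k, Continuous (P k) := fun k =>
    (continuous_parametric_integral_of_continuous (f := fun s x => band (κ k) s u x ^ sobExp n)
      ((continuous_band_uncurry (κ k) huc).rpow_const fun _ => Or.inr hp0) hK).rpow_const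
        fun _ => Or.inr (by positivity)
  set g : ℕ → ℝ → ℝ := fun k s => T k s - c * P k s - m with hg
  have hgc : ∀ k, Continuous (g k) := fun k =>
    ((hTc k).sub (continuous_const.mul (hPc k))).sub continuous_const
  have hdef : ∀ k s, 0 ≤ s → deficit G (band (κ k) s u) = g k s + m := fun k s hs => by
    rw [deficit, gI, TV_band_eq hG (hκ0 k).le hu.smooth, pMass_band_eq hn (hκ0 k).le hs, hinv]
    simp only [hg, hT, hP, hcd, hw, hμ, sub_add_cancel]
  have hg0 : ∀ k, 0 ≤ᵐ[ν] g k := fun k => by
    have : ∀ᵐ s ∂ν, s ≠ 0 := ae_restrict_of_ae (by simp [ae_iff])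
    filter_upwards [this, ae_restrict_mem measurableSet_Icc] with s hs hs'
    have h1 := hm _ (band_adm hG hu (lt_of_le_of_ne hs'.1 (Ne.symm hs)) (hκ0 k))
    rw [hdef k s hs'.1] at h1
    simp only [Pi.zero_apply]
    linarith
  have hint : ∀ k, Integrable (g k) ν := fun k => (hgc k).integrableOn_Icc
  -- averages over the level
  set Uk : ℕ → EE n → ℝ := fun k x => ∫ s in Icc (0 : ℝ) 1, band (κ k) s u x with hUk
  have hTint : ∀ k, ∫ s, T k s ∂ν ≤ TV G u := fun k => by
    have hprod : Integrable (fun z : ℝ × EE n =>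
        stepDeriv (κ k * (u z.2 - z.1) - 1) * κ k * w z.2) (ν.prod μ) := by
      rw [hν, hμ, Measure.prod_restrict]
      exact (hkern k).continuousOn.integrableOn_compact (isCompact_Icc.prod hK)
    simp only [hT]
    rw [integral_integral_swap hprod]
    refine (integral_mono_of_nonneg (Eventually.of_forall fun x => integral_nonneg fun s =>
      mul_nonneg (mul_nonneg (stepDeriv_nonneg _) (hκ0 k).le) (hw0 x)) hwI
      (Eventually.of_forall fun x => ?_)).trans (le_of_eq ?_)
    · show ∫ s, _ ∂ν ≤ w x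
      rw [integral_mul_const]
      exact mul_le_of_le_one_left (hw0 x) (integral_weight_le (κ k) (u x))
    · rw [TV]
      refine setIntegral_eq_integral_of_forall_compl_eq_zero fun x hx => ?_
      have : fderiv ℝ u x = 0 := by
        by_contra h
        exact hx (support_fderiv_subset ℝ h)
      simp only [hw, this, (conorm_eq_zero hG).2 rfl]
  have hmk : ∀ k, (∫ x, Uk k x ^ sobExp n ∂μ) ^ (1 / sobExp n) ≤ ∫ s, P k s ∂ν := fun k =>
    minkowski (μ := μ) (holder_sobExp hn) (b := fun s x => band (κ k) s u x)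
      (continuous_band_uncurry (κ k) huc) (fun s x => band_nonneg _ _ _ _)
      fun s x => band_le_one _ _ _ _
  have hUlim : ∀ x, Tendsto (fun k => Uk k x) atTop (𝓝 (u x)) := fun x => by
    have h1 := tendsto_integral_filter_of_dominated_convergence (μ := ν) (l := atTop)
      (F := fun k s => band (κ k) s u x) (f := fun s => (Iio (u x)).indicator (fun _ => (1 : ℝ)) s) _
      (Eventually.of_forall fun k => ((continuous_band_uncurry (κ k) huc).comp
        (continuous_id.prodMk continuous_const)).aestronglyMeasurable)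
      (Eventually.of_forall fun k => Eventually.of_forall fun s => by
        rw [Real.norm_eq_abs, abs_of_nonneg (band_nonneg _ _ _ _)]; exact band_le_one _ _ _ _)
      (integrable_const 1)
      (Eventually.of_forall fun s => by
        have h2 := tendsto_band hκt s u x
        by_cases hx : s < u x
        · rw [indicator_of_mem (show x ∈ {y | s < u y} from hx)] at h2
          rwa [indicator_of_mem (show s ∈ Iio (u x) from hx)]
        · rw [indicator_of_notMem (show x ∉ {y | s < u y} from hx)] at h2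
          rwa [indicator_of_notMem (show s ∉ Iio (u x) from hx)])
    have e : ∫ s, (Iio (u x)).indicator (fun _ => (1 : ℝ)) s ∂ν = u x := by
      rw [integral_indicator_const _ measurableSet_Iio, smul_eq_mul, mul_one, measureReal_def,
        hν, Measure.restrict_apply measurableSet_Iio,
        show Iio (u x) ∩ Icc (0 : ℝ) 1 = Ico 0 (u x) from ext fun t => by
          simp only [mem_inter_iff, mem_Iio, mem_Icc, mem_Ico]
          constructor
          · exact fun h => ⟨h.2.1, h.1⟩
          · exact fun h => ⟨h.2, h.1, by linarith [hu.le_one x, h.2]⟩,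
        Real.volume_Ico, sub_zero, ENNReal.toReal_ofReal (hu.nonneg x)]
    rwa [e] at h1
  have hNlim : Tendsto (fun k => (∫ x, Uk k x ^ sobExp n ∂μ) ^ (1 / sobExp n)) atTop
      (𝓝 (pMass G u ^ (1 / sobExp n))) := by
    refine Tendsto.rpow_const ?_ (Or.inr (by positivity))
    have e : pMass G u = ∫ x, u x ^ sobExp n ∂μ := by
      have e' : ∀ x, u x ^ sobExp n = |u x| ^ sobExp n := fun x => by
        rw [abs_of_nonneg (hu.nonneg x)]
      simp only [e']
      refine (setIntegral_eq_integral_of_forall_compl_eq_zero fun x hx => ?_).symm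
      rw [image_eq_zero_of_notMem_tsupport hx, abs_zero, Real.zero_rpow (by linarith)]
    rw [e]
    have hU01 : ∀ k x, 0 ≤ Uk k x ∧ Uk k x ≤ 1 := fun k x =>
      ⟨integral_nonneg fun s => band_nonneg _ _ _ _,
        (integral_mono_of_nonneg (Eventually.of_forall fun s => band_nonneg _ _ _ _)
          (integrable_const 1) (Eventually.of_forall fun s => band_le_one _ _ _ _)).trans
          (by simp [Real.volume_Icc, Measure.real])⟩
    refine tendsto_integral_filter_of_dominated_convergence (fun _ => 1)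
      (Eventually.of_forall fun k => ?_) (Eventually.of_forall fun k => Eventually.of_forall fun x => ?_)
      (integrable_const 1) (Eventually.of_forall fun x => (hUlim x).rpow_const (Or.inr hp0))
    · exact ((continuous_parametric_integral_of_continuous (f := fun x s => band (κ k) s u x)
        ((continuous_band_uncurry (κ k) huc).comp (continuous_snd.prodMk continuous_fst))
        isCompact_Icc).rpow_const fun _ => Or.inr hp0).aestronglyMeasurable
    · rw [Real.norm_eq_abs, abs_of_nonneg (Real.rpow_nonneg (hU01 k x).1 _)]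
      exact Real.rpow_le_one (hU01 k x).1 (hU01 k x).2 hp0
  have hmin' : TV G u - c * pMass G u ^ (1 / sobExp n) ≤ m + ε := by
    rw [deficit, gI, hinv] at hmin
    exact hmin
  have hev : ∀ᶠ k in atTop, ∫ s, g k s ∂ν ≤ 3 / 2 * ε := by
    filter_upwards [(hNlim.const_mul c).eventually (le_mem_nhds (show
      c * pMass G u ^ (1 / sobExp n) - ε / 2 < c * pMass G u ^ (1 / sobExp n) by linarith))]
      with k hk
    have hTI : Integrable (T k) ν := (hTc k).integrableOn_Icc
    have hPI : Integrable (fun s => c * P k s) ν := ((hPc k).const_mul c).integrableOn_Icc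
    simp only [hg]
    rw [integral_sub (hTI.sub' hPI) (integrable_const m), integral_sub hTI hPI, integral_const_mul,
      integral_const, smul_eq_mul]
    have : ν.real univ = 1 := by simp [hν, Real.volume_Icc, Measure.real]
    rw [this, one_mul]
    linarith [hTint k, mul_le_mul_of_nonneg_left (hmk k) hc0]
  -- levels which are good infinitely often
  set S : ℕ → Set ℝ := fun k => {s | g k s ≤ 3 * ε} with hS
  have hSm : ∀ k, MeasurableSet (S k) := fun k => (isClosed_le (hgc k) continuous_const).measurableSet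
  have hSge : ∀ᶠ k in atTop, (1 / 2 : ℝ) ≤ ν.real (S k) := by
    filter_upwards [hev] with k hk
    have h1 := mul_meas_ge_le_integral_of_nonneg (hg0 k) (hint k) (3 * ε)
    have h2 : ν.real {s | 3 * ε ≤ g k s} ≤ 1 / 2 := by nlinarith
    have h3 : (1 : ℝ) ≤ ν.real (S k) + ν.real {s | 3 * ε ≤ g k s} := by
      refine le_trans (le_of_eq ?_) (le_trans
        (measureReal_mono (μ := ν) (s₁ := univ) (s₂ := S k ∪ {s | 3 * ε ≤ g k s}) fun s _ =>
          (le_total (g k s) (3 * ε)).imp id id) (measureReal_union_le _ _))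
      · exact (show ν.real univ = 1 by simp [hν, Real.volume_Icc, Measure.real]).symm
    linarith
  set L : Set ℝ := ⋂ N, ⋃ k ≥ N, S k with hL
  have hLpos : ν L ≠ 0 := by
    have hA : Antitone fun N => ⋃ k ≥ N, S k := fun a b hab =>
      biUnion_subset_biUnion_left fun k (hk : b ≤ k) => le_trans hab hk
    have ht := tendsto_measure_iInter_atTop (μ := ν)
      (fun N => (MeasurableSet.iUnion fun k => MeasurableSet.iUnion fun _ => hSm k).nullMeasurableSet)
      hA ⟨0, measure_ne_top _ _⟩
    have hge : ∀ N, ENNReal.ofReal (1 / 2) ≤ ν (⋃ k ≥ N, S k) := fun N => by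
      obtain ⟨k, hk, hkN⟩ := (hSge.and (eventually_ge_atTop N)).exists
      refine le_trans (ENNReal.ofReal_le_of_le_toReal hk) (measure_mono ?_)
      exact subset_biUnion_of_mem (u := S) hkN
    intro h0
    have := ge_of_tendsto ht (Eventually.of_forall hge)
    rw [show (⋂ N, ⋃ k ≥ N, S k) = L from rfl, h0, nonpos_iff_eq_zero, ENNReal.ofReal_eq_zero]
      at this
    norm_num at this
  have hbad : ∀ᵐ s ∂ν, s ∈ Ioo (0 : ℝ) 1 ∧ Transversal hG u s := by
    have h01 : ∀ᵐ s ∂ν, s ≠ 0 ∧ s ≠ 1 :=
      ae_restrict_of_ae ((by simp [ae_iff] : ∀ᵐ s : ℝ, s ≠ 0).and (by simp [ae_iff]))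
    filter_upwards [h01, ae_restrict_mem measurableSet_Icc,
      ae_restrict_of_ae (ae_transversal hG hu.smooth)] with s hs hs' ht
    exact ⟨⟨lt_of_le_of_ne hs'.1 (Ne.symm hs.1), lt_of_le_of_ne hs'.2 hs.2⟩, ht⟩
  obtain ⟨s, hsL, hs, hst⟩ : ∃ s, s ∈ L ∧ s ∈ Ioo (0 : ℝ) 1 ∧ Transversal hG u s := by
    by_contra hcon
    push Not at hcon
    refine hLpos (measure_mono_null (fun s hs => ?_) (ae_iff.1 hbad))
    exact fun h => hcon s hs h.1 h.2
  have hfreq : ∃ᶠ k in atTop, g k s ≤ 3 * ε := frequently_atTop.2 fun N => by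
    obtain ⟨k, hk, hks⟩ := mem_iUnion₂.1 (mem_iInter.1 hsL N)
    exact ⟨k, hk, hks⟩
  obtain ⟨φ, hφ, hφs⟩ := extraction_of_frequently_atTop hfreq
  refine ⟨s, hs, hst, κ ∘ φ, hκt.comp hφ.tendsto_atTop, fun k => ⟨hκ0 _, ?_⟩⟩
  rw [Function.comp_apply, hdef _ s hs.1.le]
  linarith [hφs k]

end Vale.Agent.P219
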