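import Vale.Agent.P219.Var.RadialMap
import Vale.Agent.P219.Aniso

/-!
# P219 module Var.AnisoMap: the contraction with an anisotropic weight

`z ↦ (1 - τ f(‖z‖/R, ⟪e,z⟫/‖z‖)) z`. Its derivative is a homothety plus a rank one map whose
vector has the radial part `t f_t` and the shear part `f_u` times the tangential part of `e`.
-/

open MeasureTheory Set Filter Topology ContinuousLinearMap
open scoped RealInnerProductSpace

namespace Vale.Agent.P219

variable {n : ℕ}

/-- the cosine of `z` with `e` -/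
noncomputable def ecos (e z : EE n) : ℝ := ⟪e, z⟫ / ‖z‖

/-- the part of `e` orthogonal to `z` -/
noncomputable def eperp (e z : EE n) : EE n := e - (ecos e z / ‖z‖) • z

theorem abs_ecos_le {e : EE n} (he : ‖e‖ = 1) (z : EE n) : |ecos e z| ≤ 1 := by
  rw [ecos, abs_div, abs_norm]
  refine div_le_one_of_le₀ ?_ (norm_nonneg _)
  simpa [he] using abs_real_inner_le_norm e z

theorem ecos_mem {e : EE n} (he : ‖e‖ = 1) (z : EE n) : ecos e z ∈ Icc (-1 : ℝ) 1 :=
  abs_le.1 (abs_ecos_le he z)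

theorem norm_eperp {e : EE n} (he : ‖e‖ = 1) {z : EE n} (hz : z ≠ 0) :
    ‖eperp e z‖ = √(1 - ecos e z ^ 2) := by
  have hz' : ‖z‖ ≠ 0 := norm_ne_zero_iff.2 hz
  rw [← Real.sqrt_sq (norm_nonneg (eperp e z))]
  congr 1
  rw [eperp, norm_sub_sq_real, he, norm_smul, real_inner_smul_right, mul_pow, Real.norm_eq_abs,
    sq_abs, ecos]
  field_simp
  ring

theorem inner_eperp (e : EE n) {z : EE n} (hz : z ≠ 0) : ⟪eperp e z, z⟫ = 0 := by
  have hz' : ‖z‖ ≠ 0 := norm_ne_zero_iff.2 hz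
  rw [eperp, inner_sub_left, real_inner_smul_left, real_inner_self_eq_norm_sq, ecos]
  field_simp
  ring

theorem ecos_smul (e z : EE n) {r : ℝ} (hr : 0 < r) : ecos e (r • z) = ecos e z := by
  rw [ecos, ecos, real_inner_smul_right, norm_smul, Real.norm_of_nonneg hr.le,
    mul_div_mul_left _ _ hr.ne']

theorem Aniso.continuous_wf (A : Aniso) : Continuous fun p : ℝ × ℝ => A.f p.1 p.2 :=
  continuous_iff_continuousAt.2 fun p => (A.hasDeriv p.1 p.2).continuousAt

theorem Aniso.hasDerivAt_fst (A : Aniso) (t u : ℝ) :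
    HasDerivAt (fun r => A.f r u) (A.ft t u) t := by
  simpa [Function.comp_def] using!
    (A.hasDeriv t u).comp_hasDerivAt t ((hasDerivAt_id t).prodMk (hasDerivAt_const t u))

theorem Aniso.hasDerivAt_snd (A : Aniso) (t u : ℝ) :
    HasDerivAt (fun v => A.f t v) (A.fu t u) u := by
  simpa [Function.comp_def] using!
    (A.hasDeriv t u).comp_hasDerivAt u ((hasDerivAt_const u t).prodMk (hasDerivAt_id u))

/-- near `t = 0` the weight does not depend on the cosine -/
theorem Aniso.exists_flat (A : Aniso) :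
    ∃ ε > 0, ∀ t u, t < ε → A.fu t u = 0 ∧ A.f t u = A.f t 0 := by
  obtain ⟨ε, hε, h⟩ := A.flat
  refine ⟨ε, hε, fun t u ht => ⟨h t u ht, ?_⟩⟩
  exact is_const_of_deriv_eq_zero (fun v => (A.hasDerivAt_snd t v).differentiableAt)
    (fun v => by rw [(A.hasDerivAt_snd t v).deriv, h t v ht]) u 0

/-- the weight -/
noncomputable def aphi (A : Aniso) (e : EE n) (R : ℝ) (z : EE n) : ℝ :=
  A.f (‖z‖ / R) (ecos e z)

/-- `t f_t` -/
noncomputable def atft (A : Aniso) (e : EE n) (R : ℝ) (z : EE n) : ℝ :=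
  ‖z‖ / R * A.ft (‖z‖ / R) (ecos e z)

/-- `f_u` -/
noncomputable def afu (A : Aniso) (e : EE n) (R : ℝ) (z : EE n) : ℝ :=
  A.fu (‖z‖ / R) (ecos e z)

/-- the contraction factor -/
noncomputable def aLam (A : Aniso) (e : EE n) (τ R : ℝ) (z : EE n) : ℝ := 1 - τ * aphi A e R z

/-- the contraction -/
noncomputable def aContract (A : Aniso) (e : EE n) (τ R : ℝ) (z : EE n) : EE n :=
  aLam A e τ R z • z

/-- the gradient of the contraction factor -/
noncomputable def aShear (A : Aniso) (e : EE n) (τ R : ℝ) (z : EE n) : EE n :=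
  (-τ) • ((atft A e R z / ‖z‖ ^ 2) • z + (afu A e R z / ‖z‖) • eperp e z)

/-- the derivative of the contraction -/
noncomputable def aContractD (A : Aniso) (e : EE n) (τ R : ℝ) (z : EE n) : EE n →L[ℝ] EE n :=
  aLam A e τ R z • ContinuousLinearMap.id ℝ (EE n) + (innerSL ℝ (aShear A e τ R z)).smulRight z

theorem aContractD_apply (A : Aniso) (e : EE n) (τ R : ℝ) (z a : EE n) :
    aContractD A e τ R z a = aLam A e τ R z • a + ⟪aShear A e τ R z, a⟫ • z := by
  simp [aContractD]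

theorem continuousAt_ecos (e : EE n) {z : EE n} (hz : z ≠ 0) : ContinuousAt (ecos e) z :=
  ((continuous_const.inner continuous_id).continuousAt).div continuous_norm.continuousAt
    (norm_ne_zero_iff.2 hz)

theorem continuous_aphi (A : Aniso) (e : EE n) {R : ℝ} (hR : 0 < R) :
    Continuous (aphi A e R) := by
  rw [continuous_iff_continuousAt]
  intro z
  rcases eq_or_ne z 0 with rfl | hz
  · obtain ⟨ε, hε, hflat⟩ := A.exists_flat
    have hc : Continuous fun w : EE n => A.f (‖w‖ / R) 0 :=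
      A.continuous_wf.comp ((continuous_norm.div_const R).prodMk continuous_const)
    refine hc.continuousAt.congr ?_
    filter_upwards [Metric.ball_mem_nhds (0 : EE n) (mul_pos hε hR)] with w hw
    exact ((hflat _ _ ((div_lt_iff₀ hR).2 (mem_ball_zero_iff.1 hw))).2).symm
  · exact A.continuous_wf.continuousAt.comp
      (((continuous_norm.div_const R).continuousAt).prodMk (continuousAt_ecos e hz))

theorem afu_eventually_zero (A : Aniso) (e : EE n) {R : ℝ} (hR : 0 < R) :
    afu A e R =ᶠ[𝓝 0] fun _ => 0 := by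
  obtain ⟨ε, hε, hflat⟩ := A.exists_flat
  filter_upwards [Metric.ball_mem_nhds (0 : EE n) (mul_pos hε hR)] with w hw
  exact (hflat _ _ ((div_lt_iff₀ hR).2 (mem_ball_zero_iff.1 hw))).1

theorem continuous_afu (A : Aniso) (e : EE n) {R : ℝ} (hR : 0 < R) : Continuous (afu A e R) := by
  rw [continuous_iff_continuousAt]
  intro z
  rcases eq_or_ne z 0 with rfl | hz
  · exact continuousAt_const.congr (afu_eventually_zero A e hR).symm
  · exact A.cont_fu.continuousAt.comp
      (((continuous_norm.div_const R).continuousAt).prodMk (continuousAt_ecos e hz))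

theorem continuous_atft (A : Aniso) {e : EE n} (he : ‖e‖ = 1) {R : ℝ} (hR : 0 < R) :
    Continuous (atft A e R) := by
  rw [continuous_iff_continuousAt]
  intro z
  rcases eq_or_ne z 0 with rfl | hz
  · obtain ⟨M, hM⟩ := ((isCompact_Icc (a := (0 : ℝ)) (b := 1)).prod
      (isCompact_Icc (a := (-1 : ℝ)) (b := 1))).exists_bound_of_continuousOn A.cont_ft.continuousOn
    have h0 : atft A e R (0 : EE n) = 0 := by simp [atft]
    rw [ContinuousAt, h0]
    refine squeeze_zero_norm' (a := fun w : EE n => ‖w‖ / R * M) ?_ ?_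
    · filter_upwards [Metric.ball_mem_nhds (0 : EE n) hR] with w hw
      have hw' : ‖w‖ / R ∈ Icc (0 : ℝ) 1 :=
        ⟨by positivity, (div_le_one hR).2 (mem_ball_zero_iff.1 hw).le⟩
      rw [atft, norm_mul, Real.norm_of_nonneg hw'.1]
      exact mul_le_mul_of_nonneg_left (hM (‖w‖ / R, ecos e w) ⟨hw', ecos_mem he w⟩) hw'.1
    · simpa using (((continuous_norm (E := EE n)).div_const R).mul_const M).tendsto 0
  · exact ((continuous_norm.div_const R).continuousAt).mul (A.cont_ft.continuousAt.comp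
      (((continuous_norm.div_const R).continuousAt).prodMk (continuousAt_ecos e hz)))

theorem norm_aShear_le (A : Aniso) {e : EE n} (he : ‖e‖ = 1) (τ R : ℝ) (z : EE n) :
    ‖aShear A e τ R z‖ * ‖z‖
      ≤ |τ| * (|atft A e R z| + |afu A e R z| * √(1 - ecos e z ^ 2)) := by
  rcases eq_or_ne z 0 with rfl | hz
  · simp
    positivity
  have hz' : 0 < ‖z‖ := norm_pos_iff.2 hz
  rw [aShear, norm_smul, Real.norm_eq_abs, abs_neg, mul_assoc]
  refine mul_le_mul_of_nonneg_left ?_ (abs_nonneg τ)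
  refine (mul_le_mul_of_nonneg_right (norm_add_le _ _) hz'.le).trans (le_of_eq ?_)
  rw [norm_smul, norm_smul, norm_eperp he hz, Real.norm_eq_abs, Real.norm_eq_abs, abs_div, abs_div,
    abs_pow, abs_norm]
  field_simp

theorem continuous_aContractD (A : Aniso) {e : EE n} (he : ‖e‖ = 1) (τ : ℝ) {R : ℝ} (hR : 0 < R) :
    Continuous (aContractD A e τ R) := by
  rw [continuous_clm_apply]
  intro a
  simp only [aContractD_apply]
  refine ((continuous_const.sub (continuous_const.mul (continuous_aphi A e hR))).smul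
    continuous_const).add ?_
  rw [continuous_iff_continuousAt]
  intro z
  rcases eq_or_ne z 0 with rfl | hz
  · rw [ContinuousAt]
    simp only [smul_zero]
    refine squeeze_zero_norm
      (a := fun w => |τ| * (|atft A e R w| + |afu A e R w|) * ‖a‖) (fun w => ?_) ?_
    · rw [norm_smul]
      refine (mul_le_mul_of_nonneg_right (norm_inner_le_norm _ _) (norm_nonneg _)).trans ?_
      rw [mul_right_comm]
      refine mul_le_mul_of_nonneg_right ((norm_aShear_le A he τ R w).trans ?_) (norm_nonneg _)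
      refine mul_le_mul_of_nonneg_left (add_le_add le_rfl (mul_le_of_le_one_right (abs_nonneg _) ?_))
        (abs_nonneg _)
      exact Real.sqrt_le_one.2 (sub_le_self _ (sq_nonneg _))
    · have hc : Continuous fun w => |τ| * (|atft A e R w| + |afu A e R w|) * ‖a‖ :=
        ((continuous_const.mul ((continuous_atft A he hR).abs.add
          (continuous_afu A e hR).abs))).mul continuous_const
      have h0 : afu A e R (0 : EE n) = 0 := (afu_eventually_zero A e hR).self_of_nhds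
      simpa [atft, h0] using hc.tendsto 0
  · have hz' : ‖z‖ ≠ 0 := norm_ne_zero_iff.2 hz
    have h1 := (continuous_atft A he hR).continuousAt (x := z)
    have h2 := (continuous_afu A e hR).continuousAt (x := z)
    have h3 := continuousAt_ecos e hz
    have h4 : ContinuousAt (aShear A e τ R) z :=
      (((h1.div (continuous_norm.continuousAt.pow 2) (pow_ne_zero _ hz')).smul continuousAt_id).add
        ((h2.div continuous_norm.continuousAt hz').smul
          (continuousAt_const.sub ((h3.div continuous_norm.continuousAt hz').smul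
            continuousAt_id)))).const_smul (-τ)
    exact (ContinuousAt.inner (𝕜 := ℝ) h4 continuousAt_const).smul continuousAt_id

theorem hasFDerivAt_aContract (A : Aniso) (e : EE n) (τ : ℝ) {R : ℝ} (hR : 0 < R) (z : EE n) :
    HasFDerivAt (aContract A e τ R) (aContractD A e τ R z) z := by
  rcases eq_or_ne z 0 with rfl | hz
  · have hD : aContractD A e τ R (0 : EE n)
        = aLam A e τ R (0 : EE n) • ContinuousLinearMap.id ℝ (EE n) := by
      ext a; simp [aContractD]
    rw [hD, hasFDerivAt_iff_isLittleO_nhds_zero]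
    have hc : Tendsto (fun h : EE n => aLam A e τ R h - aLam A e τ R (0 : EE n)) (𝓝 0) (𝓝 0) := by
      have : Continuous fun h : EE n => aLam A e τ R h - aLam A e τ R (0 : EE n) :=
        (continuous_const.sub (continuous_const.mul (continuous_aphi A e hR))).sub continuous_const
      simpa using this.tendsto 0
    have := ((Asymptotics.isLittleO_one_iff ℝ).2 hc).smul_isBigO
      (Asymptotics.isBigO_refl (fun h : EE n => h) (𝓝 0))
    simp only [one_smul] at this
    refine this.congr_left fun h => ?_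
    simp [aContract, sub_smul]
  · have hz' : 0 < ‖z‖ := norm_pos_iff.2 hz
    have hn : HasFDerivAt (fun w : EE n => ‖w‖) (‖z‖⁻¹ • innerSL ℝ z) z := by
      have h := (hasStrictFDerivAt_norm_sq z).hasFDerivAt.sqrt (by positivity)
      simp only [Real.sqrt_sq (norm_nonneg _)] at h
      refine h.congr_fderiv ?_
      ext a
      simp
      field_simp
    have h1 : HasFDerivAt (fun w : EE n => ‖w‖ / R) (R⁻¹ • (‖z‖⁻¹ • innerSL ℝ z)) z := by
      simpa [div_eq_mul_inv] using hn.mul_const R⁻¹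
    have h2 : HasFDerivAt (ecos e)
        (⟪e, z⟫ • ((-(‖z‖ ^ 2)⁻¹) • (‖z‖⁻¹ • innerSL ℝ z)) + ‖z‖⁻¹ • innerSL ℝ e) z := by
      have h := (innerSL ℝ e).hasFDerivAt.mul
        ((hasDerivAt_inv hz'.ne').comp_hasFDerivAt z hn)
      exact h.congr_of_eventuallyEq (Eventually.of_forall fun w => div_eq_mul_inv _ _)
    have h3 := (((A.hasDeriv (‖z‖ / R) (ecos e z)).comp z (h1.prodMk h2)).const_mul τ).const_sub 1
    have hf : HasFDerivAt (fun w : EE n => aLam A e τ R w) (innerSL ℝ (aShear A e τ R z)) z := by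
      refine h3.congr_fderiv ?_
      ext a
      simp [aShear, atft, afu, eperp, inner_add_left, inner_sub_left, real_inner_smul_left]
      simp only [ecos]
      field_simp
      ring
    refine (hf.smul (hasFDerivAt_id z)).congr_fderiv ?_
    ext a
    simp [aContractD_apply]

theorem contDiff_aContract (A : Aniso) {e : EE n} (he : ‖e‖ = 1) (τ : ℝ) {R : ℝ} (hR : 0 < R) :
    ContDiff ℝ 1 (aContract A e τ R) :=
  contDiff_one_iff_hasFDerivAt.2
    ⟨_, continuous_aContractD A he τ hR, hasFDerivAt_aContract A e τ hR⟩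

theorem det_aContractD (A : Aniso) (e : EE n) (τ R : ℝ) (z : EE n)
    (hl : aLam A e τ R z ≠ 0) :
    (aContractD A e τ R z).det
      = aLam A e τ R z ^ n * (1 - τ * atft A e R z / aLam A e τ R z) := by
  rw [aContractD, det_rankOne_add hl]
  rcases eq_or_ne z 0 with rfl | hz
  · simp [atft]
  have hz' : ‖z‖ ≠ 0 := norm_ne_zero_iff.2 hz
  rw [aShear, real_inner_smul_left, inner_add_left, real_inner_smul_left, real_inner_smul_left,
    inner_eperp e hz, real_inner_self_eq_norm_sq]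
  field_simp
  ring

theorem det_aContractD_eq (hn : n ≠ 0) (A : Aniso) (e : EE n) (τ R : ℝ) (z : EE n)
    (hl : aLam A e τ R z ≠ 0) :
    (aContractD A e τ R z).det
      = (1 - τ * (aphi A e R z + atft A e R z)) * (1 - τ * aphi A e R z) ^ (n - 1) := by
  rw [det_aContractD A e τ R z hl]
  have hp : aLam A e τ R z ^ n = aLam A e τ R z ^ (n - 1) * aLam A e τ R z := by
    rw [← pow_succ]; congr 1; omega
  rw [hp]
  field_simp
  rw [aLam]
  ring

/-- the derivative of the weight along rays -/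
theorem hasDerivAt_aphi_ray (A : Aniso) (e : EE n) (R : ℝ) (z : EE n) {s : ℝ} (hs : 0 < s) :
    HasDerivAt (fun r => aphi A e R (r • z)) (atft A e R (s • z) / s) s := by
  have hnz : ∀ r : ℝ, 0 < r → ‖r • z‖ / R = r * (‖z‖ / R) := fun r hr => by
    rw [norm_smul, Real.norm_of_nonneg hr.le, mul_div_assoc]
  have h := (A.hasDerivAt_fst (s * (‖z‖ / R)) (ecos e z)).comp s
    ((hasDerivAt_id s).mul_const (‖z‖ / R))
  refine (h.congr_of_eventuallyEq ?_).congr_deriv ?_
  · filter_upwards [Ioi_mem_nhds hs] with r hr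
    simp [aphi, ecos_smul e z hr, hnz r hr]
  · rw [atft, ecos_smul e z hs, hnz s hs]
    field_simp

variable {A : Aniso} {e : EE n} {C τ R : ℝ}
  (hC : ∀ t u, 0 ≤ t → u ∈ Icc (-1 : ℝ) 1 →
    |A.f t u| ≤ C ∧ |t * A.f t u| ≤ C ∧ |t * A.ft t u| ≤ C ∧ |A.fu t u| ≤ C)
  (he : ‖e‖ = 1)
include hC he

theorem abs_aniso_le (hR : 0 < R) (z : EE n) :
    |aphi A e R z| ≤ C ∧ |atft A e R z| ≤ C ∧ |afu A e R z| ≤ C := by
  obtain ⟨h1, -, h3, h4⟩ := hC (‖z‖ / R) (ecos e z) (by positivity) (ecos_mem he z)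
  exact ⟨h1, h3, h4⟩

theorem aLam_mem (hR : 0 < R) (hτ : 0 ≤ τ) (h4 : τ * C ≤ 1 / 4) (z : EE n) :
    aLam A e τ R z ∈ Icc (3 / 4 : ℝ) 1 := by
  have h := mul_le_mul_of_nonneg_left (le_of_abs_le (abs_aniso_le hC he hR z).1) hτ
  have h0 : 0 ≤ τ * aphi A e R z :=
    mul_nonneg hτ (A.f_nonneg _ _ (by positivity) (ecos_mem he z))
  unfold aLam
  constructor <;> linarith

theorem det_aContractD_ne (hR : 0 < R) (hτ : 0 ≤ τ) (h4 : τ * C ≤ 1 / 4) (z : EE n) :
    (aContractD A e τ R z).det ≠ 0 := by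
  have hl := (aLam_mem hC he hR hτ h4 z).1
  have hl0 : 0 < aLam A e τ R z := by linarith
  rw [det_aContractD A e τ R z hl0.ne']
  have h := mul_le_mul_of_nonneg_left (le_of_abs_le (abs_aniso_le hC he hR z).2.1) hτ
  have : τ * atft A e R z / aLam A e τ R z < 1 := by
    rw [div_lt_one hl0]; linarith
  exact (mul_pos (pow_pos hl0 _) (by linarith)).ne'

theorem exists_aContract_homeo (hR : 0 < R) (hτ : 0 ≤ τ) (h4 : τ * C ≤ 1 / 4) :
    ∃ h : EE n ≃ₜ EE n,
      (∀ z, h z = aContract A e τ R z) ∧ ContDiff ℝ 1 (h.symm : EE n → EE n) := by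
  have hC0 : 0 ≤ C := le_trans (abs_nonneg _) (abs_aniso_le hC he hR 0).1
  set c : NNReal := ⟨3 * (τ * C), by positivity⟩ with hc
  have hb : ∀ z : EE n,
      ‖aContractD A e τ R z - ContinuousLinearMap.id ℝ (EE n)‖ ≤ 3 * (τ * C) := by
    intro z
    refine ContinuousLinearMap.opNorm_le_bound _ (by positivity) fun a => ?_
    have e' : (aContractD A e τ R z - ContinuousLinearMap.id ℝ (EE n)) a
        = (-(τ * aphi A e R z)) • a + ⟪aShear A e τ R z, a⟫ • z := by
      simp [aContractD_apply, aLam, sub_smul]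
      abel
    rw [e']
    refine (norm_add_le _ _).trans ?_
    rw [norm_smul, norm_smul, norm_neg, norm_mul, Real.norm_of_nonneg hτ]
    obtain ⟨h1, h2, h3⟩ := abs_aniso_le hC he hR z
    have h5 : ‖⟪aShear A e τ R z, a⟫‖ * ‖z‖ ≤ τ * (C + C) * ‖a‖ := by
      refine (mul_le_mul_of_nonneg_right (norm_inner_le_norm _ _) (norm_nonneg _)).trans ?_
      rw [mul_right_comm]
      refine mul_le_mul_of_nonneg_right ((norm_aShear_le A he τ R z).trans ?_) (norm_nonneg _)
      rw [abs_of_nonneg hτ]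
      refine mul_le_mul_of_nonneg_left (add_le_add h2 ((mul_le_of_le_one_right (abs_nonneg _)
        (Real.sqrt_le_one.2 (sub_le_self _ (sq_nonneg _)))).trans h3)) hτ
    have h6 := mul_le_mul_of_nonneg_right (mul_le_mul_of_nonneg_left h1 hτ) (norm_nonneg a)
    rw [← Real.norm_eq_abs] at h6
    linarith
  have happ : ApproximatesLinearOn (aContract A e τ R)
      ((ContinuousLinearEquiv.refl ℝ (EE n) : EE n →L[ℝ] EE n)) univ c := by
    intro x _ y _
    refine convex_univ.norm_image_sub_le_of_norm_hasFDerivWithin_le'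
      (fun z _ => (hasFDerivAt_aContract A e τ hR z).hasFDerivWithinAt) (fun z _ => ?_)
      (mem_univ y) (mem_univ x)
    exact hb z
  have hlt : Subsingleton (EE n) ∨ c <
      ‖((ContinuousLinearEquiv.refl ℝ (EE n)).symm : EE n →L[ℝ] EE n)‖₊⁻¹ := by
    rcases subsingleton_or_nontrivial (EE n) with h | h
    · exact Or.inl h
    · right
      have : ‖((ContinuousLinearEquiv.refl ℝ (EE n)).symm : EE n →L[ℝ] EE n)‖₊ = 1 := by
        apply NNReal.eq
        simp
      rw [this, inv_one, ← NNReal.coe_lt_coe, hc]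
      simp only [NNReal.coe_one]
      show 3 * (τ * C) < 1
      linarith
  refine ⟨happ.toHomeomorph _ hlt, fun z => rfl, ?_⟩
  refine Homeomorph.contDiff_symm _
    (f₀' := fun z => (aContractD A e τ R z).toContinuousLinearEquivOfDetNeZero
      (det_aContractD_ne hC he hR hτ h4 z)) (fun z => ?_) (contDiff_aContract A he τ hR)
  rw [ContinuousLinearMap.coe_toContinuousLinearEquivOfDetNeZero]
  exact hasFDerivAt_aContract A e τ hR z

omit hC he in
theorem prod_le_exp (m : ℕ) {a b ε : ℝ} (ha : |a| ≤ ε) (hb : |b| ≤ ε) (hε : ε ≤ 1 / 20) :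
    (1 - a) * (1 - b) ^ m ≤ Real.exp (((m : ℝ) + 1) * ε) := by
  obtain ⟨ha1, ha2⟩ := abs_le.1 ha
  obtain ⟨hb1, hb2⟩ := abs_le.1 hb
  have hea : 1 - a ≤ Real.exp ε := by linarith [Real.add_one_le_exp ε]
  have heb : 1 - b ≤ Real.exp ε := by linarith [Real.add_one_le_exp ε]
  calc (1 - a) * (1 - b) ^ m ≤ Real.exp ε * Real.exp ε ^ m :=
        mul_le_mul hea (pow_le_pow_left₀ (by linarith) heb m) (pow_nonneg (by linarith) _)
          (Real.exp_pos _).le
    _ = _ := by rw [← Real.exp_nat_mul, ← Real.exp_add]; ring_nf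

omit hC he in
theorem inv_one_sub_le_exp {t ε : ℝ} (ht : |t| ≤ ε) (hε : ε ≤ 1 / 20) :
    (1 - t)⁻¹ ≤ Real.exp (2 * ε) := by
  obtain ⟨h1, h2⟩ := abs_le.1 ht
  refine le_trans ?_ (Real.add_one_le_exp _)
  rw [inv_le_iff_one_le_mul₀ (by linarith)]
  nlinarith [mul_nonneg (by linarith : (0:ℝ) ≤ 2 * ε + 1) (by linarith : (0:ℝ) ≤ ε - t)]

omit hC he in
theorem aniso_ratio (m : ℕ) {a b ε : ℝ} (ha : |a| ≤ ε) (hb : |b| ≤ ε) (hε : ε ≤ 1 / 20)
    (hx : ((m : ℝ) + 8) * ε ≤ 1) :
    (1 - a) * (1 - b) ^ m / ((1 - a) * (1 - b) ^ 2) * (1 + ε) ≤ 1 + 2 * (((m : ℝ) + 8) * ε) := by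
  obtain ⟨ha1, ha2⟩ := abs_le.1 ha
  obtain ⟨hb1, hb2⟩ := abs_le.1 hb
  have hA : 0 < 1 - a := by linarith
  have hB : 0 < 1 - b := by linarith
  have h0 : 0 ≤ ε := le_trans (abs_nonneg a) ha
  have ia := inv_one_sub_le_exp ha hε
  have ib := inv_one_sub_le_exp hb hε
  have hE : ε + 1 ≤ Real.exp ε := Real.add_one_le_exp ε
  have h1 : (1 - a) * (1 - b) ^ m / ((1 - a) * (1 - b) ^ 2) * (1 + ε)
      ≤ Real.exp (((m : ℝ) + 1) * ε) * (Real.exp (2 * ε) * Real.exp (2 * ε) ^ 2) * Real.exp ε := by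
    rw [div_eq_mul_inv ((1 - a) * (1 - b) ^ m), mul_inv, ← inv_pow]
    refine mul_le_mul ?_ (by linarith) (by linarith) (by positivity)
    exact mul_le_mul (prod_le_exp m ha hb hε)
      (mul_le_mul ia (pow_le_pow_left₀ (inv_nonneg.2 hB.le) ib 2)
        (pow_nonneg (inv_nonneg.2 hB.le) _) (Real.exp_pos _).le)
      (mul_nonneg (inv_nonneg.2 hA.le) (pow_nonneg (inv_nonneg.2 hB.le) _)) (Real.exp_pos _).le
  have h2 : Real.exp (((m : ℝ) + 1) * ε) * (Real.exp (2 * ε) * Real.exp (2 * ε) ^ 2) * Real.exp ε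
      = Real.exp (((m : ℝ) + 8) * ε) := by
    rw [← Real.exp_nat_mul, ← Real.exp_add, ← Real.exp_add, ← Real.exp_add]
    push_cast; ring_nf
  have hx0 : 0 ≤ ((m : ℝ) + 8) * ε := by positivity
  have h3 := (abs_le.1 (Real.abs_exp_sub_one_sub_id_le (by rwa [abs_of_nonneg hx0]))).2
  have h4 : (((m : ℝ) + 8) * ε) ^ 2 ≤ ((m : ℝ) + 8) * ε := pow_le_of_le_one hx0 hx two_ne_zero
  linarith

omit hC he in
/-- the total variation factor with shear to first order -/
theorem aniso_tv_factor (m : ℕ) {a b d ε c : ℝ} (ha : |a| ≤ ε) (hb : |b| ≤ ε) (hd0 : 0 ≤ d)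
    (hd : d ≤ ε) (hc : |c| ≤ 1) (hε : ((m : ℝ) + 20) * ε ≤ 1) :
    (1 - a) * (1 - b) ^ m
        * √(c ^ 2 / (1 - a) ^ 2 + (√(1 - c ^ 2) / (1 - b) + |c| * d / ((1 - a) * (1 - b))) ^ 2)
      ≤ 1 - ((1 - c ^ 2) * a + ((m : ℝ) - 1 + c ^ 2) * b) + |c| * d * √(1 - c ^ 2)
        + 3 * ((m : ℝ) + 20) ^ 2 * ε ^ 2 := by
  have hm : (0 : ℝ) ≤ m := Nat.cast_nonneg m
  obtain ⟨ha1, ha2⟩ := abs_le.1 ha
  obtain ⟨hb1, hb2⟩ := abs_le.1 hb
  have h0 : 0 ≤ ε := le_trans (abs_nonneg a) ha
  have hle : ε ≤ 1 / 20 := by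
    have := mul_nonneg hm h0
    linarith
  have hc2 : c ^ 2 ≤ 1 := (sq_le_one_iff_abs_le_one c).2 hc
  have hA : 0 < 1 - a := by linarith
  have hB : 0 < 1 - b := by linarith
  set s := √(1 - c ^ 2) with hs
  have hs0 : 0 ≤ s := Real.sqrt_nonneg _
  have hs2 : s ^ 2 = 1 - c ^ 2 := Real.sq_sqrt (by linarith)
  have hs1 : s ≤ 1 := Real.sqrt_le_one.2 (sub_le_self _ (sq_nonneg _))
  set X := (1 - c ^ 2) / (1 - b) ^ 2 + c ^ 2 / (1 - a) ^ 2 with hX
  set P := (1 - a) * (1 - b) ^ m with hP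
  set E := |c| * d / ((1 - a) * (1 - b)) with hE
  have hP0 : 0 ≤ P := by positivity
  have hE0 : 0 ≤ E := by positivity
  have hXb : ((1 + ε)⁻¹) ^ 2 ≤ X := by
    have i1 : ((1 + ε)⁻¹) ^ 2 ≤ 1 / (1 - a) ^ 2 := by
      rw [inv_pow, ← one_div]
      exact one_div_le_one_div_of_le (by positivity) (pow_le_pow_left₀ hA.le (by linarith) 2)
    have i2 : ((1 + ε)⁻¹) ^ 2 ≤ 1 / (1 - b) ^ 2 := by
      rw [inv_pow, ← one_div]
      exact one_div_le_one_div_of_le (by positivity) (pow_le_pow_left₀ hB.le (by linarith) 2)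
    have j1 := mul_le_mul_of_nonneg_left i1 (sq_nonneg c)
    have j2 := mul_le_mul_of_nonneg_left i2 (show 0 ≤ 1 - c ^ 2 by linarith)
    rw [hX, div_eq_mul_one_div (1 - c ^ 2), div_eq_mul_one_div (c ^ 2)]
    linarith
  have hX0 : 0 ≤ X := le_trans (sq_nonneg _) hXb
  have hrX : (1 + ε)⁻¹ ≤ √X := Real.le_sqrt_of_sq_le hXb
  have hstep : √(c ^ 2 / (1 - a) ^ 2 + (s / (1 - b) + E) ^ 2)
      ≤ √X + (s / (1 - b) * E + E ^ 2 / 2) * (1 + ε) := by
    rw [Real.sqrt_le_iff]
    have hq : 0 ≤ s / (1 - b) * E + E ^ 2 / 2 := by positivity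
    refine ⟨by positivity, ?_⟩
    have h1 : (1 : ℝ) ≤ √X * (1 + ε) := by
      calc (1 : ℝ) = (1 + ε)⁻¹ * (1 + ε) := by field_simp
        _ ≤ √X * (1 + ε) := mul_le_mul_of_nonneg_right hrX (by linarith)
    have h2 := mul_le_mul_of_nonneg_left h1 hq
    have e1 : c ^ 2 / (1 - a) ^ 2 + (s / (1 - b) + E) ^ 2
        = X + 2 * (s / (1 - b) * E + E ^ 2 / 2) := by
      rw [hX, add_sq, div_pow, hs2]; ring
    rw [e1]
    nlinarith [Real.sq_sqrt hX0, sq_nonneg ((s / (1 - b) * E + E ^ 2 / 2) * (1 + ε))]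
  have hbase := tv_factor m ha hb hc hε
  rw [← hX, ← hP] at hbase
  have hE2 : E ≤ 2 * ε := by
    rw [hE, div_le_iff₀ (mul_pos hA hB)]
    have h1 : (1 / 2 : ℝ) ≤ (1 - a) * (1 - b) :=
      le_trans (by norm_num : (1 / 2 : ℝ) ≤ 19 / 20 * (19 / 20))
        (mul_le_mul (by linarith) (by linarith) (by norm_num) hA.le)
    calc |c| * d ≤ ε := (mul_le_of_le_one_left hd0 hc).trans hd
      _ = 2 * ε * (1 / 2) := by ring
      _ ≤ _ := mul_le_mul_of_nonneg_left h1 (by linarith)
  set x := ((m : ℝ) + 8) * ε with hx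
  have hx0 : 0 ≤ x := by positivity
  have hx1 : x ≤ 1 :=
    le_trans (mul_le_mul_of_nonneg_right (by linarith) h0) hε
  have hΦ : P / ((1 - a) * (1 - b) ^ 2) * (1 + ε) ≤ 1 + 2 * x := aniso_ratio m ha hb hle hx1
  have hPe : P ≤ Real.exp (((m : ℝ) + 1) * ε) := prod_le_exp m ha hb hle
  have hP3 : P * (1 + ε) ≤ 6 := by
    have h1 : Real.exp (((m : ℝ) + 1) * ε) ≤ 3 :=
      (Real.exp_le_exp.2 (le_trans (mul_le_mul_of_nonneg_right (by linarith) h0) hε :
        ((m : ℝ) + 1) * ε ≤ 1)).trans Real.exp_one_lt_three.le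
    calc P * (1 + ε) ≤ 3 * 2 :=
          mul_le_mul (hPe.trans h1) (by linarith) (by linarith) (by norm_num)
      _ = 6 := by norm_num
  have hcds : |c| * d * s ≤ ε :=
    (mul_le_of_le_one_right (by positivity) hs1).trans
      ((mul_le_of_le_one_left hd0 hc).trans hd)
  have k1 : P * (s / (1 - b) * E * (1 + ε)) ≤ |c| * d * s + 2 * x * ε := by
    have e1 : P * (s / (1 - b) * E * (1 + ε))
        = |c| * d * s * (P / ((1 - a) * (1 - b) ^ 2) * (1 + ε)) := by
      rw [hE]; field_simp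
    rw [e1]
    refine (mul_le_mul_of_nonneg_left hΦ (by positivity)).trans ?_
    have := mul_le_mul_of_nonneg_right hcds hx0
    linarith
  have k2 : P * (E ^ 2 / 2 * (1 + ε)) ≤ 12 * ε ^ 2 := by
    have h1 : E ^ 2 ≤ (2 * ε) ^ 2 := pow_le_pow_left₀ hE0 hE2 2
    have := mul_le_mul hP3 h1 (sq_nonneg E) (by norm_num)
    linarith
  have h := mul_le_mul_of_nonneg_left hstep hP0
  refine h.trans ?_
  have k3 : (16 + ((m : ℝ) + 20) ^ 2) * ε ^ 2 + 2 * x * ε + 12 * ε ^ 2
      ≤ 3 * ((m : ℝ) + 20) ^ 2 * ε ^ 2 := by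
    have : 16 + ((m : ℝ) + 20) ^ 2 + 2 * ((m : ℝ) + 8) + 12 ≤ 3 * ((m : ℝ) + 20) ^ 2 := by
      nlinarith only [mul_nonneg hm hm, hm]
    have := mul_le_mul_of_nonneg_right this (sq_nonneg ε)
    rw [hx]; linarith
  rw [mul_add, add_mul, mul_add]
  linarith

end Vale.Agent.P219
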