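import Vale.Agent.P219.Var.Chart
import Vale.Agent.P219.Var.AnisoMap

/-!
# P219 module Var.AnisoChart: the pointwise bound of the variation of the total variation

The derivative of the anisotropic contraction has a shear part along the tangential part of `e`.
In normal coordinates the pulled back metric dominates the Euclidean one (Rauch), so this part
moves the covector by at most `τ |f_u| |c| √(1-u²)`, orthogonally to the radial direction.
-/

open MeasureTheory Set Filter Topology ContinuousLinearMap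
open scoped RealInnerProductSpace

namespace Vale.Agent.P219

variable {n : ℕ} {G : EE n → Form n}

/-- the dual vector of `w ↦ ⟪w₀, w⟫` in a frame dominating the Euclidean one is not longer -/
theorem exists_frame_dual {S : EE n →L[ℝ] EE n} (hS : S.det ≠ 0)
    (hge : ∀ a, ⟪a, a⟫ ≤ ⟪S a, S a⟫) (w₀ : EE n) :
    ∃ w : EE n, (∀ a, ⟪w, S a⟫ = ⟪w₀, a⟫) ∧ ‖w‖ ≤ ‖w₀‖ := by
  set Se := S.toContinuousLinearEquivOfDetNeZero hS with hSe
  set w := (InnerProductSpace.toDual ℝ (EE n)).symm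
    ((innerSL ℝ w₀).comp (Se.symm : EE n →L[ℝ] EE n)) with hw
  have h1 : ∀ b, ⟪w, b⟫ = ⟪w₀, Se.symm b⟫ := fun b => by
    simp [hw, InnerProductSpace.toDual_symm_apply]
  have hSb : ∀ b, S (Se.symm b) = b := fun b => by
    rw [show S (Se.symm b) = Se (Se.symm b) from
      (S.toContinuousLinearEquivOfDetNeZero_apply hS _).symm, Se.apply_symm_apply]
  refine ⟨w, fun a => ?_, ?_⟩
  · rw [h1, show S a = Se a from (S.toContinuousLinearEquivOfDetNeZero_apply hS a).symm,
      Se.symm_apply_apply]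
  · have h2 : ‖Se.symm w‖ ≤ ‖w‖ := by
      have := hge (Se.symm w)
      rw [hSb, real_inner_self_eq_norm_sq, real_inner_self_eq_norm_sq] at this
      exact (pow_le_pow_iff_left₀ (norm_nonneg _) (norm_nonneg _) two_ne_zero).1 this
    rcases (norm_nonneg w).lt_or_eq with h | h
    · have h3 : ‖w‖ * ‖w‖ ≤ ‖w₀‖ * ‖w‖ := by
        rw [← real_inner_self_eq_norm_mul_norm, h1]
        exact (real_inner_le_norm _ _).trans (mul_le_mul_of_nonneg_left h2 (norm_nonneg _))
      exact le_of_mul_le_mul_right h3 h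
    · rw [← h]; exact norm_nonneg _

/-- the representative of a covector in a sheared frame -/
theorem exists_sheared_covector {S : EE n →L[ℝ] EE n} {η₀ w z : EE n} {c l h k : ℝ} (hz : z ≠ 0)
    (hSz : ∀ a, ⟪S z, S a⟫ = ⟪z, a⟫) (hc : ⟪η₀, S z⟫ = -c * (‖z‖ * ‖η₀‖)) (hc1 : |c| ≤ 1)
    (hl : 0 < l) (hh : 0 < h) (hw : ⟪w, S z⟫ = 0) :
    ∃ η : EE n, (∀ a, ⟪η₀, S a⟫
        = ⟪η, l • S a + ((h - l) / ‖z‖ ^ 2 * ⟪S z, S a⟫ + k * ⟪w, S a⟫) • S z⟫) ∧
      ‖η‖ ≤ ‖η₀‖
        * √(c ^ 2 / h ^ 2 + (√(1 - c ^ 2) / l + |c| * (|k| * ‖z‖ * ‖w‖) / (h * l)) ^ 2) := by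
  have hz' : 0 < ‖z‖ := norm_pos_iff.2 hz
  have hSzz : ⟪S z, S z⟫ = ‖z‖ ^ 2 := by rw [hSz, real_inner_self_eq_norm_sq]
  have hnSz : ‖S z‖ ^ 2 = ‖z‖ ^ 2 := by rw [← real_inner_self_eq_norm_sq, hSzz]
  set Y := η₀ + (c * ‖η₀‖ / ‖z‖) • S z with hY
  have hYz : ⟪Y, S z⟫ = 0 := by
    rw [hY, inner_add_left, real_inner_smul_left, hc, hSzz]
    field_simp
    ring
  have hc2 : c ^ 2 ≤ 1 := (sq_le_one_iff_abs_le_one c).2 hc1
  have hYn : ‖Y‖ = ‖η₀‖ * √(1 - c ^ 2) := by
    rw [← Real.sqrt_sq (norm_nonneg Y)]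
    conv_rhs => rw [← Real.sqrt_sq (norm_nonneg η₀), ← Real.sqrt_mul (sq_nonneg _)]
    congr 1
    rw [hY, norm_add_sq_real, real_inner_smul_right, hc, norm_smul, mul_pow, hnSz,
      Real.norm_eq_abs, sq_abs]
    field_simp
    ring
  set X := l⁻¹ • (Y + (c * ‖η₀‖ * ‖z‖ * k / h) • w) with hX
  have hXz : ⟪X, S z⟫ = 0 := by
    rw [hX, real_inner_smul_left, inner_add_left, real_inner_smul_left, hYz, hw]
    ring
  refine ⟨(-(c * ‖η₀‖ / (h * ‖z‖))) • S z + X, fun a => ?_, ?_⟩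
  · have hηz : ⟪(-(c * ‖η₀‖ / (h * ‖z‖))) • S z + X, S z⟫ = -(c * ‖η₀‖ * ‖z‖ / h) := by
      rw [inner_add_left, real_inner_smul_left, hXz, hSzz]
      field_simp
      ring
    rw [inner_add_right, real_inner_smul_right, real_inner_smul_right, hηz, inner_add_left,
      real_inner_smul_left, hX, real_inner_smul_left, inner_add_left, real_inner_smul_left, hY,
      inner_add_left, real_inner_smul_left]
    field_simp
    ring
  · have hX1 : ‖X‖ ≤ ‖η₀‖ * (√(1 - c ^ 2) / l + |c| * (|k| * ‖z‖ * ‖w‖) / (h * l)) := by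
      rw [hX, norm_smul, norm_inv, Real.norm_of_nonneg hl.le]
      refine (mul_le_mul_of_nonneg_left (norm_add_le _ _) (inv_nonneg.2 hl.le)).trans (le_of_eq ?_)
      rw [hYn, norm_smul, Real.norm_eq_abs, abs_div, abs_mul, abs_mul, abs_mul, abs_norm, abs_norm,
        abs_of_pos hh]
      field_simp
    rw [← Real.sqrt_sq (norm_nonneg (_ + _)), ← Real.sqrt_sq (norm_nonneg η₀),
      ← Real.sqrt_mul (sq_nonneg _), Real.sqrt_sq (norm_nonneg η₀)]
    refine Real.sqrt_le_sqrt ?_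
    rw [norm_add_sq_real, real_inner_smul_left, real_inner_comm, hXz, norm_smul, mul_pow, hnSz,
      Real.norm_eq_abs, sq_abs, mul_add, ← mul_pow ‖η₀‖]
    have := pow_le_pow_left₀ (norm_nonneg X) hX1 2
    have e1 : (-(c * ‖η₀‖ / (h * ‖z‖))) ^ 2 * ‖z‖ ^ 2 = ‖η₀‖ ^ 2 * (c ^ 2 / h ^ 2) := by
      field_simp
    linarith

/-- the representative of a covector after the anisotropic contraction -/
theorem exists_aniso_covector (A : Aniso) {e : EE n} (he : ‖e‖ = 1) {τ R c : ℝ} (hτ : 0 ≤ τ)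
    {z : EE n} (hl : 0 < 1 - τ * aphi A e R z)
    (hh : 0 < 1 - τ * (aphi A e R z + atft A e R z)) {S : EE n →L[ℝ] EE n} (hS : S.det ≠ 0)
    (hge : ∀ a, ⟪a, a⟫ ≤ ⟪S a, S a⟫) (η₀ : EE n) (hSz : ∀ a, ⟪S z, S a⟫ = ⟪z, a⟫)
    (hc : ⟪η₀, S z⟫ = -c * (‖z‖ * ‖η₀‖)) (hc1 : |c| ≤ 1) :
    ∃ η : EE n, (∀ a, ⟪η₀, S a⟫ = ⟪η, S (aContractD A e τ R z a)⟫) ∧
      ‖η‖ ≤ ‖η₀‖ * √(c ^ 2 / (1 - τ * (aphi A e R z + atft A e R z)) ^ 2
        + (√(1 - c ^ 2) / (1 - τ * aphi A e R z)
          + |c| * (τ * |afu A e R z| * √(1 - ecos e z ^ 2))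
            / ((1 - τ * (aphi A e R z + atft A e R z)) * (1 - τ * aphi A e R z))) ^ 2) := by
  set l := 1 - τ * aphi A e R z with hldef
  set h := 1 - τ * (aphi A e R z + atft A e R z) with hhdef
  rcases eq_or_ne z 0 with rfl | hz
  · have hhl : h = l := by simp [hhdef, hldef, atft]
    refine ⟨l⁻¹ • η₀, fun a => ?_, ?_⟩
    · simp [aContractD_apply, aLam, ← hldef, real_inner_smul_left, real_inner_smul_right]
      field_simp
    · have hc2 : c ^ 2 ≤ 1 := (sq_le_one_iff_abs_le_one c).2 hc1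
      rw [norm_smul, norm_inv, Real.norm_of_nonneg hl.le, mul_comm, hhl]
      refine mul_le_mul_of_nonneg_left (Real.le_sqrt_of_sq_le ?_) (norm_nonneg _)
      have h1 : 0 ≤ |c| * (τ * |afu A e R (0 : EE n)| * √(1 - ecos e (0 : EE n) ^ 2)) / (l * l) := by
        positivity
      have h2 : 0 ≤ √(1 - c ^ 2) / l := div_nonneg (Real.sqrt_nonneg _) hl.le
      have h3 := pow_le_pow_left₀ h2 (le_add_of_nonneg_right h1) 2
      have e3 : (√(1 - c ^ 2) / l) ^ 2 = l⁻¹ ^ 2 - c ^ 2 / l ^ 2 := by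
        rw [div_pow, Real.sq_sqrt (by linarith)]; ring_nf
      linarith
  · have hz' : 0 < ‖z‖ := norm_pos_iff.2 hz
    obtain ⟨w, hw, hwn⟩ := exists_frame_dual hS hge (eperp e z)
    obtain ⟨η, hη, hn⟩ := exists_sheared_covector (l := l) (h := h)
      (k := -(τ * afu A e R z / ‖z‖)) hz hSz hc hc1 hl hh
      (by rw [hw, inner_eperp e hz])
    refine ⟨η, fun a => ?_, hn.trans (mul_le_mul_of_nonneg_left (Real.sqrt_le_sqrt ?_)
      (norm_nonneg _))⟩
    · rw [hη, hSz, hw]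
      congr 1
      rw [aContractD_apply, map_add, map_smul, map_smul]
      congr 2
      rw [aShear, real_inner_smul_left, inner_add_left, real_inner_smul_left,
        real_inner_smul_left, hhdef, hldef]
      ring
    · rw [abs_neg, abs_div, abs_mul, abs_of_nonneg hτ, abs_norm,
        div_mul_cancel₀ _ hz'.ne', ← norm_eperp he hz]
      gcongr

variable {y : EE n} {L : EE n ≃L[ℝ] EE n}
variable (hL : ∀ v w, G y v w = ⟪L v, L w⟫)
include hL

/-- normal coordinates expand -/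
theorem chart_ge (hG : IsCH G) (z a : EE n) :
    ⟪a, a⟫ ≤ G (chart hG y L z) (chartD hG y L z a) (chartD hG y L z a) := by
  have h := pullG_ge hG y (L.symm z) (L.symm a)
  rw [hL, L.apply_symm_apply] at h
  simpa [pullG, chart, chartD] using h

/-- the total variation density after the anisotropic contraction -/
theorem tv_pointwise_aniso (hn : n ≠ 0) (hG : IsCH G)
    (hd : dens G y = |(L : EE n →L[ℝ] EE n).det|) (A : Aniso) {e : EE n} {C τ R c : ℝ}
    (hC : ∀ t u, 0 ≤ t → u ∈ Icc (-1 : ℝ) 1 →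
      |A.f t u| ≤ C ∧ |t * A.f t u| ≤ C ∧ |t * A.ft t u| ≤ C ∧ |A.fu t u| ≤ C)
    (he : ‖e‖ = 1) (hR : 0 < R) (hτ : 0 ≤ τ) (h4 : τ * C ≤ 1 / 4) (z : EE n)
    (p q : EE n →L[ℝ] ℝ)
    (hpq : ∀ a, q (chartD hG y L (aContract A e τ R z) (aContractD A e τ R z a))
      = p (chartD hG y L z a))
    (hc : p (chartD hG y L z z) = -c * (‖z‖ * conorm G (chart hG y L z) p)) (hc1 : |c| ≤ 1) :
    conorm G (chart hG y L (aContract A e τ R z)) q
        * (jac hG y (L.symm (aContract A e τ R z)) * |(aContractD A e τ R z).det|)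
      ≤ conorm G (chart hG y L z) p * jac hG y (L.symm z)
        * ((1 - τ * (aphi A e R z + atft A e R z)) * (1 - τ * aphi A e R z) ^ (n - 1)
          * √(c ^ 2 / (1 - τ * (aphi A e R z + atft A e R z)) ^ 2
            + (√(1 - c ^ 2) / (1 - τ * aphi A e R z)
              + |c| * (τ * |afu A e R z| * √(1 - ecos e z ^ 2))
                / ((1 - τ * (aphi A e R z + atft A e R z)) * (1 - τ * aphi A e R z))) ^ 2)) := by
  obtain ⟨hl0, hl1⟩ := aLam_mem hC he hR hτ h4 z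
  have hlp : 0 < aLam A e τ R z := by linarith
  obtain ⟨b1, b2, -⟩ := abs_aniso_le hC he hR z
  have hh : 0 < 1 - τ * (aphi A e R z + atft A e R z) := by
    have := mul_le_mul_of_nonneg_left (le_of_abs_le b1) hτ
    have := mul_le_mul_of_nonneg_left (le_of_abs_le b2) hτ
    linarith
  have hTne := det_aContractD_ne hC he hR hτ h4 z
  obtain ⟨S', η', hS'ne, hS'det, hS'G, hS'p, hη'⟩ :=
    exists_chart_frame hG hd (aContract A e τ R z) q
  obtain ⟨S, η₀, hSne, hSdet, hSG, hSp, hη₀⟩ := exists_chart_frame hG hd z p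
  have hSz : ∀ a, ⟪S z, S a⟫ = ⟪z, a⟫ := fun a => by rw [← hSG, chart_gauss hL]
  obtain ⟨η, hη, hηn⟩ := exists_aniso_covector A he (R := R) (c := c) hτ hlp hh hSne
    (fun a => by rw [← hSG]; exact chart_ge hL hG z a) η₀ hSz (by rw [← hSp, hc, hη₀]) hc1
  have hd1 : (S'.comp (aContractD A e τ R z)).det = S'.det * (aContractD A e τ R z).det :=
    LinearMap.det_comp _ _
  have hd2 : (S.comp (aContractD A e τ R z)).det = S.det * (aContractD A e τ R z).det :=
    LinearMap.det_comp _ _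
  have hn1 : (S'.comp (aContractD A e τ R z)).det ≠ 0 := by rw [hd1]; exact mul_ne_zero hS'ne hTne
  have hn2 : (S.comp (aContractD A e τ R z)).det ≠ 0 := by rw [hd2]; exact mul_ne_zero hSne hTne
  have hmono := frame_mono (η' := η') (η := η) (φ := p.comp (chartD hG y L z)) hn1 hn2
    (fun a => by
      rw [ContinuousLinearMap.comp_apply, ContinuousLinearMap.comp_apply, ← hS'G, ← hSG]
      exact chart_mono hG z (aContractD A e τ R z a) (by linarith) hl1)
    (fun a => by rw [ContinuousLinearMap.comp_apply, ContinuousLinearMap.comp_apply, ← hS'p, hpq])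
    (fun a => by rw [ContinuousLinearMap.comp_apply, ContinuousLinearMap.comp_apply, hSp, hη])
  rw [hd1, hd2, abs_mul, abs_mul, hη', hS'det, hSdet] at hmono
  refine hmono.trans ((mul_le_mul_of_nonneg_right hηn ?_).trans (le_of_eq ?_))
  · exact mul_nonneg (le_trans zero_le_one (one_le_jac hG y _)) (abs_nonneg _)
  have hdet := det_aContractD_eq hn A e τ R z hlp.ne'
  rw [abs_of_nonneg (a := (aContractD A e τ R z).det)
    (by rw [hdet]; exact mul_nonneg hh.le (pow_nonneg hlp.le _)), hdet, hη₀]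
  ring

end Vale.Agent.P219
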