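import Vale.Agent.P219.Var.Chart

/-!
# P219 module Var.Competitor: the contracted competitor `u ∘ Φ⁻¹` and its pointwise densities
-/

open MeasureTheory Set Filter Topology
open scoped RealInnerProductSpace

namespace Vale.Agent.P219

variable {n : ℕ} {G : EE n → Form n}

theorem integrable_mul_bdd {α : Type*} [TopologicalSpace α] [MeasurableSpace α]
    [OpensMeasurableSpace α] {μ : Measure α} [IsFiniteMeasureOnCompacts μ] {g b : α → ℝ} {K : ℝ}
    (hg : Continuous g) (hgc : HasCompactSupport g) (hb : Measurable b) (hK : ∀ x, |b x| ≤ K) :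
    Integrable (fun x => g x * b x) μ :=
  (hg.integrable_of_hasCompactSupport hgc).mul_bdd hb.aestronglyMeasurable
    (Eventually.of_forall hK)

theorem continuous_conorm_du (hG : IsCH G) {u : EE n → ℝ} (hu : ContDiff ℝ 1 u) :
    Continuous fun x => conorm G x (fderiv ℝ u x) :=
  (continuous_conorm hG).comp (continuous_id.prodMk (hu.continuous_fderiv one_ne_zero))

theorem hasCompactSupport_conorm_fderiv (G : EE n → Form n) {u : EE n → ℝ}
    (hc : HasCompactSupport u) : HasCompactSupport fun x => conorm G x (fderiv ℝ u x) := by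
  refine (hc.fderiv ℝ).mono fun x hx => ?_
  rw [Function.mem_support] at hx ⊢
  intro h
  simp [h, conorm] at hx

theorem Adm.hasCompactSupport {hG : IsCH G} {o : EE n} {R₀ : ℝ} {u : EE n → ℝ}
    (hu : Adm hG o R₀ u) : HasCompactSupport u :=
  (isCompact_gball hG o R₀).of_isClosed_subset (isClosed_tsupport u) hu.supp

theorem measurable_ucos_left (hG : IsCH G) {u : EE n → ℝ} (hu : ContDiff ℝ 1 u) (y : EE n) :
    Measurable fun x => ucos hG u y x :=
  (measurable_ucos hG hu).comp (measurable_const.prodMk measurable_id)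

theorem fderiv_logG_ucos (hG : IsCH G) (u : EE n → ℝ) (y x : EE n) :
    fderiv ℝ u x (logG hG x y)
      = ucos hG u y x * (gdist hG x y * conorm G x (fderiv ℝ u x)) := by
  rcases eq_or_ne (gdist hG x y * conorm G x (fderiv ℝ u x)) 0 with h | h
  · rw [h, mul_zero]
    rcases mul_eq_zero.1 h with h1 | h1
    · rw [(gnorm_eq_zero hG).1 h1, map_zero]
    · rw [(conorm_eq_zero hG).1 h1, _root_.zero_apply]
  · rw [ucos, div_mul_cancel₀ _ h]

/-- the first variation density of the total variation at radius `R` -/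
noncomputable def tvK (hG : IsCH G) (A : Radial) (R : ℝ) (u : EE n → ℝ) (y x : EE n) : ℝ :=
  (1 - ucos hG u y x ^ 2) * A.dF (gdist hG x y / R)
    + ((n : ℝ) - 2 + ucos hG u y x ^ 2) * A.f (gdist hG x y / R)

theorem abs_tvK_le (hn : 2 ≤ n) (hG : IsCH G) {A : Radial} {C R : ℝ}
    (hC : ∀ t, 0 ≤ t → |A.F t| ≤ C ∧ |A.dF t| ≤ C ∧ |A.f t| ≤ C) (hR : 0 < R)
    (u : EE n → ℝ) (y x : EE n) : |tvK hG A R u y x| ≤ n * C := by
  have hc := abs_ucos_le_one hG u y x
  have hc2 : ucos hG u y x ^ 2 ≤ 1 := by rw [← sq_abs]; exact pow_le_one₀ (abs_nonneg _) hc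
  obtain ⟨-, h2, h3⟩ := hC (gdist hG x y / R) (div_nonneg (Real.sqrt_nonneg _) hR.le)
  have hn2 : (2 : ℝ) ≤ n := by exact_mod_cast hn
  unfold tvK
  refine (abs_add_le _ _).trans ?_
  rw [abs_mul, abs_mul, abs_of_nonneg (sub_nonneg.2 hc2),
    abs_of_nonneg (show 0 ≤ (n : ℝ) - 2 + ucos hG u y x ^ 2 by
      linarith [sq_nonneg (ucos hG u y x)])]
  have hC0 : 0 ≤ C := le_trans (abs_nonneg _) h2
  have e1 := mul_le_mul_of_nonneg_left h2 (sub_nonneg.2 hc2)
  have e2 := mul_le_mul_of_nonneg_left h3 (show 0 ≤ (n : ℝ) - 2 + ucos hG u y x ^ 2 by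
      linarith [sq_nonneg (ucos hG u y x)])
  have e3 : ((n : ℝ) - 1) * C ≤ n * C := mul_le_mul_of_nonneg_right (by linarith) hC0
  linarith

theorem measurable_tvK (hG : IsCH G) (A : Radial) (R : ℝ) {u : EE n → ℝ} (hu : ContDiff ℝ 1 u)
    (y : EE n) : Measurable fun x => tvK hG A R u y x := by
  have h1 := measurable_ucos_left hG hu y
  have h2 : Continuous fun x => gdist hG x y / R :=
    ((continuous_gdist hG).comp (continuous_id.prodMk continuous_const)).div_const R
  have h3 := (A.cont_dF.comp h2).measurable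
  have h4 := (A.cont_f.comp h2).measurable
  exact ((measurable_const.sub (h1.pow_const 2)).mul h3).add
    ((measurable_const.add (h1.pow_const 2)).mul h4)

variable {y o : EE n} {L : EE n ≃L[ℝ] EE n} {R₀ : ℝ}

/-- the competitor -/
theorem exists_competitor (hn : 2 ≤ n) (hG : IsCH G) (hL : ∀ v w, G y v w = ⟪L v, L w⟫)
    (hd : dens G y = |(L : EE n →L[ℝ] EE n).det|) (A : Radial) {C τ R : ℝ}
    (hC : ∀ t, 0 ≤ t → |A.F t| ≤ C ∧ |A.dF t| ≤ C ∧ |A.f t| ≤ C)
    (hR : 0 < R) (hτ : 0 ≤ τ) (h4 : τ * C ≤ 1 / 4) (h20 : ((n : ℝ) + 19) * (τ * C) ≤ 1)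
    (hy : y ∈ gball hG o R₀) {u : EE n → ℝ} (hu : Adm hG o R₀ u) :
    ∃ u', Adm hG o R₀ u' ∧
      TV G u' ≤ TV G u - τ * (∫ x, conorm G x (fderiv ℝ u x) * tvK hG A R u y x ∂rVol G)
          + (16 + ((n : ℝ) + 19) ^ 2) * (τ * C) ^ 2 * TV G u ∧
      pMass G u' = ∫ z, jac hG y (lamR A τ R z • L.symm z)
          * ((1 - τ * A.dF (‖z‖ / R)) * lamR A τ R z ^ (n - 1))
          * u (chart hG y L z) ^ sobExp n := by
  have hn0 : n ≠ 0 := by omega
  obtain ⟨h, hh, hhs⟩ := exists_contract_homeo (n := n) hC hR hτ h4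
  set E := chartHomeo hG y L with hE
  have hEf : ∀ z, E z = chart hG y L z := fun z => rfl
  let u' : EE n → ℝ := fun x => u (chart hG y L (h.symm (L (logG hG y x))))
  have hu' : ∀ z, u' (chart hG y L (contract A τ R z)) = u (chart hG y L z) := by
    intro z
    simp only [u']
    rw [show L (logG hG y (chart hG y L (contract A τ R z))) = contract A τ R z from
      E.symm_apply_apply _, ← hh, h.symm_apply_apply]
  have hsm : ContDiff ℝ 1 u' :=
    hu.smooth.comp ((contDiff_chart hG y L).comp
      (hhs.comp (L.contDiff.comp (contDiff_logG hG y))))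
  have hsupp : ∀ x, u' x ≠ 0 → x ∈ gball hG o R₀ := by
    intro x hx
    set z := h.symm (L (logG hG y x)) with hz
    have hzb : chart hG y L z ∈ gball hG o R₀ :=
      hu.supp (subset_tsupport _ (Function.mem_support.2 hx))
    obtain ⟨hl0, hl1⟩ := lamR_mem hC hR hτ h4 z
    have := gball_convex hG hy hzb (s := lamR A τ R z) ⟨by linarith, hl1⟩
    rw [show logG hG y (chart hG y L z) = L.symm z from logG_expG hG y _, ← map_smul,
      show lamR A τ R z • z = contract A τ R z from rfl, ← hh, hz, h.apply_symm_apply,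
      L.symm_apply_apply, expG_logG] at this
    exact this
  have hadm : Adm hG o R₀ u' :=
    ⟨hsm, closure_minimal hsupp (isCompact_gball hG o R₀).isClosed,
      fun x => hu.nonneg _, fun x => hu.le_one _⟩
  -- change of variables
  set E' : EE n → EE n := fun z => chart hG y L (contract A τ R z) with hE'
  have hE'b : Function.Bijective E' := by
    have : E' = fun z => E (h z) := funext fun z => by rw [hh]; rfl
    rw [this]; exact E.bijective.comp h.bijective
  set D' : EE n → EE n →L[ℝ] EE n := fun z =>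
    (chartD hG y L (contract A τ R z)).comp (contractD A τ R z) with hD'
  have hD'd : ∀ z, HasFDerivAt E' (D' z) z := fun z =>
    (hasFDerivAt_chart hG y L _).comp z (hasFDerivAt_contract A τ hR z)
  have hdens : ∀ z, |(D' z).det| * dens G (E' z)
      = jac hG y (L.symm (contract A τ R z)) * |(contractD A τ R z).det| := by
    intro z
    rw [hD', ← chart_jac hG hd]
    simp only [ContinuousLinearMap.det, ContinuousLinearMap.toLinearMap_comp, LinearMap.det_comp,
      abs_mul, hE']
    ring
  refine ⟨u', hadm, ?_, ?_⟩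
  · have hf := continuous_conorm_du hG hu.smooth
    have hfc := hasCompactSupport_conorm_fderiv G hu.hasCompactSupport
    have := isFiniteMeasureOnCompacts_rVol hG
    set K₁ := (16 + ((n : ℝ) + 19) ^ 2) * (τ * C) ^ 2 with hK₁
    set b : EE n → ℝ := fun x => 1 - τ * tvK hG A R u y x + K₁ with hb
    have hbm : Measurable b :=
      (measurable_const.sub ((measurable_tvK hG A R hu.smooth y).const_mul τ)).add measurable_const
    have hC0 : 0 ≤ C := le_trans (abs_nonneg _) (hC 0 le_rfl).1
    have hbb : ∀ x, |b x| ≤ 1 + τ * (n * C) + K₁ := by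
      intro x
      have e := mul_le_mul_of_nonneg_left (abs_tvK_le hn hG hC hR u y x) hτ
      have e' : 0 ≤ K₁ := by positivity
      have e'' : |τ * tvK hG A R u y x| ≤ τ * (n * C) := by
        rw [abs_mul, abs_of_nonneg hτ]; exact e
      obtain ⟨e1, e2⟩ := abs_le.1 e''
      simp only [hb]
      rw [abs_le]
      constructor <;> linarith
    have hrhs : ∫ x, conorm G x (fderiv ℝ u x) * b x ∂rVol G
        = TV G u - τ * (∫ x, conorm G x (fderiv ℝ u x) * tvK hG A R u y x ∂rVol G)
          + K₁ * TV G u := by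
      have i1 : Integrable (fun x => conorm G x (fderiv ℝ u x)) (rVol G) :=
        hf.integrable_of_hasCompactSupport hfc
      have i2 : Integrable (fun x => conorm G x (fderiv ℝ u x) * tvK hG A R u y x) (rVol G) :=
        integrable_mul_bdd hf hfc (measurable_tvK hG A R hu.smooth y) (abs_tvK_le hn hG hC hR u y)
      have e : (fun x => conorm G x (fderiv ℝ u x) * b x) = fun x =>
          (conorm G x (fderiv ℝ u x) - τ * (conorm G x (fderiv ℝ u x) * tvK hG A R u y x))
            + K₁ * conorm G x (fderiv ℝ u x) := funext fun x => by simp only [hb]; ring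
      have i3 : Integrable (fun x => conorm G x (fderiv ℝ u x)
          - τ * (conorm G x (fderiv ℝ u x) * tvK hG A R u y x)) (rVol G) := i1.sub (i2.const_mul τ)
      rw [e, integral_add i3 (i1.const_mul K₁),
        integral_sub i1 (i2.const_mul τ), integral_const_mul, integral_const_mul]
      rfl
    rw [← hrhs]
    conv_lhs => rw [TV, integral_rVol_comp hG hE'b hD'd]
    rw [integral_rVol_comp hG (E := chart hG y L) E.bijective (hasFDerivAt_chart hG y L)]
    refine integral_mono_of_nonneg
      (ae_of_all _ fun z => mul_nonneg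
        (mul_nonneg (abs_nonneg _) (Real.sqrt_nonneg _)) (conorm_nonneg _ _)) ?_
      (ae_of_all _ fun z => ?_)
    · have hc1 : Continuous fun z =>
          jac hG y (L.symm z) * conorm G (chart hG y L z) (fderiv ℝ u (chart hG y L z)) :=
        ((contDiff_jac hG).continuous.comp (continuous_const.prodMk L.symm.continuous)).mul
          (hf.comp (contDiff_chart hG y L).continuous)
      have hc2 : HasCompactSupport fun z =>
          jac hG y (L.symm z) * conorm G (chart hG y L z) (fderiv ℝ u (chart hG y L z)) :=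
        (hfc.comp_homeomorph E).mul_left
      refine (integrable_mul_bdd hc1 hc2 (hbm.comp (contDiff_chart hG y L).continuous.measurable)
        fun z => hbb _).congr (ae_of_all _ fun z => ?_)
      simp only [chart_jac hG hd, Function.comp_apply]
      ring
    · dsimp only
      rw [hdens, chart_jac hG hd]
      set x := chart hG y L z with hx
      have hq : ∀ a, fderiv ℝ u' (E' z) (chartD hG y L (contract A τ R z) (contractD A τ R z a))
          = fderiv ℝ u x (chartD hG y L z a) := by
        have h1 := ((hsm.differentiable one_ne_zero) (E' z)).hasFDerivAt.comp z (hD'd z)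
        have h2 := ((hu.smooth.differentiable one_ne_zero) x).hasFDerivAt.comp z
          (hasFDerivAt_chart hG y L z)
        have : u' ∘ E' = u ∘ chart hG y L := funext hu'
        rw [this] at h1
        intro a
        exact DFunLike.congr_fun (h1.unique h2) a
      have hdist : gdist hG x y = ‖z‖ := by rw [gdist_comm, hx, gdist_chart hL]
      have hc : fderiv ℝ u x (chartD hG y L z z)
          = -ucos hG u y x * (‖z‖ * conorm G x (fderiv ℝ u x)) := by
        rw [chartD_self, map_neg, ← hx, fderiv_logG_ucos, hdist, neg_mul]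
      have hp := tv_pointwise hL hn0 hG hd A hC hR hτ h4 z _ _ hq hc
      obtain ⟨hda, hdb⟩ := abs_tau_le hC hR hτ z
      have hm1 : ((n - 1 : ℕ) : ℝ) = (n : ℝ) - 1 := by
        rw [Nat.cast_sub (by omega), Nat.cast_one]
      have ht := tv_factor (n - 1) hda hdb (abs_ucos_le_one hG u y x)
        (by rw [hm1]; linarith)
      rw [hm1, show (n : ℝ) - 1 + 20 = n + 19 by ring, show (n : ℝ) - 1 - 1 = n - 2 by ring] at ht
      have hbx : b x = 1 - ((1 - ucos hG u y x ^ 2) * (τ * A.dF (‖z‖ / R))
          + ((n : ℝ) - 2 + ucos hG u y x ^ 2) * (τ * A.f (‖z‖ / R))) + K₁ := by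
        rw [hb]
        simp only [tvK, hdist]
        ring
      calc jac hG y (L.symm (contract A τ R z)) * |(contractD A τ R z).det|
              * conorm G (E' z) (fderiv ℝ u' (E' z))
          = conorm G (E' z) (fderiv ℝ u' (E' z))
              * (jac hG y (L.symm (contract A τ R z)) * |(contractD A τ R z).det|) := by ring
        _ ≤ _ := hp
        _ ≤ conorm G x (fderiv ℝ u x) * jac hG y (L.symm z) * b x := by
            rw [hbx]
            exact mul_le_mul_of_nonneg_left ht
              (mul_nonneg (conorm_nonneg _ _) (le_trans zero_le_one (one_le_jac hG y _)))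
        _ = _ := by ring
  · rw [pMass, integral_rVol_comp hG hE'b hD'd]
    refine integral_congr_ae (ae_of_all _ fun z => ?_)
    dsimp only
    obtain ⟨hl0, hl1⟩ := lamR_mem hC hR hτ h4 z
    have hh' : 0 ≤ 1 - τ * A.dF (‖z‖ / R) := by
      have := (abs_le.1 (abs_tau_le hC hR hτ z).1).2
      linarith
    rw [hdens, hu', abs_of_nonneg (hu.nonneg _), det_contractD' hn0 A τ R z (by linarith),
      abs_of_nonneg (mul_nonneg hh' (pow_nonneg (by linarith) _))]
    simp [contract]

end Vale.Agent.P219
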