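import Vale.Agent.P219.Var.AnisoChart
import Vale.Agent.P219.Var.Competitor

/-!
# P219 module Var.AnisoCompetitor: the competitor of the anisotropic contraction
-/

open MeasureTheory Set Filter Topology
open scoped RealInnerProductSpace

namespace Vale.Agent.P219

variable {n : ℕ} {G : EE n → Form n}

/-- the cosine at the centre `y` of the geodesic to `x` with the covector `p` -/
noncomputable def aU (hG : IsCH G) (p : EE n →L[ℝ] ℝ) (y x : EE n) : ℝ :=
  p (logG hG y x) / (gdist hG y x * conorm G y p)

theorem abs_aU_le (hG : IsCH G) (p : EE n →L[ℝ] ℝ) (y x : EE n) : |aU hG p y x| ≤ 1 := by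
  have h := abs_apply_le hG y (logG hG y x) p
  rw [mul_comm] at h
  have h0 : 0 ≤ gdist hG y x * conorm G y p :=
    mul_nonneg (gnorm_nonneg _ _) (conorm_nonneg _ _)
  rw [aU, abs_div, abs_of_nonneg h0]
  exact div_le_one_of_le₀ h h0

theorem measurable_aU (hG : IsCH G) (p : EE n →L[ℝ] ℝ) (y : EE n) :
    Measurable fun x => aU hG p y x :=
  (p.continuous.comp ((continuous_logG hG).comp
    (continuous_const.prodMk continuous_id))).measurable.div
    (((continuous_gdist hG).comp (continuous_const.prodMk continuous_id)).mul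
      continuous_const).measurable

/-- the unit vector of a covector in an orthonormal frame at `y` -/
theorem exists_ecos_eq {y : EE n} {L : EE n ≃L[ℝ] EE n} (hG : IsCH G)
    (hL : ∀ v w, G y v w = ⟪L v, L w⟫) {p : EE n →L[ℝ] ℝ} (hp : p ≠ 0) :
    ∃ e : EE n, ‖e‖ = 1 ∧ ∀ z, ecos e z = aU hG p y (chart hG y L z) := by
  set η := (InnerProductSpace.toDual ℝ (EE n)).symm (p.comp (L.symm : EE n →L[ℝ] EE n)) with hη
  have hne : (L : EE n →L[ℝ] EE n).det ≠ 0 := fun h0 => by
    have h := det_symm_mul L
    rw [h0, mul_zero] at h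
    exact zero_ne_one h
  have hηp : ∀ z, ⟪η, z⟫ = p (L.symm z) := fun z => by
    simp [hη, InnerProductSpace.toDual_symm_apply]
  have hn : conorm G y p = ‖η‖ := by
    refine conorm_of_inner hne hL fun a => ?_
    simp [hηp]
  have hc : 0 < ‖η‖ := by
    rw [← hn]
    exact (conorm_nonneg y p).lt_of_ne fun h => hp ((conorm_eq_zero hG).1 h.symm)
  refine ⟨‖η‖⁻¹ • η, ?_, fun z => ?_⟩
  · rw [norm_smul, norm_inv, norm_norm, inv_mul_cancel₀ hc.ne']
  · rw [ecos, aU, real_inner_smul_left, hηp, gdist_chart hL, hn,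
      show logG hG y (chart hG y L z) = L.symm z from logG_expG hG y _]
    field_simp

/-- the first variation density of the total variation for an anisotropic weight -/
noncomputable def tvKa (hG : IsCH G) (A : Aniso) (p : EE n →L[ℝ] ℝ) (R : ℝ) (u : EE n → ℝ)
    (y x : EE n) : ℝ :=
  (A.f (gdist hG x y / R) (aU hG p y x)
      + gdist hG x y / R * A.ft (gdist hG x y / R) (aU hG p y x)) * (1 - ucos hG u y x ^ 2)
    + ((n : ℝ) - 2 + ucos hG u y x ^ 2) * A.f (gdist hG x y / R) (aU hG p y x)
    - |A.fu (gdist hG x y / R) (aU hG p y x)| * |ucos hG u y x|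
        * √((1 - aU hG p y x ^ 2) * (1 - ucos hG u y x ^ 2))

theorem abs_tvKa_le (hn : 2 ≤ n) (hG : IsCH G) {A : Aniso} {C R : ℝ}
    (hC : ∀ t u, 0 ≤ t → u ∈ Icc (-1 : ℝ) 1 →
      |A.f t u| ≤ C ∧ |t * A.f t u| ≤ C ∧ |t * A.ft t u| ≤ C ∧ |A.fu t u| ≤ C) (hR : 0 < R)
    (p : EE n →L[ℝ] ℝ) (u : EE n → ℝ) (y x : EE n) :
    |tvKa hG A p R u y x| ≤ (n + 1) * C := by
  have hc := abs_ucos_le_one hG u y x
  have hc2 : ucos hG u y x ^ 2 ≤ 1 := (sq_le_one_iff_abs_le_one _).2 hc
  obtain ⟨h1, -, h3, h4⟩ := hC (gdist hG x y / R) (aU hG p y x)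
    (div_nonneg (Real.sqrt_nonneg _) hR.le) (abs_le.1 (abs_aU_le hG p y x))
  have hC0 : 0 ≤ C := le_trans (abs_nonneg _) h1
  have hn2 : (2 : ℝ) ≤ n := by exact_mod_cast hn
  have hn3 : 0 ≤ (n : ℝ) - 2 + ucos hG u y x ^ 2 := by linarith [sq_nonneg (ucos hG u y x)]
  unfold tvKa
  refine (abs_sub _ _).trans ((add_le_add_left (abs_add_le _ _) _).trans ?_)
  simp only [abs_mul, abs_of_nonneg (sub_nonneg.2 hc2), abs_of_nonneg hn3, abs_abs,
    abs_of_nonneg (Real.sqrt_nonneg _)]
  have e1 := mul_le_mul_of_nonneg_right ((abs_add_le _ _).trans (add_le_add h1 h3))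
    (sub_nonneg.2 hc2)
  have e2 := mul_le_mul_of_nonneg_left h1 hn3
  have e3 : √((1 - aU hG p y x ^ 2) * (1 - ucos hG u y x ^ 2)) ≤ 1 :=
    Real.sqrt_le_one.2 (mul_le_one₀ (sub_le_self _ (sq_nonneg _)) (sub_nonneg.2 hc2)
      (sub_le_self _ (sq_nonneg _)))
  have e4 := mul_le_mul (mul_le_mul h4 hc (abs_nonneg _) hC0) e3 (Real.sqrt_nonneg _) (by linarith)
  have e5 := mul_nonneg (sq_nonneg (ucos hG u y x)) hC0
  linarith

theorem measurable_tvKa (hG : IsCH G) (A : Aniso) (p : EE n →L[ℝ] ℝ) (R : ℝ) {u : EE n → ℝ}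
    (hu : ContDiff ℝ 1 u) (y : EE n) : Measurable fun x => tvKa hG A p R u y x := by
  have h1 := measurable_ucos_left hG hu y
  have hw := measurable_aU hG p y
  have h2 : Measurable fun x => gdist hG x y / R :=
    (((continuous_gdist hG).comp (continuous_id.prodMk continuous_const)).div_const R).measurable
  have hp := h2.prodMk hw
  have h3 := A.continuous_wf.measurable.comp hp
  have h4 := A.cont_ft.measurable.comp hp
  have h5 := A.cont_fu.measurable.comp hp
  exact (((h3.add (h2.mul h4)).mul (measurable_const.sub (h1.pow_const 2))).add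
      ((measurable_const.add (h1.pow_const 2)).mul h3)).sub
    (((continuous_abs.measurable.comp h5).mul (continuous_abs.measurable.comp h1)).mul
      (((measurable_const.sub (hw.pow_const 2)).mul
        (measurable_const.sub (h1.pow_const 2))).sqrt))

variable {y o e : EE n} {L : EE n ≃L[ℝ] EE n} {R₀ : ℝ}

/-- the competitor -/
theorem exists_competitor_aniso (hn : 2 ≤ n) (hG : IsCH G) (hL : ∀ v w, G y v w = ⟪L v, L w⟫)
    (hd : dens G y = |(L : EE n →L[ℝ] EE n).det|) (A : Aniso) (p : EE n →L[ℝ] ℝ)
    (he : ‖e‖ = 1) (hep : ∀ z, ecos e z = aU hG p y (chart hG y L z)) {C τ R : ℝ}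
    (hC : ∀ t u, 0 ≤ t → u ∈ Icc (-1 : ℝ) 1 →
      |A.f t u| ≤ C ∧ |t * A.f t u| ≤ C ∧ |t * A.ft t u| ≤ C ∧ |A.fu t u| ≤ C)
    (hR : 0 < R) (hτ : 0 ≤ τ) (h4 : τ * C ≤ 1 / 4) (h20 : ((n : ℝ) + 19) * (2 * (τ * C)) ≤ 1)
    (hy : y ∈ gball hG o R₀) {u : EE n → ℝ} (hu : Adm hG o R₀ u) :
    ∃ u', Adm hG o R₀ u' ∧
      TV G u' ≤ TV G u - τ * (∫ x, conorm G x (fderiv ℝ u x) * tvKa hG A p R u y x ∂rVol G)
          + 12 * ((n : ℝ) + 19) ^ 2 * (τ * C) ^ 2 * TV G u ∧
      pMass G u' = ∫ z, jac hG y (aLam A e τ R z • L.symm z)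
          * ((1 - τ * (aphi A e R z + atft A e R z)) * aLam A e τ R z ^ (n - 1))
          * u (chart hG y L z) ^ sobExp n := by
  have hn0 : n ≠ 0 := by omega
  obtain ⟨h, hh, hhs⟩ := exists_aContract_homeo hC he hR hτ h4
  set E := chartHomeo hG y L with hE
  let u' : EE n → ℝ := fun x => u (chart hG y L (h.symm (L (logG hG y x))))
  have hu' : ∀ z, u' (chart hG y L (aContract A e τ R z)) = u (chart hG y L z) := by
    intro z
    simp only [u']
    rw [show L (logG hG y (chart hG y L (aContract A e τ R z))) = aContract A e τ R z from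
      E.symm_apply_apply _, ← hh, h.symm_apply_apply]
  have hsm : ContDiff ℝ 1 u' :=
    hu.smooth.comp ((contDiff_chart hG y L).comp
      (hhs.comp (L.contDiff.comp (contDiff_logG hG y))))
  have hsupp : ∀ x, u' x ≠ 0 → x ∈ gball hG o R₀ := by
    intro x hx
    set z := h.symm (L (logG hG y x)) with hz
    have hzb : chart hG y L z ∈ gball hG o R₀ :=
      hu.supp (subset_tsupport _ (Function.mem_support.2 hx))
    obtain ⟨hl0, hl1⟩ := aLam_mem hC he hR hτ h4 z
    have := gball_convex hG hy hzb (s := aLam A e τ R z) ⟨by linarith, hl1⟩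
    rw [show logG hG y (chart hG y L z) = L.symm z from logG_expG hG y _, ← map_smul,
      show aLam A e τ R z • z = aContract A e τ R z from rfl, ← hh, hz, h.apply_symm_apply,
      L.symm_apply_apply, expG_logG] at this
    exact this
  have hadm : Adm hG o R₀ u' :=
    ⟨hsm, closure_minimal hsupp (isCompact_gball hG o R₀).isClosed,
      fun x => hu.nonneg _, fun x => hu.le_one _⟩
  -- change of variables
  set E' : EE n → EE n := fun z => chart hG y L (aContract A e τ R z) with hE'
  have hE'b : Function.Bijective E' := by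
    have : E' = fun z => E (h z) := funext fun z => by rw [hh]; rfl
    rw [this]; exact E.bijective.comp h.bijective
  set D' : EE n → EE n →L[ℝ] EE n := fun z =>
    (chartD hG y L (aContract A e τ R z)).comp (aContractD A e τ R z) with hD'
  have hD'd : ∀ z, HasFDerivAt E' (D' z) z := fun z =>
    (hasFDerivAt_chart hG y L _).comp z (hasFDerivAt_aContract A e τ hR z)
  have hdens : ∀ z, |(D' z).det| * dens G (E' z)
      = jac hG y (L.symm (aContract A e τ R z)) * |(aContractD A e τ R z).det| := by
    intro z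
    rw [hD', ← chart_jac hG hd]
    simp only [ContinuousLinearMap.det, ContinuousLinearMap.toLinearMap_comp, LinearMap.det_comp,
      abs_mul, hE']
    ring
  refine ⟨u', hadm, ?_, ?_⟩
  · have hf := continuous_conorm_du hG hu.smooth
    have hfc := hasCompactSupport_conorm_fderiv G hu.hasCompactSupport
    have := isFiniteMeasureOnCompacts_rVol hG
    set K₁ := 12 * ((n : ℝ) + 19) ^ 2 * (τ * C) ^ 2 with hK₁
    set b : EE n → ℝ := fun x => 1 - τ * tvKa hG A p R u y x + K₁ with hb
    have hbm : Measurable b :=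
      (measurable_const.sub ((measurable_tvKa hG A p R hu.smooth y).const_mul τ)).add
        measurable_const
    have hbb : ∀ x, |b x| ≤ 1 + τ * (((n : ℝ) + 1) * C) + K₁ := by
      intro x
      have e := mul_le_mul_of_nonneg_left (abs_tvKa_le hn hG hC hR p u y x) hτ
      have e' : 0 ≤ K₁ := by positivity
      have e'' : |τ * tvKa hG A p R u y x| ≤ τ * (((n : ℝ) + 1) * C) := by
        rw [abs_mul, abs_of_nonneg hτ]; exact e
      obtain ⟨e1, e2⟩ := abs_le.1 e''
      simp only [hb]
      rw [abs_le]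
      constructor <;> linarith
    have hrhs : ∫ x, conorm G x (fderiv ℝ u x) * b x ∂rVol G
        = TV G u - τ * (∫ x, conorm G x (fderiv ℝ u x) * tvKa hG A p R u y x ∂rVol G)
          + K₁ * TV G u := by
      have i1 : Integrable (fun x => conorm G x (fderiv ℝ u x)) (rVol G) :=
        hf.integrable_of_hasCompactSupport hfc
      have i2 : Integrable (fun x => conorm G x (fderiv ℝ u x) * tvKa hG A p R u y x) (rVol G) :=
        integrable_mul_bdd hf hfc (measurable_tvKa hG A p R hu.smooth y)
          (abs_tvKa_le hn hG hC hR p u y)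
      have e : (fun x => conorm G x (fderiv ℝ u x) * b x) = fun x =>
          (conorm G x (fderiv ℝ u x) - τ * (conorm G x (fderiv ℝ u x) * tvKa hG A p R u y x))
            + K₁ * conorm G x (fderiv ℝ u x) := funext fun x => by simp only [hb]; ring
      have i3 : Integrable (fun x => conorm G x (fderiv ℝ u x)
          - τ * (conorm G x (fderiv ℝ u x) * tvKa hG A p R u y x)) (rVol G) :=
        i1.sub (i2.const_mul τ)
      rw [e, integral_add i3 (i1.const_mul K₁),
        integral_sub i1 (i2.const_mul τ), integral_const_mul, integral_const_mul]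
      rfl
    rw [← hrhs]
    conv_lhs => rw [TV, integral_rVol_comp hG hE'b hD'd]
    rw [integral_rVol_comp hG (E := chart hG y L) E.bijective (hasFDerivAt_chart hG y L)]
    refine integral_mono_of_nonneg
      (ae_of_all _ fun z => mul_nonneg
        (mul_nonneg (abs_nonneg _) (Real.sqrt_nonneg _)) (conorm_nonneg _ _)) ?_
      (ae_of_all _ fun z => ?_)
    · have hc1 : Continuous fun z =>
          jac hG y (L.symm z) * conorm G (chart hG y L z) (fderiv ℝ u (chart hG y L z)) :=
        ((contDiff_jac hG).continuous.comp (continuous_const.prodMk L.symm.continuous)).mul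
          (hf.comp (contDiff_chart hG y L).continuous)
      have hc2 : HasCompactSupport fun z =>
          jac hG y (L.symm z) * conorm G (chart hG y L z) (fderiv ℝ u (chart hG y L z)) :=
        (hfc.comp_homeomorph E).mul_left
      refine (integrable_mul_bdd hc1 hc2 (hbm.comp (contDiff_chart hG y L).continuous.measurable)
        fun z => hbb _).congr (ae_of_all _ fun z => ?_)
      simp only [chart_jac hG hd, Function.comp_apply]
      ring
    · dsimp only
      rw [hdens, chart_jac hG hd]
      set x := chart hG y L z with hx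
      have hq : ∀ a, fderiv ℝ u' (E' z)
          (chartD hG y L (aContract A e τ R z) (aContractD A e τ R z a))
          = fderiv ℝ u x (chartD hG y L z a) := by
        have h1 := ((hsm.differentiable one_ne_zero) (E' z)).hasFDerivAt.comp z (hD'd z)
        have h2 := ((hu.smooth.differentiable one_ne_zero) x).hasFDerivAt.comp z
          (hasFDerivAt_chart hG y L z)
        have : u' ∘ E' = u ∘ chart hG y L := funext hu'
        rw [this] at h1
        intro a
        exact DFunLike.congr_fun (h1.unique h2) a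
      have hdist : gdist hG x y = ‖z‖ := by rw [gdist_comm, hx, gdist_chart hL]
      have hc : fderiv ℝ u x (chartD hG y L z z)
          = -ucos hG u y x * (‖z‖ * conorm G x (fderiv ℝ u x)) := by
        rw [chartD_self, map_neg, ← hx, fderiv_logG_ucos, hdist, neg_mul]
      have hp := tv_pointwise_aniso hL hn0 hG hd A hC he hR hτ h4 z _ _ hq hc
        (abs_ucos_le_one hG u y x)
      obtain ⟨b1, b2, b3⟩ := abs_aniso_le hC he hR z
      have hm1 : ((n - 1 : ℕ) : ℝ) = (n : ℝ) - 1 := by
        rw [Nat.cast_sub (by omega), Nat.cast_one]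
      have t1 : |τ * (aphi A e R z + atft A e R z)| ≤ 2 * (τ * C) := by
        rw [abs_mul, abs_of_nonneg hτ]
        have := mul_le_mul_of_nonneg_left ((abs_add_le _ _).trans (add_le_add b1 b2)) hτ
        linarith
      have t2 : |τ * aphi A e R z| ≤ 2 * (τ * C) := by
        rw [abs_mul, abs_of_nonneg hτ]
        have := mul_le_mul_of_nonneg_left b1 hτ
        linarith [mul_nonneg hτ ((abs_nonneg _).trans b1)]
      have t3 : τ * |afu A e R z| * √(1 - ecos e z ^ 2) ≤ 2 * (τ * C) := by
        refine (mul_le_of_le_one_right (by positivity)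
          (Real.sqrt_le_one.2 (sub_le_self _ (sq_nonneg _)))).trans ?_
        have := mul_le_mul_of_nonneg_left b3 hτ
        linarith [mul_nonneg hτ ((abs_nonneg _).trans b3)]
      have ht := aniso_tv_factor (n - 1) t1 t2 (by positivity) t3 (abs_ucos_le_one hG u y x)
        (by rw [hm1]; linarith)
      rw [hm1, show (n : ℝ) - 1 + 20 = n + 19 by ring, show (n : ℝ) - 1 - 1 = n - 2 by ring] at ht
      have hbx : b x = 1 - ((1 - ucos hG u y x ^ 2) * (τ * (aphi A e R z + atft A e R z))
          + ((n : ℝ) - 2 + ucos hG u y x ^ 2) * (τ * aphi A e R z))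
          + |ucos hG u y x| * (τ * |afu A e R z| * √(1 - ecos e z ^ 2))
            * √(1 - ucos hG u y x ^ 2)
          + 3 * ((n : ℝ) + 19) ^ 2 * (2 * (τ * C)) ^ 2 := by
        rw [hb]
        have hdist' : gdist hG (chart hG y L z) y = ‖z‖ := hdist
        simp only [tvKa, hx, hdist', ← hep, aphi, atft, afu, hK₁]
        rw [Real.sqrt_mul (sub_nonneg.2 ((sq_le_one_iff_abs_le_one _).2 (abs_ecos_le he z)))]
        ring
      calc jac hG y (L.symm (aContract A e τ R z)) * |(aContractD A e τ R z).det|
              * conorm G (E' z) (fderiv ℝ u' (E' z))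
          = conorm G (E' z) (fderiv ℝ u' (E' z))
              * (jac hG y (L.symm (aContract A e τ R z)) * |(aContractD A e τ R z).det|) := by ring
        _ ≤ _ := hp
        _ ≤ conorm G x (fderiv ℝ u x) * jac hG y (L.symm z) * b x := by
            rw [hbx]
            exact mul_le_mul_of_nonneg_left ht
              (mul_nonneg (conorm_nonneg _ _) (le_trans zero_le_one (one_le_jac hG y _)))
        _ = _ := by ring
  · rw [pMass, integral_rVol_comp hG hE'b hD'd]
    refine integral_congr_ae (ae_of_all _ fun z => ?_)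
    dsimp only
    obtain ⟨hl0, hl1⟩ := aLam_mem hC he hR hτ h4 z
    have hh' : 0 ≤ 1 - τ * (aphi A e R z + atft A e R z) := by
      obtain ⟨b1, b2, -⟩ := abs_aniso_le hC he hR z
      have := mul_le_mul_of_nonneg_left
        ((le_abs_self _).trans ((abs_add_le _ _).trans (add_le_add b1 b2))) hτ
      linarith
    rw [hdens, hu', abs_of_nonneg (hu.nonneg _), det_aContractD_eq hn0 A e τ R z (by linarith),
      abs_of_nonneg (a := _ * (1 - τ * aphi A e R z) ^ (n - 1))
        (mul_nonneg hh' (pow_nonneg (by unfold aLam at hl0; linarith) _))]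
    simp [aContract, aLam]

end Vale.Agent.P219
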