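import Vale.Agent.P219.Var.Euclid

/-!
# P219 module Var.RadialMap: the Euclidean radial contraction `z ↦ (1 - τ f(‖z‖/R)) z`
-/

open MeasureTheory Set Filter Topology ContinuousLinearMap
open scoped RealInnerProductSpace

namespace Vale.Agent.P219

variable {n : ℕ}

theorem Radial.continuous_wF (A : Radial) : Continuous A.F :=
  continuous_iff_continuousAt.2 fun t => (A.hasDeriv t).continuousAt

theorem Radial.dF_zero (A : Radial) : A.dF 0 = A.f 0 := by
  have h0 : A.F 0 = 0 := by rw [A.F_eq, zero_mul]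
  have h : HasDerivAt A.F (A.f 0) 0 := by
    rw [hasDerivAt_iff_tendsto_slope]
    refine ((A.cont_f.tendsto 0).mono_left nhdsWithin_le_nhds).congr' ?_
    filter_upwards [self_mem_nhdsWithin] with t ht
    have ht' : t ≠ 0 := ht
    rw [slope_def_field, h0, A.F_eq]
    field_simp
    ring
  exact (A.hasDeriv 0).unique h

theorem Radial.hasDerivAt_f (A : Radial) {t : ℝ} (ht : t ≠ 0) :
    HasDerivAt A.f ((A.dF t - A.f t) / t) t := by
  have h := (A.hasDeriv t).div (hasDerivAt_id t) ht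
  refine (h.congr_of_eventuallyEq ?_).congr_deriv ?_
  · filter_upwards [isOpen_ne.mem_nhds ht] with s hs
    rw [Pi.div_apply, id, A.F_eq]
    field_simp
  · rw [id, A.F_eq]
    field_simp

/-- `f` along a ray; valid also at the origin since `F' 0 = f 0` -/
theorem Radial.hasDerivAt_f_mul (A : Radial) {s : ℝ} (hs : s ≠ 0) (x : ℝ) :
    HasDerivAt (fun r => A.f (r * x)) ((A.dF (s * x) - A.f (s * x)) / s) s := by
  rcases eq_or_ne x 0 with rfl | hx
  · simpa [A.dF_zero] using hasDerivAt_const s (A.f 0)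
  · refine ((A.hasDerivAt_f (mul_ne_zero hs hx)).comp s ((hasDerivAt_id s).mul_const x)).congr_deriv ?_
    field_simp

/-- the contraction factor -/
noncomputable def lamR (A : Radial) (τ R : ℝ) (z : EE n) : ℝ := 1 - τ * A.f (‖z‖ / R)

/-- the contraction -/
noncomputable def contract (A : Radial) (τ R : ℝ) (z : EE n) : EE n := lamR A τ R z • z

/-- the derivative of the contraction -/
noncomputable def contractD (A : Radial) (τ R : ℝ) (z : EE n) : EE n →L[ℝ] EE n :=
  lamR A τ R z • ContinuousLinearMap.id ℝ (EE n)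
    + (innerSL ℝ z).smulRight ((-τ * (A.dF (‖z‖ / R) - A.f (‖z‖ / R)) / ‖z‖ ^ 2) • z)

theorem contractD_apply (A : Radial) (τ R : ℝ) (z a : EE n) :
    contractD A τ R z a = lamR A τ R z • a
      + (-τ * (A.dF (‖z‖ / R) - A.f (‖z‖ / R)) / ‖z‖ ^ 2 * ⟪z, a⟫) • z := by
  simp [contractD, smul_smul, mul_comm]

theorem norm_contractD_sub_le (A : Radial) (τ R : ℝ) (z a : EE n) :
    ‖(-τ * (A.dF (‖z‖ / R) - A.f (‖z‖ / R)) / ‖z‖ ^ 2 * ⟪z, a⟫) • z‖
      ≤ |τ * (A.dF (‖z‖ / R) - A.f (‖z‖ / R))| * ‖a‖ := by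
  rcases eq_or_ne z 0 with rfl | hz
  · simp
    positivity
  · have hz' : 0 < ‖z‖ := norm_pos_iff.2 hz
    rw [norm_smul, Real.norm_eq_abs, neg_mul, neg_div, neg_mul, abs_neg, abs_mul, abs_div,
      abs_pow, abs_norm, div_mul_eq_mul_div, div_mul_eq_mul_div, div_le_iff₀ (by positivity)]
    have := mul_le_mul_of_nonneg_left (abs_real_inner_le_norm z a)
      (mul_nonneg (abs_nonneg (τ * (A.dF (‖z‖ / R) - A.f (‖z‖ / R)))) hz'.le)
    linarith

theorem hasFDerivAt_contract (A : Radial) (τ : ℝ) {R : ℝ} (hR : 0 < R) (z : EE n) :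
    HasFDerivAt (contract A τ R) (contractD A τ R z) z := by
  rcases eq_or_ne z 0 with rfl | hz
  · have hD : contractD A τ R (0 : EE n)
        = lamR A τ R (0 : EE n) • ContinuousLinearMap.id ℝ (EE n) := by
      ext a; simp [contractD]
    rw [hD, hasFDerivAt_iff_isLittleO_nhds_zero]
    have hc : Tendsto (fun h : EE n => lamR A τ R h - lamR A τ R (0 : EE n)) (𝓝 0) (𝓝 0) := by
      have : Continuous fun h : EE n => lamR A τ R h - lamR A τ R (0 : EE n) := by
        have := A.cont_f; unfold lamR; fun_prop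
      simpa using this.tendsto 0
    have := ((Asymptotics.isLittleO_one_iff ℝ).2 hc).smul_isBigO
      (Asymptotics.isBigO_refl (fun h : EE n => h) (𝓝 0))
    simp only [one_smul] at this
    refine this.congr_left fun h => ?_
    simp [contract, sub_smul]
  · have hz' : 0 < ‖z‖ := norm_pos_iff.2 hz
    have hn : HasFDerivAt (fun w : EE n => ‖w‖) (‖z‖⁻¹ • innerSL ℝ z) z := by
      have h := (hasStrictFDerivAt_norm_sq z).hasFDerivAt.sqrt (by positivity)
      simp only [Real.sqrt_sq (norm_nonneg _)] at h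
      refine h.congr_fderiv ?_
      ext a
      simp
      field_simp
    have hf : HasFDerivAt (fun w : EE n => lamR A τ R w)
        ((-τ * (A.dF (‖z‖ / R) - A.f (‖z‖ / R)) / ‖z‖ ^ 2) • innerSL ℝ z) z := by
      have h1 : HasFDerivAt (fun w : EE n => ‖w‖ / R) (R⁻¹ • (‖z‖⁻¹ • innerSL ℝ z)) z := by
        simpa [div_eq_mul_inv] using hn.mul_const R⁻¹
      have h2 := (((A.hasDerivAt_f (t := ‖z‖ / R) (by positivity)).comp_hasFDerivAt z h1).const_mul
        τ).const_sub 1
      refine h2.congr_fderiv ?_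
      ext a
      simp
      field_simp
    refine (hf.smul (hasFDerivAt_id z)).congr_fderiv ?_
    ext a
    simp [contractD_apply]

theorem continuous_contractD (A : Radial) (τ R : ℝ) :
    Continuous (contractD (n := n) A τ R) := by
  rw [continuous_clm_apply]
  intro a
  simp only [contractD_apply]
  refine Continuous.add ?_ ?_
  · have := A.cont_f; unfold lamR; fun_prop
  · rw [continuous_iff_continuousAt]
    intro z
    rcases eq_or_ne z 0 with rfl | hz
    · rw [ContinuousAt]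
      simp only [smul_zero]
      refine squeeze_zero_norm (fun w => norm_contractD_sub_le A τ R w a) ?_
      have hc : Continuous fun w : EE n =>
          |τ * (A.dF (‖w‖ / R) - A.f (‖w‖ / R))| * ‖a‖ := by
        have := A.cont_f; have := A.cont_dF; fun_prop
      simpa [A.dF_zero] using hc.tendsto 0
    · have hz' : ‖z‖ ^ 2 ≠ 0 := pow_ne_zero _ (norm_ne_zero_iff.2 hz)
      have := A.cont_f
      have := A.cont_dF
      fun_prop (disch := assumption)

theorem contDiff_contract (A : Radial) (τ : ℝ) {R : ℝ} (hR : 0 < R) :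
    ContDiff ℝ 1 (contract (n := n) A τ R) :=
  contDiff_one_iff_hasFDerivAt.2
    ⟨_, continuous_contractD A τ R, hasFDerivAt_contract A τ hR⟩

theorem det_contractD (A : Radial) (τ R : ℝ) {z : EE n} (hz : z ≠ 0)
    (hl : lamR A τ R z ≠ 0) :
    (contractD A τ R z).det = (1 - τ * A.dF (‖z‖ / R)) * lamR A τ R z ^ (n - 1) := by
  have hn : n ≠ 0 := by
    rintro rfl
    exact hz (Subsingleton.elim _ _)
  have hz' : ‖z‖ ≠ 0 := norm_ne_zero_iff.2 hz
  rw [contractD, det_rankOne_add hl, real_inner_smul_right, real_inner_self_eq_norm_sq]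
  have hp : lamR A τ R z ^ n = lamR A τ R z ^ (n - 1) * lamR A τ R z := by
    rw [← pow_succ]; congr 1; omega
  rw [hp]
  field_simp
  rw [lamR]
  ring

theorem det_contractD_zero (A : Radial) (τ R : ℝ) :
    (contractD (n := n) A τ R 0).det = lamR A τ R (0 : EE n) ^ n := by
  have : contractD (n := n) A τ R 0
      = lamR A τ R (0 : EE n) • ContinuousLinearMap.id ℝ (EE n) := by
    ext a; simp [contractD]
  rw [this, ContinuousLinearMap.det, ContinuousLinearMap.toLinearMap_smul,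
    LinearMap.det_smul, finrank_euclideanSpace_fin, ContinuousLinearMap.coe_id, LinearMap.det_id,
    mul_one]

theorem det_contractD' (hn : n ≠ 0) (A : Radial) (τ R : ℝ) (z : EE n)
    (hl : lamR A τ R z ≠ 0) :
    (contractD A τ R z).det = (1 - τ * A.dF (‖z‖ / R)) * lamR A τ R z ^ (n - 1) := by
  rcases eq_or_ne z 0 with rfl | hz
  · rw [det_contractD_zero]
    simp only [lamR, norm_zero, zero_div, A.dF_zero]
    rw [← pow_succ']
    congr 1
    omega
  · exact det_contractD A τ R hz hl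

/-- the representative of a covector in the contracted frame and its length -/
theorem exists_contracted_covector (A : Radial) {τ R c : ℝ} {z : EE n}
    (hl : lamR A τ R z ≠ 0) (hh : 1 - τ * A.dF (‖z‖ / R) ≠ 0) (S : EE n →L[ℝ] EE n)
    (η₀ : EE n) (hSz : ∀ a, ⟪S z, S a⟫ = ⟪z, a⟫) (hc : ⟪η₀, S z⟫ = -c * (‖z‖ * ‖η₀‖)) :
    ∃ η : EE n, (∀ a, ⟪η₀, S a⟫ = ⟪η, S (contractD A τ R z a)⟫) ∧
      ‖η‖ = ‖η₀‖ * √((1 - c ^ 2) / (1 - τ * A.f (‖z‖ / R)) ^ 2
        + c ^ 2 / (1 - τ * A.dF (‖z‖ / R)) ^ 2) := by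
  set l := lamR A τ R z with hl'
  set h' := 1 - τ * A.dF (‖z‖ / R) with hh'
  set k := (1 / h' - 1 / l) * ⟪η₀, S z⟫ / ‖z‖ ^ 2 with hk
  refine ⟨l⁻¹ • η₀ + k • S z, fun a => ?_, ?_⟩
  · rw [contractD_apply, ← hl', map_add, map_smul, map_smul, inner_add_left, inner_add_right,
      inner_add_right]
    simp only [real_inner_smul_left, real_inner_smul_right, hSz]
    rw [real_inner_self_eq_norm_sq z]
    rcases eq_or_ne z 0 with rfl | hz
    · simp
      field_simp
    · have hz' : ‖z‖ ≠ 0 := norm_ne_zero_iff.2 hz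
      have e : τ * A.dF (‖z‖ / R) - τ * A.f (‖z‖ / R) = l - h' := by
        rw [hl', hh', lamR]; ring
      rw [hk, neg_mul, mul_sub, e]
      field_simp
      ring
  · rw [show 1 - τ * A.f (‖z‖ / R) = l from rfl,
      ← Real.sqrt_sq (norm_nonneg (l⁻¹ • η₀ + k • S z))]
    conv_rhs => rw [← Real.sqrt_sq (norm_nonneg η₀), ← Real.sqrt_mul (sq_nonneg _)]
    congr 1
    rw [norm_add_sq_real, norm_smul, norm_smul, mul_pow, mul_pow, Real.norm_eq_abs,
      Real.norm_eq_abs, sq_abs, sq_abs, real_inner_smul_left, real_inner_smul_right,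
      ← real_inner_self_eq_norm_sq (S z), hSz, real_inner_self_eq_norm_sq, hk, hc]
    rcases eq_or_ne z 0 with rfl | hz
    · have : l = h' := by simp [hl', hh', lamR, A.dF_zero]
      rw [this]
      simp
      field_simp
      ring
    · have : ‖z‖ ≠ 0 := norm_ne_zero_iff.2 hz
      field_simp
      ring

variable {A : Radial} {C τ R : ℝ} (hC : ∀ t, 0 ≤ t → |A.F t| ≤ C ∧ |A.dF t| ≤ C ∧ |A.f t| ≤ C)
include hC

theorem abs_tau_le (hR : 0 < R) (hτ : 0 ≤ τ) (z : EE n) :
    |τ * A.dF (‖z‖ / R)| ≤ τ * C ∧ |τ * A.f (‖z‖ / R)| ≤ τ * C := by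
  obtain ⟨-, h2, h3⟩ := hC (‖z‖ / R) (by positivity)
  rw [abs_mul, abs_mul, abs_of_nonneg hτ]
  exact ⟨mul_le_mul_of_nonneg_left h2 hτ, mul_le_mul_of_nonneg_left h3 hτ⟩

theorem lamR_mem (hR : 0 < R) (hτ : 0 ≤ τ) (h4 : τ * C ≤ 1 / 4) (z : EE n) :
    lamR A τ R z ∈ Icc (3 / 4 : ℝ) 1 := by
  have h := (abs_tau_le hC hR hτ z).2
  have h0 : 0 ≤ τ * A.f (‖z‖ / R) := mul_nonneg hτ (A.f_nonneg _ (by positivity))
  rw [abs_of_nonneg h0] at h
  unfold lamR
  constructor <;> linarith

theorem det_contractD_ne (hR : 0 < R) (hτ : 0 ≤ τ) (h4 : τ * C ≤ 1 / 4) (z : EE n) :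
    (contractD A τ R z).det ≠ 0 := by
  have hl : 0 < lamR A τ R z := lt_of_lt_of_le (by norm_num) (lamR_mem hC hR hτ h4 z).1
  rcases eq_or_ne z 0 with rfl | hz
  · rw [det_contractD_zero]
    exact pow_ne_zero _ hl.ne'
  · rw [det_contractD A τ R hz hl.ne']
    have := (abs_le.1 (abs_tau_le hC hR hτ z).1).2
    exact (mul_pos (by linarith) (pow_pos hl _)).ne'

theorem exists_contract_homeo (hR : 0 < R) (hτ : 0 ≤ τ) (h4 : τ * C ≤ 1 / 4) :
    ∃ h : EE n ≃ₜ EE n, (∀ z, h z = contract A τ R z) ∧ ContDiff ℝ 1 (h.symm : EE n → EE n) := by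
  have hC0 : 0 ≤ C := le_trans (abs_nonneg _) (hC 0 le_rfl).1
  set c : NNReal := ⟨3 * (τ * C), by positivity⟩ with hc
  have hb : ∀ z : EE n,
      ‖contractD A τ R z - ContinuousLinearMap.id ℝ (EE n)‖ ≤ 3 * (τ * C) := by
    intro z
    refine ContinuousLinearMap.opNorm_le_bound _ (by positivity) fun a => ?_
    have e : (contractD A τ R z - ContinuousLinearMap.id ℝ (EE n)) a
        = (-(τ * A.f (‖z‖ / R))) • a
          + (-τ * (A.dF (‖z‖ / R) - A.f (‖z‖ / R)) / ‖z‖ ^ 2 * ⟪z, a⟫) • z := by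
      simp [contractD_apply, lamR, sub_smul]
      abel
    rw [e]
    refine (norm_add_le _ _).trans ?_
    rw [norm_smul, norm_neg, Real.norm_eq_abs]
    obtain ⟨h1, h2⟩ := abs_tau_le hC hR hτ z
    have h3 : |τ * (A.dF (‖z‖ / R) - A.f (‖z‖ / R))| ≤ 2 * (τ * C) := by
      rw [mul_sub]; refine (abs_sub _ _).trans ?_; linarith
    calc |τ * A.f (‖z‖ / R)| * ‖a‖ + _ ≤ τ * C * ‖a‖ + 2 * (τ * C) * ‖a‖ :=
          add_le_add (mul_le_mul_of_nonneg_right h2 (norm_nonneg _))
            ((norm_contractD_sub_le A τ R z a).trans (mul_le_mul_of_nonneg_right h3 (norm_nonneg _)))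
      _ = 3 * (τ * C) * ‖a‖ := by ring
  have happ : ApproximatesLinearOn (contract (n := n) A τ R)
      ((ContinuousLinearEquiv.refl ℝ (EE n) : EE n →L[ℝ] EE n)) univ c := by
    intro x _ y _
    refine convex_univ.norm_image_sub_le_of_norm_hasFDerivWithin_le'
      (fun z _ => (hasFDerivAt_contract A τ hR z).hasFDerivWithinAt) (fun z _ => ?_)
      (mem_univ y) (mem_univ x)
    exact hb z
  have hlt : Subsingleton (EE n) ∨ c <
      ‖((ContinuousLinearEquiv.refl ℝ (EE n)).symm : EE n →L[ℝ] EE n)‖₊⁻¹ := by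
    rcases subsingleton_or_nontrivial (EE n) with h | h
    · exact Or.inl h
    · right
      have : ‖((ContinuousLinearEquiv.refl ℝ (EE n)).symm : EE n →L[ℝ] EE n)‖₊ = 1 := by
        apply NNReal.eq
        simp
      rw [this, inv_one, ← NNReal.coe_lt_coe, hc]
      simp only [NNReal.coe_one]
      show 3 * (τ * C) < 1
      linarith
  refine ⟨happ.toHomeomorph _ hlt, fun z => rfl, ?_⟩
  refine Homeomorph.contDiff_symm _
    (f₀' := fun z => (contractD A τ R z).toContinuousLinearEquivOfDetNeZero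
      (det_contractD_ne hC hR hτ h4 z)) (fun z => ?_) (contDiff_contract A τ hR)
  rw [ContinuousLinearMap.coe_toContinuousLinearEquivOfDetNeZero]
  exact hasFDerivAt_contract A τ hR z

end Vale.Agent.P219
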