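import Vale.Agent.P219.Geo.Exp
import Vale.Agent.P219.Geo.Jacobi
import Vale.Agent.P219.Var.RadialMap

/-!
# P219 module Var.Volume: the Jacobian under radial contraction (no second derivative needed)
-/

open MeasureTheory Set Filter Topology
open scoped RealInnerProductSpace

namespace Vale.Agent.P219

variable {n : ℕ} {G : EE n → Form n}

/-- the derivative of the Jacobian along rays, `d/ds jac(y, s v)` at `s = 1` -/
noncomputable def jacD (hG : IsCH G) (y v : EE n) : ℝ := fderiv ℝ (jac hG y) v v

theorem fderiv_jac_slice (hG : IsCH G) (y v w : EE n) :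
    fderiv ℝ (jac hG y) v w
      = fderiv ℝ (fun q : EE n × EE n => jac hG q.1 q.2) (y, v) (0, w) := by
  have h : HasFDerivAt (jac hG y)
      ((fderiv ℝ (fun q : EE n × EE n => jac hG q.1 q.2) (y, v)).comp
        (ContinuousLinearMap.inr ℝ (EE n) (EE n))) v :=
    ((contDiff_jac hG).differentiable one_ne_zero (y, v)).hasFDerivAt.comp v
      (hasFDerivAt_prodMk_right y v)
  simp [h.fderiv]

theorem hasDerivAt_jac_ray (hG : IsCH G) (y v : EE n) (r : ℝ) :
    HasDerivAt (fun t : ℝ => jac hG y (t • v)) (fderiv ℝ (jac hG y) (r • v) v) r := by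
  have hd : DifferentiableAt ℝ (jac hG y) (r • v) :=
    (((contDiff_jac hG).differentiable one_ne_zero).comp
      ((differentiable_const y).prodMk differentiable_id)) (r • v)
  simpa using! hd.hasFDerivAt.comp_hasDerivAt r ((hasDerivAt_id r).smul_const v)

theorem continuous_jacD (hG : IsCH G) :
    Continuous fun q : EE n × EE n => jacD hG q.1 q.2 := by
  simp only [jacD, fderiv_jac_slice]
  exact ((contDiff_jac hG).continuous_fderiv one_ne_zero).clm_apply
    (continuous_const.prodMk continuous_snd)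

/-- first order expansion along rays, uniformly on compact sets -/
theorem exists_jac_expansion (hG : IsCH G) {s : Set (EE n × EE n)} (hs : IsCompact s) :
    ∀ θ > 0, ∃ δ > 0, δ ≤ 1 / 2 ∧ ∀ q ∈ s, ∀ l : ℝ, 1 - δ ≤ l → l ≤ 1 →
      |jac hG q.1 (l • q.2) - jac hG q.1 q.2 - (l - 1) * jacD hG q.1 q.2| ≤ θ * (1 - l) := by
  intro θ hθ
  have hc : Continuous fun p : (EE n × EE n) × ℝ =>
      fderiv ℝ (fun q : EE n × EE n => jac hG q.1 q.2) (p.1.1, p.2 • p.1.2) (0, p.1.2) :=
    (((contDiff_jac hG).continuous_fderiv one_ne_zero).comp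
      (continuous_fst.fst.prodMk (continuous_snd.smul continuous_fst.snd))).clm_apply
      (continuous_const.prodMk continuous_fst.snd)
  obtain ⟨δ, hδ, hu⟩ := Metric.uniformContinuousOn_iff_le.1
    ((hs.prod (isCompact_Icc (a := (1 / 2 : ℝ)) (b := 1))).uniformContinuousOn_of_continuous
      hc.continuousOn) θ hθ
  refine ⟨min δ (1 / 2), by positivity, min_le_right _ _, fun q hq l hl hl1 => ?_⟩
  have hl2 : 1 / 2 ≤ l := by linarith [min_le_right δ (1 / 2)]
  set g : ℝ → ℝ := fun r => jac hG q.1 (r • q.2) - (r - 1) * jacD hG q.1 q.2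
  have hg : ∀ r, HasDerivAt g
      (fderiv ℝ (jac hG q.1) (r • q.2) q.2 - jacD hG q.1 q.2) r := fun r => by
    simpa [g] using! (hasDerivAt_jac_ray hG q.1 q.2 r).sub
      (((hasDerivAt_id r).sub_const 1).mul_const (jacD hG q.1 q.2))
  have hb : ∀ r ∈ Icc l 1, ‖fderiv ℝ (jac hG q.1) (r • q.2) q.2 - jacD hG q.1 q.2‖ ≤ θ := by
    intro r hr
    have h := hu (q, r) ⟨hq, ⟨hl2.trans hr.1, hr.2⟩⟩ (q, 1) ⟨hq, ⟨by norm_num, le_rfl⟩⟩
      (by
        rw [Prod.dist_eq, dist_self, Real.dist_eq, abs_sub_comm,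
          abs_of_nonneg (by linarith [hr.2])]
        exact max_le hδ.le (by linarith [hr.1, min_le_left δ (1 / 2)]))
    simpa [jacD, fderiv_jac_slice, Real.dist_eq] using h
  have := (convex_Icc l 1).norm_image_sub_le_of_norm_hasDerivWithin_le (f := g)
    (fun r _ => (hg r).hasDerivWithinAt) hb (right_mem_Icc.2 hl1) (left_mem_Icc.2 hl1)
  simp only [g, one_smul, sub_self, zero_mul, sub_zero, Real.norm_eq_abs] at this
  rw [abs_sub_comm l 1, abs_of_nonneg (by linarith : 0 ≤ 1 - l)] at this
  convert this using 2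
  ring

/-- integration by parts along rays in normal coordinates `z = L v` -/
theorem integral_radial_ibp (hG : IsCH G) (A : Radial) (y : EE n) (L : EE n ≃L[ℝ] EE n) {R : ℝ}
    (hR : 0 < R) {U : EE n → ℝ} (hU : ContDiff ℝ 1 U) (hUc : HasCompactSupport U) :
    ∫ z, U z * (jac hG y (L.symm z) * (A.dF (‖z‖ / R) + ((n : ℝ) - 1) * A.f (‖z‖ / R))
        + A.f (‖z‖ / R) * jacD hG y (L.symm z))
      = -∫ z, A.f (‖z‖ / R) * jac hG y (L.symm z) * fderiv ℝ U z z := by
  have cr : Continuous fun z : EE n => ‖z‖ / R := continuous_norm.div_const R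
  have cf : Continuous fun z : EE n => A.f (‖z‖ / R) := A.cont_f.comp cr
  have cd : Continuous fun z : EE n => A.dF (‖z‖ / R) := A.cont_dF.comp cr
  have cp : Continuous fun z : EE n => (y, L.symm z) := continuous_const.prodMk L.symm.continuous
  have cj : Continuous fun z : EE n => jac hG y (L.symm z) := (contDiff_jac hG).continuous.comp cp
  have cD : Continuous fun z : EE n => jacD hG y (L.symm z) := (continuous_jacD hG).comp cp
  have cU : Continuous fun z : EE n => fderiv ℝ U z z :=
    (hU.continuous_fderiv one_ne_zero).clm_apply continuous_id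
  have sU : HasCompactSupport fun z : EE n => fderiv ℝ U z z :=
    (hUc.fderiv ℝ).mono fun z hz h => hz (by simp [h])
  set W : EE n → ℝ := fun z => A.f (‖z‖ / R) * jac hG y (L.symm z) * U z
  set P : EE n → ℝ := fun z =>
    U z * (jac hG y (L.symm z) * (A.dF (‖z‖ / R) + ((n : ℝ) - 1) * A.f (‖z‖ / R))
      + A.f (‖z‖ / R) * jacD hG y (L.symm z))
  set Q : EE n → ℝ := fun z => A.f (‖z‖ / R) * jac hG y (L.symm z) * fderiv ℝ U z z
  have cW : Continuous W := (cf.mul cj).mul hU.continuous
  have sW : HasCompactSupport W := hUc.mul_left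
  have cP : Continuous P :=
    hU.continuous.mul ((cj.mul (cd.add (continuous_const.mul cf))).add (cf.mul cD))
  have cQ : Continuous Q := (cf.mul cj).mul cU
  have sP : HasCompactSupport P := hUc.mul_right
  have sQ : HasCompactSupport Q := sU.mul_left
  have sV : HasCompactSupport fun z => P z + Q z - (n : ℝ) * W z :=
    (sP.add sQ).sub sW.mul_left
  have hd : ∀ z, ∀ t : ℝ, 0 < t → HasDerivAt (fun r : ℝ => W (r • z))
      ((P (t • z) + Q (t • z) - (n : ℝ) * W (t • z)) / t) t := by
    intro z t ht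
    have hnz : ∀ r : ℝ, 0 < r → ‖r • z‖ / R = r * (‖z‖ / R) := fun r hr => by
      rw [norm_smul, Real.norm_of_nonneg hr.le, mul_div_assoc]
    have h2 : HasDerivAt (fun r : ℝ => jac hG y (L.symm (r • z)))
        (jacD hG y (L.symm (t • z)) / t) t := by
      simp only [map_smul]
      refine (hasDerivAt_jac_ray hG y (L.symm z) t).congr_deriv ?_
      rw [jacD, map_smul, smul_eq_mul, mul_div_cancel_left₀ _ ht.ne']
    have h3 : HasDerivAt (fun r : ℝ => U (r • z)) (fderiv ℝ U (t • z) (t • z) / t) t := by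
      rw [map_smul, smul_eq_mul, mul_div_cancel_left₀ _ ht.ne']
      simpa using! (hU.differentiable one_ne_zero (t • z)).hasFDerivAt.comp_hasDerivAt t
        ((hasDerivAt_id t).smul_const z)
    refine ((((A.hasDerivAt_f_mul ht.ne' (‖z‖ / R)).mul h2).mul h3).congr_of_eventuallyEq
      ?_).congr_deriv ?_
    · filter_upwards [Ioi_mem_nhds ht] with r hr
      simp [W, hnz r hr]
    · simp only [P, Q, W, hnz t ht, Pi.mul_apply]
      ring
  have key := integral_dilation (V := fun z => P z + Q z - (n : ℝ) * W z) cW sW ((cP.add cQ).sub (continuous_const.mul cW)) sV hd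
  have iP := cP.integrable_of_hasCompactSupport (μ := volume) sP
  have iQ := cQ.integrable_of_hasCompactSupport (μ := volume) sQ
  have iW := (cW.integrable_of_hasCompactSupport (μ := volume) sW).const_mul (n : ℝ)
  rw [integral_sub (f := fun z => P z + Q z) (iP.add iQ) iW, integral_add iP iQ,
    integral_const_mul] at key
  change ∫ z, P z = -∫ z, Q z
  linarith

end Vale.Agent.P219
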