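import Vale.Agent.P219.Var.Competitor
import Vale.Agent.P219.Var.Volume

/-!
# P219 module Var: first variation under geodesic contraction towards `y`

In normal coordinates `z = L v` at `y` the competitor is `u ∘ Ψ⁻¹` with
`Ψ z = (1 - τ f(|z|/R)) z`. `pullG_mono` and `conorm_dens_mono` bound the total variation without
differentiating the metric (`Var/Chart`, `Var/Competitor`); the volume uses the first order
expansion of `jac` along rays and an integration by parts along rays (`Var/Volume`). The weight at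
radius `R` is `F_R t = R F(t/R)`, so the model slope `(n-1)/R` gives the scale free kernel
`K(t/R, c)`.
-/

open MeasureTheory Set Filter Topology
open scoped RealInnerProductSpace

namespace Vale.Agent.P219

variable {n : ℕ} {G : EE n → Form n}

theorem continuous_rpow_sobExp (hn : 2 ≤ n) {U : EE n → ℝ} (hU : Continuous U) :
    Continuous fun z => U z ^ sobExp n := by
  refine hU.rpow_const fun z => Or.inr ?_
  have : (2 : ℝ) ≤ n := by exact_mod_cast hn
  exact div_nonneg (by linarith) (by linarith)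

theorem zero_rpow_sobExp (hn : 2 ≤ n) : (0 : ℝ) ^ sobExp n = 0 := by
  have : (2 : ℝ) ≤ n := by exact_mod_cast hn
  exact Real.zero_rpow (div_ne_zero (by linarith) (by linarith))

/-- the Jacobian of the contraction to first order -/
theorem vol_pointwise (m : ℕ) {J J' j a b ε θ CJ CD : ℝ} (ha : |a| ≤ ε) (hb0 : 0 ≤ b) (hb : b ≤ ε)
    (hε : ((m : ℝ) + 1) * ε ≤ 1 / 2) (hθ : 0 ≤ θ) (hJ : |J| ≤ CJ) (hj : |j| ≤ CD)
    (he : |J' - J - (-b) * j| ≤ θ * b) :
    |J' * ((1 - a) * (1 - b) ^ m) - (J - (J * (a + m * b) + b * j))|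
      ≤ ε ^ 2 * (((m : ℝ) + 1) ^ 2 * CJ + 2 * ((m : ℝ) + 1) * CD) + 2 * θ * ε := by
  have hε0 : 0 ≤ ε := le_trans hb0 hb
  have hb' : |b| ≤ ε := by rwa [abs_of_nonneg hb0]
  have hq := volume_factor m ha hb' (by linarith)
  set P := (1 - a) * (1 - b) ^ m with hP
  set q := P - (1 - a - m * b) with hq'
  have hP1 : |P - 1| ≤ 2 * (((m : ℝ) + 1) * ε) := by
    have h1 : |q| ≤ ((m : ℝ) + 1) * ε := by
      refine hq.trans ?_
      rw [← mul_pow, sq]
      exact mul_le_of_le_one_left (by positivity) (by linarith)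
    have h2 : |a + m * b| ≤ ((m : ℝ) + 1) * ε := by
      refine (abs_add_le _ _).trans ?_
      rw [abs_mul, Nat.abs_cast]
      have := mul_le_mul_of_nonneg_left hb' (Nat.cast_nonneg (α := ℝ) m)
      linarith
    rw [show P - 1 = q - (a + m * b) by rw [hq']; ring]
    exact (abs_sub _ _).trans (by linarith)
  have hPle : |P| ≤ 2 := by
    have := abs_le.1 hP1
    rw [abs_le]
    constructor <;> linarith
  rw [show J' * P - (J - (J * (a + m * b) + b * j))
      = J * q + (P - 1) * (-b * j) + (J' - J - (-b) * j) * P by rw [hq']; ring]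
  refine (abs_add_le _ _).trans ?_
  refine (add_le_add (abs_add_le _ _) le_rfl).trans ?_
  rw [abs_mul, abs_mul (P - 1), abs_mul (J' - J - -b * j), abs_mul (-b), abs_neg]
  have e1 : |J| * |q| ≤ CJ * (((m : ℝ) + 1) ^ 2 * ε ^ 2) :=
    mul_le_mul hJ hq (abs_nonneg _) (le_trans (abs_nonneg _) hJ)
  have e2 : |P - 1| * (|b| * |j|) ≤ 2 * (((m : ℝ) + 1) * ε) * (ε * CD) :=
    mul_le_mul hP1 (mul_le_mul hb' hj (abs_nonneg _) hε0)
      (mul_nonneg (abs_nonneg _) (abs_nonneg _)) (by positivity)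
  have e3 : |J' - J - -b * j| * |P| ≤ θ * ε * 2 :=
    mul_le_mul (he.trans (mul_le_mul_of_nonneg_left hb hθ)) hPle (abs_nonneg _) (by positivity)
  linarith

/-- the volume of the contracted competitor against the pair integral -/
theorem volume_variation (hn : 2 ≤ n) (hG : IsCH G) {y : EE n} {L : EE n ≃L[ℝ] EE n}
    (hL : ∀ v w, G y v w = ⟪L v, L w⟫) (hd : dens G y = |(L : EE n →L[ℝ] EE n).det|) (A : Radial)
    {C τ R θ δ CJ CD : ℝ} (hC : ∀ t, 0 ≤ t → |A.F t| ≤ C ∧ |A.dF t| ≤ C ∧ |A.f t| ≤ C)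
    (hR : 0 < R) (hτ : 0 ≤ τ) (hθ : 0 ≤ θ) (hδ : τ * C ≤ δ) (hn2 : (n : ℝ) * (τ * C) ≤ 1 / 2)
    {u : EE n → ℝ} (hu : ContDiff ℝ 1 u) (huc : HasCompactSupport u) (hu0 : ∀ x, 0 ≤ u x)
    (hS : ∀ x, u x ≠ 0 → |jac hG y (logG hG y x)| ≤ CJ ∧ |jacD hG y (logG hG y x)| ≤ CD ∧
      ∀ l : ℝ, 1 - δ ≤ l → l ≤ 1 → |jac hG y (l • logG hG y x) - jac hG y (logG hG y x)
        - (l - 1) * jacD hG y (logG hG y x)| ≤ θ * (1 - l))
    (hCJ : 0 ≤ CJ) (hCD : 0 ≤ CD) :
    let err := τ * C ^ 2 * ((n : ℝ) ^ 2 * CJ + 2 * n * CD) + 2 * θ * C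
    let CB := CJ * (n * C) + C * CD
    let M' := ∫ z, jac hG y (lamR A τ R z • L.symm z)
          * ((1 - τ * A.dF (‖z‖ / R)) * lamR A τ R z ^ (n - 1))
          * u (chart hG y L z) ^ sobExp n
    |M' - pMass G u| ≤ τ * (CB + err) * pMass G u ∧
      pMass G u - τ * (R * (∫ x, conorm G x (fderiv ℝ u x)
          * (A.F (gdist hG x y / R) * ucos hG u y x) ∂rVol G)
        + CB * ∫ x, |u x ^ sobExp n - u x| ∂rVol G) - τ * err * pMass G u ≤ M' := by
  intro err CB M'
  have hn0 : n ≠ 0 := by omega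
  have hn1 : (2 : ℝ) ≤ n := by exact_mod_cast hn
  have hm1 : ((n - 1 : ℕ) : ℝ) = (n : ℝ) - 1 := by rw [Nat.cast_sub (by omega), Nat.cast_one]
  have hC0 : 0 ≤ C := le_trans (abs_nonneg _) (hC 0 le_rfl).1
  have h4 : τ * C ≤ 1 / 4 := by
    have := mul_le_mul_of_nonneg_right hn1 (mul_nonneg hτ hC0)
    linarith
  set E := chartHomeo hG y L
  set U : EE n → ℝ := fun z => u (chart hG y L z) with hU
  have hUd : ContDiff ℝ 1 U := hu.comp (contDiff_chart hG y L)
  have hUc : HasCompactSupport U := huc.comp_homeomorph E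
  have hU1 := hUd.continuous
  have hUp : Continuous fun z => U z ^ sobExp n := continuous_rpow_sobExp hn hU1
  have hUpc : HasCompactSupport fun z => U z ^ sobExp n :=
    hUc.comp_left (g := fun r : ℝ => r ^ sobExp n) (zero_rpow_sobExp hn)
  set J : EE n → ℝ := fun z => jac hG y (L.symm z) with hJ
  have hJc : Continuous J :=
    (contDiff_jac hG).continuous.comp (continuous_const.prodMk L.symm.continuous)
  have hJ'c : Continuous fun z => jac hG y (lamR A τ R z • L.symm z) := by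
    refine (contDiff_jac hG).continuous.comp (continuous_const.prodMk ?_)
    have := A.cont_f; unfold lamR; fun_prop
  set B : EE n → ℝ := fun z => jac hG y (L.symm z)
      * (A.dF (‖z‖ / R) + ((n : ℝ) - 1) * A.f (‖z‖ / R))
      + A.f (‖z‖ / R) * jacD hG y (L.symm z) with hB
  have hBc : Continuous B := by
    have h1 : Continuous fun z => jacD hG y (L.symm z) :=
      (continuous_jacD hG).comp (continuous_const.prodMk L.symm.continuous)
    have h2 : Continuous fun z => jac hG y (L.symm z) := hJc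
    have := A.cont_f; have := A.cont_dF
    simp only [hB]
    fun_prop
  have hDc : Continuous fun z : EE n => (1 - τ * A.dF (‖z‖ / R)) * lamR A τ R z ^ (n - 1) := by
    have := A.cont_f; have := A.cont_dF; unfold lamR; fun_prop
  -- pointwise facts on the support
  have hsupp : ∀ z, U z ≠ 0 → |J z| ≤ CJ ∧ |B z| ≤ CB ∧
      |jac hG y (lamR A τ R z • L.symm z) * ((1 - τ * A.dF (‖z‖ / R)) * lamR A τ R z ^ (n - 1))
          - (J z - τ * B z)| ≤ τ * err := by
    intro z hz
    obtain ⟨h1, h2, h3⟩ := hS _ hz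
    rw [show logG hG y (chart hG y L z) = L.symm z from logG_expG hG y _] at h1 h2 h3
    obtain ⟨hl0, hl1⟩ := lamR_mem hC hR hτ h4 z
    obtain ⟨ha, hb⟩ := abs_tau_le hC hR hτ z
    have hb0 : 0 ≤ τ * A.f (‖z‖ / R) := mul_nonneg hτ (A.f_nonneg _ (by positivity))
    rw [abs_of_nonneg hb0] at hb
    refine ⟨h1, ?_, ?_⟩
    · obtain ⟨-, g2, g3⟩ := hC (‖z‖ / R) (by positivity)
      simp only [hB]
      refine (abs_add_le _ _).trans (add_le_add ?_ ?_)
      · rw [abs_mul]
        refine mul_le_mul h1 ((abs_add_le _ _).trans ?_) (abs_nonneg _) hCJ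
        rw [abs_mul, abs_of_nonneg (show (0 : ℝ) ≤ n - 1 by linarith)]
        have := mul_le_mul_of_nonneg_left g3 (show (0 : ℝ) ≤ n - 1 by linarith)
        linarith
      · rw [abs_mul]; exact mul_le_mul g3 h2 (abs_nonneg _) hC0
    · have := vol_pointwise (n - 1) (J := J z) (J' := jac hG y (lamR A τ R z • L.symm z))
        (j := jacD hG y (L.symm z)) (θ := θ) (CJ := CJ) (CD := CD) ha hb0 hb
        (by rw [hm1]; linarith) hθ h1 h2
        (by
          have h5 := h3 (lamR A τ R z) (by unfold lamR; linarith) hl1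
          simpa [lamR] using h5)
      rw [hm1] at this
      refine le_trans (le_of_eq ?_) (this.trans (le_of_eq ?_))
      · congr 1
        simp only [lamR, hB, hJ]
        ring
      · simp only [err]; ring
  have hUp0 : ∀ z, 0 ≤ U z ^ sobExp n := fun z => Real.rpow_nonneg (hu0 _) _
  have hJ1 : ∀ z, 1 ≤ J z := fun z => one_le_jac hG y _
  have hCB : 0 ≤ CB := by positivity
  have herr : 0 ≤ err := by positivity
  -- the integrals
  have hM : pMass G u = ∫ z, J z * U z ^ sobExp n := by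
    rw [pMass, integral_rVol_comp hG (E := chart hG y L) E.bijective (hasFDerivAt_chart hG y L)]
    refine integral_congr_ae (ae_of_all _ fun z => ?_)
    simp only [chart_jac hG hd, abs_of_nonneg (hu0 _), hJ, hU]
  have i1 : Integrable fun z => J z * U z ^ sobExp n :=
    (hJc.mul hUp).integrable_of_hasCompactSupport hUpc.mul_left
  have i2 : Integrable fun z => B z * U z ^ sobExp n :=
    (hBc.mul hUp).integrable_of_hasCompactSupport hUpc.mul_left
  have i3 : Integrable fun z => jac hG y (lamR A τ R z • L.symm z)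
      * ((1 - τ * A.dF (‖z‖ / R)) * lamR A τ R z ^ (n - 1)) * U z ^ sobExp n :=
    ((hJ'c.mul hDc).mul hUp).integrable_of_hasCompactSupport hUpc.mul_left
  have i4 : Integrable fun z => U z * B z :=
    (hU1.mul hBc).integrable_of_hasCompactSupport hUc.mul_right
  have i5 : Integrable fun z => J z * |U z ^ sobExp n - U z| := by
    refine (hJc.mul (hUp.sub hU1).abs).integrable_of_hasCompactSupport ?_
    exact ((hUc.comp_left (g := fun r : ℝ => |r ^ sobExp n - r|)
      (by simp [zero_rpow_sobExp hn]))).mul_left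
  set T := ∫ z, B z * U z ^ sobExp n with hT
  have i6 : Integrable fun z => jac hG y (lamR A τ R z • L.symm z)
      * ((1 - τ * A.dF (‖z‖ / R)) * lamR A τ R z ^ (n - 1)) * U z ^ sobExp n
      - J z * U z ^ sobExp n := i3.sub i1
  have hkey : |M' - pMass G u + τ * T| ≤ τ * err * pMass G u := by
    rw [show M' - pMass G u + τ * T = ∫ z, (jac hG y (lamR A τ R z • L.symm z)
          * ((1 - τ * A.dF (‖z‖ / R)) * lamR A τ R z ^ (n - 1)) * U z ^ sobExp n
          - J z * U z ^ sobExp n) + τ * (B z * U z ^ sobExp n) by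
        rw [integral_add i6 (i2.const_mul τ), integral_sub i3 i1, integral_const_mul, hM, hT],
      hM, ← integral_const_mul]
    refine abs_integral_le_integral_abs.trans
      (integral_mono (i6.add (i2.const_mul τ)).abs (i1.const_mul _) fun z => ?_)
    by_cases hz : U z = 0
    · simp [hz, zero_rpow_sobExp hn]
    · obtain ⟨-, -, h3⟩ := hsupp z hz
      rw [show jac hG y (lamR A τ R z • L.symm z)
          * ((1 - τ * A.dF (‖z‖ / R)) * lamR A τ R z ^ (n - 1)) * U z ^ sobExp n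
          - J z * U z ^ sobExp n + τ * (B z * U z ^ sobExp n)
          = (jac hG y (lamR A τ R z • L.symm z)
            * ((1 - τ * A.dF (‖z‖ / R)) * lamR A τ R z ^ (n - 1)) - (J z - τ * B z))
              * U z ^ sobExp n by ring, abs_mul, abs_of_nonneg (hUp0 z)]
      exact mul_le_mul h3 (le_mul_of_one_le_left (hUp0 z) (hJ1 z)) (hUp0 z)
        (mul_nonneg hτ herr)
  have hTb : |T| ≤ CB * pMass G u := by
    rw [hT, hM, ← integral_const_mul]
    refine abs_integral_le_integral_abs.trans (integral_mono i2.abs (i1.const_mul _) fun z => ?_)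
    by_cases hz : U z = 0
    · simp [hz, zero_rpow_sobExp hn]
    · rw [abs_mul, abs_of_nonneg (hUp0 z)]
      exact mul_le_mul (hsupp z hz).2.1 (le_mul_of_one_le_left (hUp0 z) (hJ1 z)) (hUp0 z) hCB
  obtain ⟨hk1, hk2⟩ := abs_le.1 hkey
  refine ⟨?_, ?_⟩
  · calc |M' - pMass G u| = |(M' - pMass G u + τ * T) - τ * T| := by ring_nf
      _ ≤ |M' - pMass G u + τ * T| + |τ * T| := abs_sub _ _
      _ ≤ τ * err * pMass G u + τ * (CB * pMass G u) := by
          refine add_le_add hkey ?_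
          rw [abs_mul, abs_of_nonneg hτ]
          exact mul_le_mul_of_nonneg_left hTb hτ
      _ = _ := by ring
  · have hE : ∫ x, |u x ^ sobExp n - u x| ∂rVol G = ∫ z, J z * |U z ^ sobExp n - U z| := by
      rw [integral_rVol_comp hG (E := chart hG y L) E.bijective (hasFDerivAt_chart hG y L)]
      refine integral_congr_ae (ae_of_all _ fun z => ?_)
      simp only [chart_jac hG hd, hJ, hU]
    have hW : ∫ z, U z * B z = R * ∫ x, conorm G x (fderiv ℝ u x)
        * (A.F (gdist hG x y / R) * ucos hG u y x) ∂rVol G := by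
      rw [integral_radial_ibp hG A y L hR hUd hUc,
        integral_rVol_comp hG (E := chart hG y L) E.bijective (hasFDerivAt_chart hG y L),
        ← integral_neg, ← integral_const_mul]
      refine integral_congr_ae (ae_of_all _ fun z => ?_)
      have hD : fderiv ℝ U z
          = (fderiv ℝ u (chart hG y L z)).comp (chartD hG y L z) :=
        (((hu.differentiable one_ne_zero) _).hasFDerivAt.comp z
          (hasFDerivAt_chart hG y L z)).fderiv
      have hdist : gdist hG (chart hG y L z) y = ‖z‖ := by rw [gdist_comm, gdist_chart hL]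
      simp only [hD, ContinuousLinearMap.comp_apply, chartD_self, map_neg, fderiv_logG_ucos, hdist,
        chart_jac hG hd, A.F_eq]
      field_simp
    have hTle : T ≤ (∫ z, U z * B z) + CB * ∫ z, J z * |U z ^ sobExp n - U z| := by
      rw [hT, ← integral_const_mul, ← integral_add i4 (i5.const_mul CB)]
      refine integral_mono i2 (i4.add (i5.const_mul CB)) fun z => ?_
      by_cases hz : U z = 0
      · simp [hz, zero_rpow_sobExp hn]
      · have h1 : B z * (U z ^ sobExp n - U z) ≤ CB * (J z * |U z ^ sobExp n - U z|) :=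
          (le_abs_self _).trans ((abs_mul _ _).trans_le (mul_le_mul (hsupp z hz).2.1
            (le_mul_of_one_le_left (abs_nonneg _) (hJ1 z)) (abs_nonneg _) hCB))
        linarith
    rw [hW, ← hE] at hTle
    have := mul_le_mul_of_nonneg_left hTle hτ
    linarith

/-- the kernel of `Radial.K` splits into the total variation and the volume parts -/
theorem integral_kernel (hn : 2 ≤ n) (hG : IsCH G) (A : Radial) {C R : ℝ}
    (hC : ∀ t, 0 ≤ t → |A.F t| ≤ C ∧ |A.dF t| ≤ C ∧ |A.f t| ≤ C) (hR : 0 < R)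
    {u : EE n → ℝ} (hu : ContDiff ℝ 1 u) (huc : HasCompactSupport u) (y : EE n) :
    ∫ x, conorm G x (fderiv ℝ u x) * A.K n (gdist hG x y / R) (ucos hG u y x) ∂rVol G
      = (∫ x, conorm G x (fderiv ℝ u x) * tvK hG A R u y x ∂rVol G)
        - ((n : ℝ) - 1) * ∫ x, conorm G x (fderiv ℝ u x)
          * (A.F (gdist hG x y / R) * ucos hG u y x) ∂rVol G := by
  have := isFiniteMeasureOnCompacts_rVol hG
  have hC0 : 0 ≤ C := le_trans (abs_nonneg _) (hC 0 le_rfl).1
  have hf := continuous_conorm_du hG hu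
  have hfc := hasCompactSupport_conorm_fderiv G huc
  have j1 : Integrable (fun x => conorm G x (fderiv ℝ u x) * tvK hG A R u y x) (rVol G) :=
    integrable_mul_bdd hf hfc (measurable_tvK hG A R hu y) (abs_tvK_le hn hG hC hR u y)
  have hm : Measurable fun x => A.F (gdist hG x y / R) * ucos hG u y x :=
    ((A.continuous_wF.comp (((continuous_gdist hG).comp
      (continuous_id.prodMk continuous_const)).div_const R)).measurable).mul
      (measurable_ucos_left hG hu y)
  have j2 : Integrable (fun x => conorm G x (fderiv ℝ u x)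
      * (A.F (gdist hG x y / R) * ucos hG u y x)) (rVol G) := by
    refine integrable_mul_bdd (K := C) hf hfc hm fun x => ?_
    rw [abs_mul]
    exact le_trans (mul_le_mul (hC _ (div_nonneg (Real.sqrt_nonneg _) hR.le)).1
      (abs_ucos_le_one hG u y x) (abs_nonneg _) hC0) (le_of_eq (mul_one C))
  rw [← integral_const_mul, ← integral_sub j1 (j2.const_mul _)]
  refine integral_congr_ae (ae_of_all _ fun x => ?_)
  simp only [Radial.K, tvK]
  ring

/-- the bookkeeping of the errors -/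
theorem variation_arith {ω R Rn Rm nn M M' gM gM' TV₀ TV₁ I₁ W EM CB CE err θ τ N Mx Wn K₂ K₁ : ℝ}
    (hM : M = ω * Rn) (hd : |(M' - M) / M| ≤ τ * (CB + err)) (hgM : gM = ω * nn * Rm)
    (hg : ω * nn * Rm + (nn - 1) / R * (M' - M) - ω * Rm * ((M' - M) / M) ^ 2 ≤ gM')
    (hMlo : M - τ * (R * W + CB * EM) - τ * err * M ≤ M')
    (hTV : TV₁ ≤ TV₀ - τ * I₁ + τ * (τ * K₁ * TV₀))
    (hR : 0 < R) (hτ : 0 ≤ τ) (hK₂ : 0 ≤ K₂) (hCB : 0 ≤ CB) (hEM : 0 ≤ EM) (hN0 : 0 ≤ N)
    (hMnn : 0 ≤ M) (hTV0 : 0 ≤ TV₀) (herr0 : 0 ≤ err) (herr : err = τ * K₂ + CE) (hE : err ≤ K₂ + CE)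
    (hRm0 : 0 ≤ ω * Rm) (hN : (nn - 1) / R ≤ N) (hMx : M ≤ Mx) (hWn : ω * Rm ≤ Wn)
    (hCE : N * Mx * CE ≤ θ / 2) (hK₃ : τ * (N * Mx * K₂ + Wn * (CB + (K₂ + CE)) ^ 2) ≤ θ / 2)
    (hK₁ : τ * K₁ ≤ θ) (hnn' : 0 ≤ (nn - 1) / R) :
    TV₁ - gM' ≤ TV₀ - gM - τ * (I₁ - (nn - 1) * W - N * CB * EM) + τ * θ * (1 + TV₀) := by
  have b1 : (nn - 1) / R * (τ * CB * EM) ≤ N * (τ * CB * EM) :=
    mul_le_mul_of_nonneg_right hN (by positivity)
  have b2 : (nn - 1) / R * (τ * err * M) ≤ N * (τ * err * Mx) :=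
    le_trans (mul_le_mul_of_nonneg_right hN (by positivity))
      (mul_le_mul_of_nonneg_left (mul_le_mul_of_nonneg_left hMx (by positivity)) hN0)
  have b3 : ω * Rm * ((M' - M) / M) ^ 2 ≤ τ ^ 2 * (Wn * (CB + (K₂ + CE)) ^ 2) := by
    have h1 : ((M' - M) / M) ^ 2 ≤ (τ * (CB + (K₂ + CE))) ^ 2 := by
      rw [← sq_abs]
      exact pow_le_pow_left₀ (abs_nonneg _)
        (hd.trans (mul_le_mul_of_nonneg_left (by linarith) hτ)) 2
    calc ω * Rm * ((M' - M) / M) ^ 2 ≤ Wn * (τ * (CB + (K₂ + CE))) ^ 2 :=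
          mul_le_mul hWn h1 (sq_nonneg _) (le_trans hRm0 hWn)
      _ = _ := by ring
  rw [herr] at b2
  have b4 := mul_le_mul_of_nonneg_left hK₃ hτ
  have b5 := mul_le_mul_of_nonneg_left hCE hτ
  have b6 := mul_le_mul_of_nonneg_left (mul_le_mul_of_nonneg_right hK₁ hTV0) hτ
  have b7 : (nn - 1) / R * (M - τ * (R * W + CB * EM) - τ * err * M - M)
        ≤ (nn - 1) / R * (M' - M) :=
      mul_le_mul_of_nonneg_left (by linarith) hnn'
  have e7 : (nn - 1) / R * (M - τ * (R * W + CB * EM) - τ * err * M - M)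
        = -(τ * ((nn - 1) * W)) - (nn - 1) / R * (τ * CB * EM)
          - (nn - 1) / R * (τ * (τ * K₂ + CE) * M) := by
      rw [herr]; field_simp; ring
  rw [e7] at b7
  linarith

theorem exists_variation_bound (hn : 2 ≤ n) (hG : IsCH G) (F : Radial) (o : EE n)
    (R₀ lo hi : ℝ) (hlo : 0 < lo) :
    ∃ C₁ : ℝ, ∀ θ > 0, ∃ τ₀ > 0, ∀ τ, 0 < τ → τ ≤ τ₀ → ∀ u, Adm hG o R₀ u →
      ∀ y ∈ gball hG o R₀, ∀ R ∈ Icc lo hi, pMass G u = omega n * R ^ n →
        ∃ u', Adm hG o R₀ u' ∧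
          deficit G u' ≤ deficit G u
            - τ * ((∫ x, conorm G x (fderiv ℝ u x) *
                F.K n (gdist hG x y / R) (ucos hG u y x) ∂rVol G)
              - C₁ * ∫ x, |u x ^ sobExp n - u x| ∂rVol G)
            + τ * θ * (1 + TV G u) := by
  obtain ⟨C, hC⟩ := F.bdd
  have hC0 : 0 ≤ C := le_trans (abs_nonneg _) (hC 0 le_rfl).1
  have hn1 : (2 : ℝ) ≤ n := by exact_mod_cast hn
  -- the compact set of all radial coordinates
  set s : Set (EE n × EE n) :=
    (fun q : EE n × EE n => (q.1, logG hG q.1 q.2)) '' (gball hG o R₀ ×ˢ gball hG o R₀) with hs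
  have hsc : IsCompact s := ((isCompact_gball hG o R₀).prod (isCompact_gball hG o R₀)).image
    (continuous_fst.prodMk (continuous_logG hG))
  obtain ⟨CJ₀, hCJ₀⟩ := hsc.exists_bound_of_continuousOn (contDiff_jac hG).continuous.continuousOn
  obtain ⟨CD₀, hCD₀⟩ := hsc.exists_bound_of_continuousOn (continuous_jacD hG).continuousOn
  set CJ := max CJ₀ 0
  set CD := max CD₀ 0
  have hCJ : 0 ≤ CJ := le_max_right _ _
  have hCD : 0 ≤ CD := le_max_right _ _
  set CB := CJ * (n * C) + C * CD with hCBdef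
  have hCB : 0 ≤ CB := by positivity
  set N := ((n : ℝ) - 1) / lo with hN
  have hN0 : 0 ≤ N := div_nonneg (by linarith) hlo.le
  refine ⟨N * CB, fun θ hθ => ?_⟩
  set Mx := omega n * |hi| ^ n with hMx
  set Wn := omega n * |hi| ^ (n - 1) with hWn
  have hom := omega_nonneg n
  have hMx0 : 0 ≤ Mx := by positivity
  set θ₁ := θ / (4 * (N * Mx * C + 1)) with hθ₁
  have hθ₁0 : 0 < θ₁ := by positivity
  obtain ⟨δ, hδ, -, hδs⟩ := exists_jac_expansion hG hsc θ₁ hθ₁0
  set K₂ := C ^ 2 * ((n : ℝ) ^ 2 * CJ + 2 * n * CD) with hK₂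
  set E₀ := 2 * θ₁ * C + K₂ with hE₀
  set K₁ := (16 + ((n : ℝ) + 19) ^ 2) * C ^ 2 with hK₁
  set K₃ := N * Mx * K₂ + Wn * (CB + E₀) ^ 2 with hK₃
  have hK₃0 : 0 ≤ K₃ := by positivity
  set τ₀ := min (min (min 1 (δ / (C + 1))) (1 / (4 * ((n : ℝ) + 19) * (C + 1))))
    (min (1 / (2 * (CB + E₀ + 1))) (min (θ / (2 * (K₃ + 1))) (θ / (K₁ + 1)))) with hτ₀
  refine ⟨τ₀, by positivity, fun τ hτ hττ u hu y hy R hR hV => ?_⟩
  simp only [hτ₀, le_min_iff] at hττ
  obtain ⟨⟨⟨t1, t2⟩, t3⟩, t4, t5, t6⟩ := hττ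
  rw [le_div_iff₀ (by positivity)] at t2 t3 t4 t5 t6
  have hRpos : 0 < R := lt_of_lt_of_le hlo hR.1
  have hεδ : τ * C ≤ δ := by linarith
  have hε20 : ((n : ℝ) + 19) * (τ * C) ≤ 1 / 4 := by
    have : 0 ≤ ((n : ℝ) + 19) * τ := by positivity
    linarith
  have hεn : (n : ℝ) * (τ * C) ≤ 1 / 2 := by
    have := mul_nonneg hτ.le hC0
    linarith
  have h4 : τ * C ≤ 1 / 4 := by
    have := mul_nonneg (Nat.cast_nonneg (α := ℝ) n) (mul_nonneg hτ.le hC0)
    linarith
  obtain ⟨L, hL, hd⟩ := exists_det_sq hG y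
  obtain ⟨u', hadm, hTV, hM'⟩ :=
    exists_competitor hn hG hL hd F hC hRpos hτ.le h4 (by linarith) hy hu
  refine ⟨u', hadm, ?_⟩
  have hS : ∀ x, u x ≠ 0 → |jac hG y (logG hG y x)| ≤ CJ ∧ |jacD hG y (logG hG y x)| ≤ CD ∧
      ∀ l : ℝ, 1 - δ ≤ l → l ≤ 1 → |jac hG y (l • logG hG y x) - jac hG y (logG hG y x)
        - (l - 1) * jacD hG y (logG hG y x)| ≤ θ₁ * (1 - l) := by
    intro x hx
    have hq : (y, logG hG y x) ∈ s :=
      ⟨(y, x), ⟨hy, hu.supp (subset_tsupport _ (Function.mem_support.2 hx))⟩, rfl⟩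
    exact ⟨(hCJ₀ _ hq).trans (le_max_left _ _), (hCD₀ _ hq).trans (le_max_left _ _),
      fun l h1 h2 => hδs _ hq l h1 h2⟩
  obtain ⟨hv1, hv2⟩ := volume_variation hn hG hL hd F hC hRpos hτ.le hθ₁0.le hεδ hεn hu.smooth
    hu.hasCompactSupport hu.nonneg hS hCJ hCD
  rw [← hM', hV, ← hCBdef] at hv1 hv2
  set err := τ * C ^ 2 * ((n : ℝ) ^ 2 * CJ + 2 * n * CD) + 2 * θ₁ * C with herr
  have herr0 : 0 ≤ err := by positivity
  have herrE : err ≤ E₀ := by
    have := mul_le_of_le_one_left (show 0 ≤ K₂ by positivity) t1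
    rw [herr, hE₀, mul_assoc τ, ← hK₂]
    linarith
  have hM0 : 0 < omega n * R ^ n := mul_pos (omega_pos' n) (pow_pos hRpos n)
  have hd1 : |(pMass G u' - omega n * R ^ n) / (omega n * R ^ n)| ≤ τ * (CB + err) := by
    rw [abs_div, abs_of_pos hM0, div_le_iff₀ hM0]
    exact hv1
  have hd2 : |(pMass G u' - omega n * R ^ n) / (omega n * R ^ n)| ≤ 1 / 2 := by
    refine hd1.trans ?_
    have := mul_le_mul_of_nonneg_left herrE hτ.le
    linarith
  have hg := gI_expansion hn hRpos hd2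
  have hg1 : omega n * R ^ n * (1 + (pMass G u' - omega n * R ^ n) / (omega n * R ^ n))
      = pMass G u' := by
    rw [mul_add, mul_one, mul_div_cancel₀ _ hM0.ne']; ring
  rw [hg1, mul_div_cancel₀ _ hM0.ne'] at hg
  have hRhi : R ≤ |hi| := le_trans hR.2 (le_abs_self hi)
  have hCE : N * Mx * (2 * θ₁ * C) ≤ θ / 2 := by
    have h3 : θ₁ * (4 * (N * Mx * C + 1)) = θ := by rw [hθ₁]; field_simp
    linarith
  have herr' : err = τ * K₂ + 2 * θ₁ * C := by rw [herr, hK₂]; ring
  have key := variation_arith (I₁ := ∫ x, conorm G x (fderiv ℝ u x) * tvK hG F R u y x ∂rVol G)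
    (TV₀ := TV G u) (TV₁ := TV G u') (K₂ := K₂) (K₁ := K₁) (N := N) (θ := θ) (Mx := Mx) (Wn := Wn)
    (Rn := R ^ n) rfl hd1 (gI_pow hn hRpos) hg hv2
    (hTV.trans (le_of_eq (by rw [hK₁]; ring))) hRpos hτ.le (by positivity) hCB
    (integral_nonneg fun x => abs_nonneg _) hN0 hM0.le
    (integral_nonneg fun x => conorm_nonneg _ _) herr0 herr' (by linarith) (by positivity)
    (div_le_div_of_nonneg_left (by linarith) hlo hR.1)
    (mul_le_mul_of_nonneg_left (pow_le_pow_left₀ hRpos.le hRhi n) hom)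
    (mul_le_mul_of_nonneg_left (pow_le_pow_left₀ hRpos.le hRhi _) hom)
    hCE
    (by
      have : E₀ = K₂ + 2 * θ₁ * C := by rw [hE₀]; ring
      rw [← this, ← hK₃]; linarith)
    (by linarith) (div_nonneg (by linarith) hRpos.le)
  rw [integral_kernel hn hG F hC hRpos hu.smooth hu.hasCompactSupport y]
  unfold deficit
  rw [hV]
  linarith

end Vale.Agent.P219
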