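import Vale.Agent.P219.Var.AnisoCompetitor
import Vale.Agent.P219.Var.Variation

/-!
# P219 module Var.AnisoVolume: the volume of the anisotropic contraction

The Jacobian of the contraction is `(1 - τ(f + t f_t)) (1 - τ f)^(n-1)`: the shear does not enter.
-/

open MeasureTheory Set Filter Topology
open scoped RealInnerProductSpace

namespace Vale.Agent.P219

variable {n : ℕ} {G : EE n → Form n}

/-- integration by parts along rays for an anisotropic weight -/
theorem integral_aniso_ibp (hG : IsCH G) (A : Aniso) {e : EE n} (he : ‖e‖ = 1) (y : EE n)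
    (L : EE n ≃L[ℝ] EE n) {R : ℝ} (hR : 0 < R) {U : EE n → ℝ} (hU : ContDiff ℝ 1 U)
    (hUc : HasCompactSupport U) :
    ∫ z, U z * (jac hG y (L.symm z) * (atft A e R z + (n : ℝ) * aphi A e R z)
        + aphi A e R z * jacD hG y (L.symm z))
      = -∫ z, aphi A e R z * jac hG y (L.symm z) * fderiv ℝ U z z := by
  have cf : Continuous fun z : EE n => aphi A e R z := continuous_aphi A e hR
  have cd : Continuous fun z : EE n => atft A e R z := continuous_atft A he hR
  have cp : Continuous fun z : EE n => (y, L.symm z) := continuous_const.prodMk L.symm.continuous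
  have cj : Continuous fun z : EE n => jac hG y (L.symm z) := (contDiff_jac hG).continuous.comp cp
  have cD : Continuous fun z : EE n => jacD hG y (L.symm z) := (continuous_jacD hG).comp cp
  have cU : Continuous fun z : EE n => fderiv ℝ U z z :=
    (hU.continuous_fderiv one_ne_zero).clm_apply continuous_id
  have sU : HasCompactSupport fun z : EE n => fderiv ℝ U z z :=
    (hUc.fderiv ℝ).mono fun z hz h => hz (by simp [h])
  set W : EE n → ℝ := fun z => aphi A e R z * jac hG y (L.symm z) * U z
  set P : EE n → ℝ := fun z =>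
    U z * (jac hG y (L.symm z) * (atft A e R z + (n : ℝ) * aphi A e R z)
      + aphi A e R z * jacD hG y (L.symm z))
  set Q : EE n → ℝ := fun z => aphi A e R z * jac hG y (L.symm z) * fderiv ℝ U z z
  have cW : Continuous W := (cf.mul cj).mul hU.continuous
  have sW : HasCompactSupport W := hUc.mul_left
  have cP : Continuous P :=
    hU.continuous.mul ((cj.mul (cd.add (continuous_const.mul cf))).add (cf.mul cD))
  have cQ : Continuous Q := (cf.mul cj).mul cU
  have sP : HasCompactSupport P := hUc.mul_right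
  have sQ : HasCompactSupport Q := sU.mul_left
  have sV : HasCompactSupport fun z => P z + Q z - (n : ℝ) * W z :=
    (sP.add sQ).sub sW.mul_left
  have hd : ∀ z, ∀ t : ℝ, 0 < t → HasDerivAt (fun r : ℝ => W (r • z))
      ((P (t • z) + Q (t • z) - (n : ℝ) * W (t • z)) / t) t := by
    intro z t ht
    have h2 : HasDerivAt (fun r : ℝ => jac hG y (L.symm (r • z)))
        (jacD hG y (L.symm (t • z)) / t) t := by
      simp only [map_smul]
      refine (hasDerivAt_jac_ray hG y (L.symm z) t).congr_deriv ?_
      rw [jacD, map_smul, smul_eq_mul, mul_div_cancel_left₀ _ ht.ne']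
    have h3 : HasDerivAt (fun r : ℝ => U (r • z)) (fderiv ℝ U (t • z) (t • z) / t) t := by
      rw [map_smul, smul_eq_mul, mul_div_cancel_left₀ _ ht.ne']
      simpa using! (hU.differentiable one_ne_zero (t • z)).hasFDerivAt.comp_hasDerivAt t
        ((hasDerivAt_id t).smul_const z)
    refine (((hasDerivAt_aphi_ray A e R z ht).mul h2).mul h3).congr_deriv ?_
    simp only [P, Q, W, Pi.mul_apply]
    ring
  have key := integral_dilation (V := fun z => P z + Q z - (n : ℝ) * W z) cW sW
    ((cP.add cQ).sub (continuous_const.mul cW)) sV hd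
  have iP := cP.integrable_of_hasCompactSupport (μ := volume) sP
  have iQ := cQ.integrable_of_hasCompactSupport (μ := volume) sQ
  have iW := (cW.integrable_of_hasCompactSupport (μ := volume) sW).const_mul (n : ℝ)
  rw [integral_sub (f := fun z => P z + Q z) (iP.add iQ) iW, integral_add iP iQ,
    integral_const_mul] at key
  change ∫ z, P z = -∫ z, Q z
  linarith

/-- the volume of the contracted competitor against the pair integral -/
theorem volume_variation_aniso (hn : 2 ≤ n) (hG : IsCH G) {y e : EE n} {L : EE n ≃L[ℝ] EE n}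
    (hL : ∀ v w, G y v w = ⟪L v, L w⟫) (hd : dens G y = |(L : EE n →L[ℝ] EE n).det|) (A : Aniso)
    (p : EE n →L[ℝ] ℝ) (he : ‖e‖ = 1) (hep : ∀ z, ecos e z = aU hG p y (chart hG y L z))
    {C τ R θ δ CJ CD : ℝ}
    (hC : ∀ t u, 0 ≤ t → u ∈ Icc (-1 : ℝ) 1 →
      |A.f t u| ≤ C ∧ |t * A.f t u| ≤ C ∧ |t * A.ft t u| ≤ C ∧ |A.fu t u| ≤ C)
    (hR : 0 < R) (hτ : 0 ≤ τ) (hθ : 0 ≤ θ) (hδ : τ * C ≤ δ)
    (hn2 : (n : ℝ) * (2 * (τ * C)) ≤ 1 / 2)
    {u : EE n → ℝ} (hu : ContDiff ℝ 1 u) (huc : HasCompactSupport u) (hu0 : ∀ x, 0 ≤ u x)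
    (hS : ∀ x, u x ≠ 0 → |jac hG y (logG hG y x)| ≤ CJ ∧ |jacD hG y (logG hG y x)| ≤ CD ∧
      ∀ l : ℝ, 1 - δ ≤ l → l ≤ 1 → |jac hG y (l • logG hG y x) - jac hG y (logG hG y x)
        - (l - 1) * jacD hG y (logG hG y x)| ≤ θ * (1 - l))
    (hCJ : 0 ≤ CJ) (hCD : 0 ≤ CD) :
    let err := τ * (2 * C) ^ 2 * ((n : ℝ) ^ 2 * CJ + 2 * n * CD) + 2 * θ * (2 * C)
    let CB := CJ * (((n : ℝ) + 1) * C) + C * CD
    let M' := ∫ z, jac hG y (aLam A e τ R z • L.symm z)
          * ((1 - τ * (aphi A e R z + atft A e R z)) * aLam A e τ R z ^ (n - 1))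
          * u (chart hG y L z) ^ sobExp n
    |M' - pMass G u| ≤ τ * (CB + err) * pMass G u ∧
      pMass G u - τ * (R * (∫ x, conorm G x (fderiv ℝ u x)
          * (gdist hG x y / R * A.f (gdist hG x y / R) (aU hG p y x) * ucos hG u y x) ∂rVol G)
        + CB * ∫ x, |u x ^ sobExp n - u x| ∂rVol G) - τ * err * pMass G u ≤ M' := by
  intro err CB M'
  have hn0 : n ≠ 0 := by omega
  have hn1 : (2 : ℝ) ≤ n := by exact_mod_cast hn
  have hm1 : ((n - 1 : ℕ) : ℝ) = (n : ℝ) - 1 := by rw [Nat.cast_sub (by omega), Nat.cast_one]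
  have hC0 : 0 ≤ C := le_trans (abs_nonneg _) (abs_aniso_le hC he hR (0 : EE n)).1
  have h4 : τ * C ≤ 1 / 4 := by
    have := mul_le_mul_of_nonneg_right hn1 (mul_nonneg hτ hC0)
    linarith
  set E := chartHomeo hG y L
  set U : EE n → ℝ := fun z => u (chart hG y L z) with hU
  have hUd : ContDiff ℝ 1 U := hu.comp (contDiff_chart hG y L)
  have hUc : HasCompactSupport U := huc.comp_homeomorph E
  have hU1 := hUd.continuous
  have hUp : Continuous fun z => U z ^ sobExp n := continuous_rpow_sobExp hn hU1
  have hUpc : HasCompactSupport fun z => U z ^ sobExp n :=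
    hUc.comp_left (g := fun r : ℝ => r ^ sobExp n) (zero_rpow_sobExp hn)
  set J : EE n → ℝ := fun z => jac hG y (L.symm z) with hJ
  have hJc : Continuous J :=
    (contDiff_jac hG).continuous.comp (continuous_const.prodMk L.symm.continuous)
  have cf : Continuous fun z : EE n => aphi A e R z := continuous_aphi A e hR
  have cd : Continuous fun z : EE n => atft A e R z := continuous_atft A he hR
  have hJ'c : Continuous fun z => jac hG y (aLam A e τ R z • L.symm z) :=
    (contDiff_jac hG).continuous.comp (continuous_const.prodMk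
      ((continuous_const.sub (continuous_const.mul cf)).smul L.symm.continuous))
  set B : EE n → ℝ := fun z => jac hG y (L.symm z) * (atft A e R z + (n : ℝ) * aphi A e R z)
      + aphi A e R z * jacD hG y (L.symm z) with hB
  have hBc : Continuous B :=
    (hJc.mul (cd.add (continuous_const.mul cf))).add
      (cf.mul ((continuous_jacD hG).comp (continuous_const.prodMk L.symm.continuous)))
  have hDc : Continuous fun z : EE n =>
      (1 - τ * (aphi A e R z + atft A e R z)) * aLam A e τ R z ^ (n - 1) :=
    (continuous_const.sub (continuous_const.mul (cf.add cd))).mul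
      ((continuous_const.sub (continuous_const.mul cf)).pow _)
  -- pointwise facts on the support
  have hsupp : ∀ z, U z ≠ 0 → |J z| ≤ CJ ∧ |B z| ≤ CB ∧
      |jac hG y (aLam A e τ R z • L.symm z)
          * ((1 - τ * (aphi A e R z + atft A e R z)) * aLam A e τ R z ^ (n - 1))
          - (J z - τ * B z)| ≤ τ * err := by
    intro z hz
    obtain ⟨h1, h2, h3⟩ := hS _ hz
    rw [show logG hG y (chart hG y L z) = L.symm z from logG_expG hG y _] at h1 h2 h3
    obtain ⟨hl0, hl1⟩ := aLam_mem hC he hR hτ h4 z
    obtain ⟨g3, g2, -⟩ := abs_aniso_le hC he hR z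
    have ha : |τ * (aphi A e R z + atft A e R z)| ≤ 2 * (τ * C) := by
      rw [abs_mul, abs_of_nonneg hτ]
      have := mul_le_mul_of_nonneg_left ((abs_add_le _ _).trans (add_le_add g3 g2)) hτ
      linarith
    have hb0 : 0 ≤ τ * aphi A e R z :=
      mul_nonneg hτ (A.f_nonneg _ _ (by positivity) (ecos_mem he z))
    have hb : τ * aphi A e R z ≤ 2 * (τ * C) := by
      have := mul_le_mul_of_nonneg_left (le_of_abs_le g3) hτ
      linarith [mul_nonneg hτ hC0]
    refine ⟨h1, ?_, ?_⟩
    · simp only [hB]
      refine (abs_add_le _ _).trans (add_le_add ?_ ?_)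
      · rw [abs_mul]
        refine mul_le_mul h1 ((abs_add_le _ _).trans ?_) (abs_nonneg _) hCJ
        rw [abs_mul, Nat.abs_cast]
        have := mul_le_mul_of_nonneg_left g3 (Nat.cast_nonneg (α := ℝ) n)
        linarith
      · rw [abs_mul]; exact mul_le_mul g3 h2 (abs_nonneg _) hC0
    · have := vol_pointwise (n - 1) (J := J z) (J' := jac hG y (aLam A e τ R z • L.symm z))
        (j := jacD hG y (L.symm z)) (θ := θ) (CJ := CJ) (CD := CD) ha hb0 hb
        (by rw [hm1]; linarith) hθ h1 h2
        (by
          have h5 := h3 (aLam A e τ R z) (by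
            have := mul_le_mul_of_nonneg_left (le_of_abs_le g3) hτ
            unfold aLam; linarith) hl1
          simpa [aLam] using h5)
      rw [hm1] at this
      refine le_trans (le_of_eq ?_) (this.trans (le_of_eq ?_))
      · congr 1
        simp only [aLam, hB, hJ]
        ring
      · simp only [err]; ring
  have hUp0 : ∀ z, 0 ≤ U z ^ sobExp n := fun z => Real.rpow_nonneg (hu0 _) _
  have hJ1 : ∀ z, 1 ≤ J z := fun z => one_le_jac hG y _
  have hCB : 0 ≤ CB := by positivity
  have herr : 0 ≤ err := by positivity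
  -- the integrals
  have hM : pMass G u = ∫ z, J z * U z ^ sobExp n := by
    rw [pMass, integral_rVol_comp hG (E := chart hG y L) E.bijective (hasFDerivAt_chart hG y L)]
    refine integral_congr_ae (ae_of_all _ fun z => ?_)
    simp only [chart_jac hG hd, abs_of_nonneg (hu0 _), hJ, hU]
  have i1 : Integrable fun z => J z * U z ^ sobExp n :=
    (hJc.mul hUp).integrable_of_hasCompactSupport hUpc.mul_left
  have i2 : Integrable fun z => B z * U z ^ sobExp n :=
    (hBc.mul hUp).integrable_of_hasCompactSupport hUpc.mul_left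
  have i3 : Integrable fun z => jac hG y (aLam A e τ R z • L.symm z)
      * ((1 - τ * (aphi A e R z + atft A e R z)) * aLam A e τ R z ^ (n - 1)) * U z ^ sobExp n :=
    ((hJ'c.mul hDc).mul hUp).integrable_of_hasCompactSupport hUpc.mul_left
  have i4 : Integrable fun z => U z * B z :=
    (hU1.mul hBc).integrable_of_hasCompactSupport hUc.mul_right
  have i5 : Integrable fun z => J z * |U z ^ sobExp n - U z| := by
    refine (hJc.mul (hUp.sub hU1).abs).integrable_of_hasCompactSupport ?_
    exact ((hUc.comp_left (g := fun r : ℝ => |r ^ sobExp n - r|)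
      (by simp [zero_rpow_sobExp hn]))).mul_left
  set T := ∫ z, B z * U z ^ sobExp n with hT
  have i6 : Integrable fun z => jac hG y (aLam A e τ R z • L.symm z)
      * ((1 - τ * (aphi A e R z + atft A e R z)) * aLam A e τ R z ^ (n - 1)) * U z ^ sobExp n
      - J z * U z ^ sobExp n := i3.sub i1
  have hkey : |M' - pMass G u + τ * T| ≤ τ * err * pMass G u := by
    rw [show M' - pMass G u + τ * T = ∫ z, (jac hG y (aLam A e τ R z • L.symm z)
          * ((1 - τ * (aphi A e R z + atft A e R z)) * aLam A e τ R z ^ (n - 1)) * U z ^ sobExp n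
          - J z * U z ^ sobExp n) + τ * (B z * U z ^ sobExp n) by
        rw [integral_add i6 (i2.const_mul τ), integral_sub i3 i1, integral_const_mul, hM, hT],
      hM, ← integral_const_mul]
    refine abs_integral_le_integral_abs.trans
      (integral_mono (i6.add (i2.const_mul τ)).abs (i1.const_mul _) fun z => ?_)
    by_cases hz : U z = 0
    · simp [hz, zero_rpow_sobExp hn]
    · obtain ⟨-, -, h3⟩ := hsupp z hz
      rw [show jac hG y (aLam A e τ R z • L.symm z)
          * ((1 - τ * (aphi A e R z + atft A e R z)) * aLam A e τ R z ^ (n - 1)) * U z ^ sobExp n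
          - J z * U z ^ sobExp n + τ * (B z * U z ^ sobExp n)
          = (jac hG y (aLam A e τ R z • L.symm z)
            * ((1 - τ * (aphi A e R z + atft A e R z)) * aLam A e τ R z ^ (n - 1))
              - (J z - τ * B z)) * U z ^ sobExp n by ring, abs_mul, abs_of_nonneg (hUp0 z)]
      exact mul_le_mul h3 (le_mul_of_one_le_left (hUp0 z) (hJ1 z)) (hUp0 z)
        (mul_nonneg hτ herr)
  have hTb : |T| ≤ CB * pMass G u := by
    rw [hT, hM, ← integral_const_mul]
    refine abs_integral_le_integral_abs.trans (integral_mono i2.abs (i1.const_mul _) fun z => ?_)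
    by_cases hz : U z = 0
    · simp [hz, zero_rpow_sobExp hn]
    · rw [abs_mul, abs_of_nonneg (hUp0 z)]
      exact mul_le_mul (hsupp z hz).2.1 (le_mul_of_one_le_left (hUp0 z) (hJ1 z)) (hUp0 z) hCB
  obtain ⟨hk1, hk2⟩ := abs_le.1 hkey
  refine ⟨?_, ?_⟩
  · calc |M' - pMass G u| = |(M' - pMass G u + τ * T) - τ * T| := by ring_nf
      _ ≤ |M' - pMass G u + τ * T| + |τ * T| := abs_sub _ _
      _ ≤ τ * err * pMass G u + τ * (CB * pMass G u) := by
          refine add_le_add hkey ?_
          rw [abs_mul, abs_of_nonneg hτ]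
          exact mul_le_mul_of_nonneg_left hTb hτ
      _ = _ := by ring
  · have hE : ∫ x, |u x ^ sobExp n - u x| ∂rVol G = ∫ z, J z * |U z ^ sobExp n - U z| := by
      rw [integral_rVol_comp hG (E := chart hG y L) E.bijective (hasFDerivAt_chart hG y L)]
      refine integral_congr_ae (ae_of_all _ fun z => ?_)
      simp only [chart_jac hG hd, hJ, hU]
    have hW : ∫ z, U z * B z = R * ∫ x, conorm G x (fderiv ℝ u x)
        * (gdist hG x y / R * A.f (gdist hG x y / R) (aU hG p y x) * ucos hG u y x) ∂rVol G := by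
      rw [integral_aniso_ibp hG A he y L hR hUd hUc,
        integral_rVol_comp hG (E := chart hG y L) E.bijective (hasFDerivAt_chart hG y L),
        ← integral_neg, ← integral_const_mul]
      refine integral_congr_ae (ae_of_all _ fun z => ?_)
      have hD : fderiv ℝ U z
          = (fderiv ℝ u (chart hG y L z)).comp (chartD hG y L z) :=
        (((hu.differentiable one_ne_zero) _).hasFDerivAt.comp z
          (hasFDerivAt_chart hG y L z)).fderiv
      have hdist : gdist hG (chart hG y L z) y = ‖z‖ := by rw [gdist_comm, gdist_chart hL]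
      simp only [hD, ContinuousLinearMap.comp_apply, chartD_self, map_neg, fderiv_logG_ucos, hdist,
        chart_jac hG hd, aphi, ← hep]
      field_simp
    have hTle : T ≤ (∫ z, U z * B z) + CB * ∫ z, J z * |U z ^ sobExp n - U z| := by
      rw [hT, ← integral_const_mul, ← integral_add i4 (i5.const_mul CB)]
      refine integral_mono i2 (i4.add (i5.const_mul CB)) fun z => ?_
      by_cases hz : U z = 0
      · simp [hz, zero_rpow_sobExp hn]
      · have h1 : B z * (U z ^ sobExp n - U z) ≤ CB * (J z * |U z ^ sobExp n - U z|) :=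
          (le_abs_self _).trans ((abs_mul _ _).trans_le (mul_le_mul (hsupp z hz).2.1
            (le_mul_of_one_le_left (abs_nonneg _) (hJ1 z)) (abs_nonneg _) hCB))
        linarith
    rw [hW, ← hE] at hTle
    have := mul_le_mul_of_nonneg_left hTle hτ
    linarith

/-- the kernel of `Aniso.K` splits into the total variation and the volume parts -/
theorem integral_kernel_aniso (hn : 2 ≤ n) (hG : IsCH G) (A : Aniso) (p : EE n →L[ℝ] ℝ)
    {C R : ℝ}
    (hC : ∀ t u, 0 ≤ t → u ∈ Icc (-1 : ℝ) 1 →
      |A.f t u| ≤ C ∧ |t * A.f t u| ≤ C ∧ |t * A.ft t u| ≤ C ∧ |A.fu t u| ≤ C) (hR : 0 < R)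
    {u : EE n → ℝ} (hu : ContDiff ℝ 1 u) (huc : HasCompactSupport u) (y : EE n) :
    ∫ x, conorm G x (fderiv ℝ u x) * A.K n (gdist hG x y / R) (ucos hG u y x)
        (p (logG hG y x) / (gdist hG y x * conorm G y p)) ∂rVol G
      = (∫ x, conorm G x (fderiv ℝ u x) * tvKa hG A p R u y x ∂rVol G)
        - ((n : ℝ) - 1) * ∫ x, conorm G x (fderiv ℝ u x)
          * (gdist hG x y / R * A.f (gdist hG x y / R) (aU hG p y x) * ucos hG u y x) ∂rVol G := by
  have := isFiniteMeasureOnCompacts_rVol hG
  have hf := continuous_conorm_du hG hu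
  have hfc := hasCompactSupport_conorm_fderiv G huc
  have j1 : Integrable (fun x => conorm G x (fderiv ℝ u x) * tvKa hG A p R u y x) (rVol G) :=
    integrable_mul_bdd hf hfc (measurable_tvKa hG A p R hu y) (abs_tvKa_le hn hG hC hR p u y)
  have h2 : Measurable fun x => gdist hG x y / R :=
    (((continuous_gdist hG).comp (continuous_id.prodMk continuous_const)).div_const R).measurable
  have hm : Measurable fun x =>
      gdist hG x y / R * A.f (gdist hG x y / R) (aU hG p y x) * ucos hG u y x :=
    (h2.mul (A.continuous_wf.measurable.comp (h2.prodMk (measurable_aU hG p y)))).mul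
      (measurable_ucos_left hG hu y)
  have j2 : Integrable (fun x => conorm G x (fderiv ℝ u x)
      * (gdist hG x y / R * A.f (gdist hG x y / R) (aU hG p y x) * ucos hG u y x)) (rVol G) := by
    refine integrable_mul_bdd (K := C) hf hfc hm fun x => ?_
    obtain ⟨h1, h3, -⟩ := hC (gdist hG x y / R) (aU hG p y x)
      (div_nonneg (Real.sqrt_nonneg _) hR.le) (abs_le.1 (abs_aU_le hG p y x))
    rw [abs_mul]
    exact le_trans (mul_le_mul h3 (abs_ucos_le_one hG u y x) (abs_nonneg _)
      ((abs_nonneg _).trans h1)) (le_of_eq (mul_one C))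
  rw [← integral_const_mul, ← integral_sub j1 (j2.const_mul _)]
  refine integral_congr_ae (ae_of_all _ fun x => ?_)
  simp only [Aniso.K, tvKa, aU]
  ring

end Vale.Agent.P219
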