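import Vale.Agent.P219.Var.Variation

/-!
# P219 module Averaged: the variation inequality integrated over the centres

`exists_variation_bound` at every `y` with `deficit u' ≥ m` gives, after integration against
`conorm (du y)` resp. `u y` (and relabelling by Fubini for the second cosine), the two inequalities
below; `e = deficit u - m`.
-/

open MeasureTheory Set

namespace Vale.Agent.P219

variable {n : ℕ} {G : EE n → Form n}

lemma Radial.continuous_K (F : Radial) (k : ℕ) :
    Continuous fun p : ℝ × ℝ => F.K k p.1 p.2 := by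
  have hF : Continuous F.F := continuous_iff_continuousAt.2 fun t => (F.hasDeriv t).continuousAt
  have := F.cont_dF
  have := F.cont_f
  unfold Radial.K
  fun_prop

lemma Radial.bdd_K (F : Radial) (k : ℕ) :
    ∃ B, ∀ t c, 0 ≤ t → |c| ≤ 1 → ‖F.K k t c‖ ≤ B := by
  obtain ⟨C, hC⟩ := F.bdd
  refine ⟨C * 1 + ((k : ℝ) + 3) * C + ((k : ℝ) + 1) * C * 1, fun t c ht hc => ?_⟩
  obtain ⟨h1, h2, h3⟩ := hC t ht
  have hC0 : 0 ≤ C := (abs_nonneg _).trans h1
  have hk : (0 : ℝ) ≤ k := Nat.cast_nonneg k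
  have hc2 : c ^ 2 ≤ 1 := (sq_le_one_iff_abs_le_one c).2 hc
  have a : |1 - c ^ 2| ≤ 1 := abs_le.2 ⟨by nlinarith, by nlinarith⟩
  have b : |(k : ℝ) - 2 + c ^ 2| ≤ (k : ℝ) + 3 := abs_le.2 ⟨by nlinarith, by nlinarith⟩
  have d : |(k : ℝ) - 1| ≤ (k : ℝ) + 1 := abs_le.2 ⟨by linarith, by linarith⟩
  have e1 := mul_le_mul h2 a (abs_nonneg _) hC0
  have e2 := mul_le_mul b h3 (abs_nonneg _) (by linarith)
  have e3 := mul_le_mul (mul_le_mul d h1 (abs_nonneg _) (by linarith)) hc (abs_nonneg _)
    (by positivity)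
  rw [Real.norm_eq_abs, Radial.K]
  refine (abs_sub _ _).trans ((add_le_add (abs_add_le _ _) le_rfl).trans ?_)
  rw [abs_mul, abs_mul, abs_mul, abs_mul]
  linarith

/-- products of two integrable functions with a bounded measurable kernel -/
lemma integrable_pair (μ : Measure (EE n)) [SFinite μ] {a b : EE n → ℝ} (ha : Integrable a μ)
    (hb : Integrable b μ) {k : EE n × EE n → ℝ} (hk : Measurable k) {B : ℝ}
    (hB : ∀ q, ‖k q‖ ≤ B) :
    Integrable (fun q : EE n × EE n => a q.1 * b q.2 * k q) (μ.prod μ) := by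
  have h : Integrable (fun q : EE n × EE n => k q * (a q.1 * b q.2)) (μ.prod μ) :=
    (ha.mul_prod hb).bdd_mul hk.aestronglyMeasurable (Filter.Eventually.of_forall hB)
  exact h.congr (Filter.Eventually.of_forall fun q => mul_comm _ _)

/-- averaging a bound valid on the support of a nonnegative weight -/
lemma pair_le (μ : Measure (EE n)) [SFinite μ] {a b : EE n → ℝ} {k : EE n → EE n → ℝ} {c : ℝ}
    (hb : Integrable b μ) (hb0 : ∀ y, 0 ≤ b y)
    (hk : Integrable (fun q : EE n × EE n => a q.1 * b q.2 * k q.1 q.2) (μ.prod μ))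
    (h : ∀ y, b y ≠ 0 → ∫ x, a x * k x y ∂μ ≤ c) :
    ∫ q, a q.1 * b q.2 * k q.1 q.2 ∂μ.prod μ ≤ c * ∫ y, b y ∂μ := by
  rw [integral_prod_symm _ hk, ← integral_const_mul]
  refine integral_mono hk.integral_prod_right (hb.const_mul c) fun y => ?_
  show ∫ x, a x * b y * k x y ∂μ ≤ c * b y
  have e : (fun x => a x * b y * k x y) = fun x => b y * (a x * k x y) := by
    funext x; ring
  rw [e, integral_const_mul, mul_comm c]
  by_cases hy : b y = 0
  · simp [hy]
  · exact mul_le_mul_of_nonneg_left (h y hy) (hb0 y)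

theorem exists_averaged_bound (hn : 2 ≤ n) (hG : IsCH G) (C : Calib n) (o : EE n)
    (R₀ lo hi : ℝ) (hlo : 0 < lo) :
    ∃ C₁ : ℝ, ∀ θ > 0, ∃ τ₀ > 0, ∀ τ, 0 < τ → τ ≤ τ₀ → ∀ m : ℝ,
      (∀ v, Adm hG o R₀ v → m ≤ deficit G v) → ∀ u, Adm hG o R₀ u →
      ∀ R ∈ Icc lo hi, pMass G u = omega n * R ^ n →
        ∀ err : ℝ, err = (deficit G u - m) / τ + θ * (1 + TV G u)
            + C₁ * (∫ x, |u x ^ sobExp n - u x| ∂rVol G) →
          PI hG C u R ≤ C.α * TV G u ^ 2 + err * TV G u ∧
          IPI hG C u R ≤ C.β * TV G u * (∫ x, u x ∂rVol G) + err * (∫ x, u x ∂rVol G) := by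
  obtain ⟨Cb, hCb⟩ := exists_variation_bound hn hG C.bdry o R₀ lo hi hlo
  obtain ⟨Ci, hCi⟩ := exists_variation_bound hn hG C.inner o R₀ lo hi hlo
  refine ⟨max Cb Ci, fun θ hθ => ?_⟩
  obtain ⟨τb, hτb, hb'⟩ := hCb θ hθ
  obtain ⟨τi, hτi, hi'⟩ := hCi θ hθ
  refine ⟨min τb τi, lt_min hτb hτi, fun τ hτ hτle m hm u hu R hR hmass err herr => ?_⟩
  have := isFiniteMeasureOnCompacts_rVol hG
  have : IsLocallyFiniteMeasure (rVol G) :=
    isLocallyFiniteMeasure_of_isFiniteMeasureOnCompacts
  have hR0 : 0 < R := hlo.trans_le hR.1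
  set μ := rVol G
  -- the two weights
  have hball : IsCompact (gball hG o R₀) := isCompact_gball hG o R₀
  have hcs : HasCompactSupport u := hball.of_isClosed_subset (isClosed_tsupport u) hu.supp
  set w : EE n → ℝ := fun x => conorm G x (fderiv ℝ u x) with hw
  have hwc : Continuous w :=
    (continuous_conorm hG).comp (continuous_id.prodMk (hu.smooth.continuous_fderiv one_ne_zero))
  have hwsupp : ∀ x, w x ≠ 0 → x ∈ gball hG o R₀ := by
    intro x hx
    refine hu.supp (support_fderiv_subset ℝ ?_)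
    simp only [Function.mem_support]
    intro h
    exact hx (by simp [w, conorm, h])
  have husupp : ∀ x, u x ≠ 0 → x ∈ gball hG o R₀ := fun x hx =>
    hu.supp (subset_tsupport u hx)
  have hwcs : HasCompactSupport w :=
    HasCompactSupport.intro hball fun x hx => by_contra fun h => hx (hwsupp x h)
  have hwi : Integrable w μ := hwc.integrable_of_hasCompactSupport hwcs
  have hui : Integrable u μ := hu.smooth.continuous.integrable_of_hasCompactSupport hcs
  have hw0 : ∀ x, 0 ≤ w x := fun x => conorm_nonneg x _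
  have hTV : TV G u = ∫ x, w x ∂μ := rfl
  -- the three kernels
  have hd : Continuous fun q : EE n × EE n => gdist hG q.1 q.2 / R :=
    (continuous_gdist hG).div_const R
  have hd0 : ∀ q : EE n × EE n, 0 ≤ gdist hG q.1 q.2 / R := fun q =>
    div_nonneg (gnorm_nonneg _ _) hR0.le
  have hu1 : Measurable fun q : EE n × EE n => ucos hG u q.2 q.1 :=
    (measurable_ucos hG hu.smooth).comp measurable_swap
  have hu2 : Measurable fun q : EE n × EE n => ucos hG u q.1 q.2 := measurable_ucos hG hu.smooth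
  obtain ⟨Bb, hBb⟩ := C.bdry.bdd_K n
  obtain ⟨Bi, hBi⟩ := C.inner.bdd_K n
  set kb : EE n → EE n → ℝ := fun x y => C.bdry.K n (gdist hG x y / R) (ucos hG u y x)
  set ks : EE n → EE n → ℝ := fun x y => C.bdry.K n (gdist hG x y / R) (ucos hG u x y)
  set ki : EE n → EE n → ℝ := fun x y => C.inner.K n (gdist hG x y / R) (ucos hG u y x)
  have ib : Integrable (fun q : EE n × EE n => w q.1 * w q.2 * kb q.1 q.2) (μ.prod μ) :=
    integrable_pair μ hwi hwi (k := fun q => kb q.1 q.2)
      ((C.bdry.continuous_K n).measurable.comp (hd.measurable.prodMk hu1))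
      fun q => hBb _ _ (hd0 q) (abs_ucos_le_one hG u _ _)
  have is' : Integrable (fun q : EE n × EE n => w q.1 * w q.2 * ks q.1 q.2) (μ.prod μ) :=
    integrable_pair μ hwi hwi (k := fun q => ks q.1 q.2)
      ((C.bdry.continuous_K n).measurable.comp (hd.measurable.prodMk hu2))
      fun q => hBb _ _ (hd0 q) (abs_ucos_le_one hG u _ _)
  have ii : Integrable (fun q : EE n × EE n => w q.1 * u q.2 * ki q.1 q.2) (μ.prod μ) :=
    integrable_pair μ hwi hui (k := fun q => ki q.1 q.2)
      ((C.inner.continuous_K n).measurable.comp (hd.measurable.prodMk hu1))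
      fun q => hBi _ _ (hd0 q) (abs_ucos_le_one hG u _ _)
  -- the variation at one centre
  have hI : 0 ≤ ∫ x, |u x ^ sobExp n - u x| ∂μ := integral_nonneg fun x => abs_nonneg _
  have hvar : ∀ {F : Radial} {c τ' : ℝ}, c ≤ max Cb Ci → τ ≤ τ' →
      (∀ σ, 0 < σ → σ ≤ τ' → ∀ u, Adm hG o R₀ u → ∀ y ∈ gball hG o R₀, ∀ R ∈ Icc lo hi,
        pMass G u = omega n * R ^ n → ∃ u', Adm hG o R₀ u' ∧
          deficit G u' ≤ deficit G u
            - σ * ((∫ x, conorm G x (fderiv ℝ u x) *
                F.K n (gdist hG x y / R) (ucos hG u y x) ∂rVol G)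
              - c * ∫ x, |u x ^ sobExp n - u x| ∂rVol G)
            + σ * θ * (1 + TV G u)) →
      ∀ y ∈ gball hG o R₀,
        ∫ x, w x * F.K n (gdist hG x y / R) (ucos hG u y x) ∂μ ≤ err := by
    intro F c τ' hc hτ' H y hy
    obtain ⟨u', hu', hle⟩ := H τ hτ hτ' u hu y hy R hR hmass
    have hmu := hm u' hu'
    have hcI := mul_le_mul_of_nonneg_right hc hI
    set J := ∫ x, w x * F.K n (gdist hG x y / R) (ucos hG u y x) ∂μ
    have h2 : J - c * (∫ x, |u x ^ sobExp n - u x| ∂μ) - θ * (1 + TV G u)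
        ≤ (deficit G u - m) / τ := by
      rw [le_div_iff₀ hτ]
      linarith
    rw [herr]
    linarith
  have hJb : ∀ y ∈ gball hG o R₀,
      ∫ x, w x * C.bdry.K n (gdist hG x y / R) (ucos hG u y x) ∂μ ≤ err :=
    hvar (le_max_left _ _) (hτle.trans (min_le_left _ _)) hb'
  have hJi : ∀ y ∈ gball hG o R₀,
      ∫ x, w x * C.inner.K n (gdist hG x y / R) (ucos hG u y x) ∂μ ≤ err :=
    hvar (le_max_right _ _) (hτle.trans (min_le_right _ _)) hi'
  have h1 := pair_le μ hwi hw0 ib fun y hy => hJb y (hwsupp y hy)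
  have h3 := pair_le μ hui hu.nonneg ii fun y hy => hJi y (husupp y hy)
  have h2 : ∫ q, w q.1 * w q.2 * ks q.1 q.2 ∂μ.prod μ ≤ err * ∫ y, w y ∂μ := by
    rw [← integral_prod_swap (fun q : EE n × EE n => w q.1 * w q.2 * ks q.1 q.2)]
    refine le_trans (le_of_eq (integral_congr_ae (Filter.Eventually.of_forall fun q => ?_))) h1
    simp only [Prod.fst_swap, Prod.snd_swap, kb, ks]
    rw [gdist_comm hG q.2 q.1, mul_comm (w q.2)]
  refine ⟨?_, ?_⟩
  · have i0 : Integrable (fun q : EE n × EE n => w q.1 * w q.2 * C.α) (μ.prod μ) :=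
      (hwi.mul_prod hwi).mul_const _
    have ibs : Integrable (fun q : EE n × EE n =>
        (w q.1 * w q.2 * kb q.1 q.2 + w q.1 * w q.2 * ks q.1 q.2) / 2) (μ.prod μ) :=
      (ib.add is').div_const 2
    have e : PI hG C u R = ∫ q, (w q.1 * w q.2 * C.α
        + (w q.1 * w q.2 * kb q.1 q.2 + w q.1 * w q.2 * ks q.1 q.2) / 2) ∂μ.prod μ := by
      rw [integral_prod _ (by exact i0.add ibs)]
      refine integral_congr_ae (Filter.Eventually.of_forall fun x => ?_)
      refine integral_congr_ae (Filter.Eventually.of_forall fun y => ?_)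
      simp only [Calib.Q, w, kb, ks]
      ring
    rw [e, integral_add i0 ibs, integral_div, integral_add ib is', integral_mul_const,
      integral_prod_mul, hTV]
    linarith [h1, h2, sq (∫ x, w x ∂μ)]
  · have i0 : Integrable (fun q : EE n × EE n => w q.1 * u q.2 * C.β) (μ.prod μ) :=
      (hwi.mul_prod hui).mul_const _
    have e : IPI hG C u R = ∫ q, (w q.1 * u q.2 * C.β + w q.1 * u q.2 * ki q.1 q.2) ∂μ.prod μ := by
      rw [integral_prod _ (by exact i0.add ii)]
      refine integral_congr_ae (Filter.Eventually.of_forall fun x => ?_)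
      refine integral_congr_ae (Filter.Eventually.of_forall fun y => ?_)
      simp only [Calib.E, w, ki]
      ring
    rw [e, integral_add i0 ii, integral_mul_const, integral_prod_mul, hTV]
    linarith [h3]

end Vale.Agent.P219
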