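import Vale.Agent.P219.Geo.Dist
import Vale.Agent.P219.Var.RadialMap

/-!
# P219 module Var.Chart: normal coordinates at `y` in an orthonormal frame

`z ↦ exp_y (L⁻¹ z)` with `g_y(v,w) = ⟪L v, L w⟫`, and the pointwise bound of the variation of the
total variation density under the radial contraction.
-/

open MeasureTheory Set Filter Topology ContinuousLinearMap
open scoped RealInnerProductSpace

namespace Vale.Agent.P219

variable {n : ℕ} {G : EE n → Form n}

/-- the bilinear form `⟪S v, S w⟫` -/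
noncomputable def formOf (S : EE n →L[ℝ] EE n) : Form n := (innerSL ℝ).bilinearComp S S

theorem formOf_apply (S : EE n →L[ℝ] EE n) (v w : EE n) : formOf S v w = ⟪S v, S w⟫ := by
  simp [formOf]

/-- `conorm_dens_mono` for forms given by frames -/
theorem frame_mono {S' S : EE n →L[ℝ] EE n} {η' η : EE n} {φ : EE n →L[ℝ] ℝ} (h' : S'.det ≠ 0)
    (h : S.det ≠ 0) (hle : ∀ a, ⟪S' a, S' a⟫ ≤ ⟪S a, S a⟫) (hη' : ∀ a, φ a = ⟪η', S' a⟫)
    (hη : ∀ a, φ a = ⟪η, S a⟫) : ‖η'‖ * |S'.det| ≤ ‖η‖ * |S.det| := by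
  have hm := conorm_dens_mono (fun _ => formOf S') (fun _ => formOf S) 0
    (fun a b => by simp only [formOf_apply]; exact real_inner_comm _ _)
    (fun a b => by simp only [formOf_apply]; exact real_inner_comm _ _)
    (pos_of_inner h' (formOf_apply S')) (fun a => by simpa only [formOf_apply] using hle a) φ
  rwa [conorm_of_inner h' (formOf_apply S') hη', conorm_of_inner h (formOf_apply S) hη,
    dens_of_inner (G := fun _ => formOf S') (formOf_apply S'),
    dens_of_inner (G := fun _ => formOf S) (formOf_apply S)] at hm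

/-- normal coordinates -/
noncomputable def chart (hG : IsCH G) (y : EE n) (L : EE n ≃L[ℝ] EE n) (z : EE n) : EE n :=
  expG hG y (L.symm z)

/-- the derivative of normal coordinates -/
noncomputable def chartD (hG : IsCH G) (y : EE n) (L : EE n ≃L[ℝ] EE n) (z : EE n) :
    EE n →L[ℝ] EE n :=
  (fderiv ℝ (expG hG y) (L.symm z)).comp (L.symm : EE n →L[ℝ] EE n)

theorem contDiff_chart (hG : IsCH G) (y : EE n) (L : EE n ≃L[ℝ] EE n) :
    ContDiff ℝ 1 (chart hG y L) :=
  ((contDiff_expG_at hG y).of_le (by norm_num)).comp L.symm.contDiff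

theorem hasFDerivAt_chart (hG : IsCH G) (y : EE n) (L : EE n ≃L[ℝ] EE n) (z : EE n) :
    HasFDerivAt (chart hG y L) (chartD hG y L z) z :=
  (((contDiff_expG_at hG y).differentiable (by norm_num)) _).hasFDerivAt.comp z
    L.symm.hasFDerivAt

theorem continuous_chartD (hG : IsCH G) (y : EE n) (L : EE n ≃L[ℝ] EE n) :
    Continuous (chartD hG y L) := by
  have h : chartD hG y L = fderiv ℝ (chart hG y L) :=
    funext fun z => (hasFDerivAt_chart hG y L z).fderiv.symm
  rw [h]
  exact (contDiff_chart hG y L).continuous_fderiv one_ne_zero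

/-- normal coordinates as a homeomorphism -/
noncomputable def chartHomeo (hG : IsCH G) (y : EE n) (L : EE n ≃L[ℝ] EE n) : EE n ≃ₜ EE n where
  toFun := chart hG y L
  invFun x := L (logG hG y x)
  left_inv z := by simp [chart, logG_expG]
  right_inv x := by simp [chart, expG_logG]
  continuous_toFun := (contDiff_chart hG y L).continuous
  continuous_invFun := L.continuous.comp (contDiff_logG hG y).continuous

/-- change of variables by a differentiable bijection -/
theorem integral_rVol_comp (hG : IsCH G) {E : EE n → EE n} {D : EE n → EE n →L[ℝ] EE n}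
    (hE : Function.Bijective E) (hD : ∀ z, HasFDerivAt E (D z) z) (f : EE n → ℝ) :
    ∫ x, f x ∂rVol G = ∫ z, |(D z).det| * dens G (E z) * f (E z) := by
  have h := integral_image_eq_integral_abs_det_fderiv_smul volume MeasurableSet.univ
    (fun z _ => (hD z).hasFDerivWithinAt) hE.1.injOn (fun x => f x * dens G x)
  rw [image_univ, hE.2.range_eq, setIntegral_univ, setIntegral_univ] at h
  rw [integral_rVol hG, h]
  exact integral_congr_ae (ae_of_all _ fun z => by simp only [smul_eq_mul]; ring)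

section Frame

variable {y : EE n} {L : EE n ≃L[ℝ] EE n}

theorem det_symm_mul (L : EE n ≃L[ℝ] EE n) :
    (L.symm : EE n →L[ℝ] EE n).det * (L : EE n →L[ℝ] EE n).det = 1 := by
  rw [ContinuousLinearMap.det, ContinuousLinearMap.det, ← LinearMap.det_comp]
  convert LinearMap.det_id (M := EE n) using 2
  ext a; simp

theorem chart_jac (hG : IsCH G) (hd : dens G y = |(L : EE n →L[ℝ] EE n).det|) (z : EE n) :
    |(chartD hG y L z).det| * dens G (chart hG y L z) = jac hG y (L.symm z) := by
  have h := det_symm_mul L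
  have hne : (L : EE n →L[ℝ] EE n).det ≠ 0 := fun h0 => by rw [h0, mul_zero] at h; exact zero_ne_one h
  rw [jac, chartD, chart, ContinuousLinearMap.det, ContinuousLinearMap.toLinearMap_comp,
    LinearMap.det_comp, abs_mul, hd]
  rw [show LinearMap.det ((L.symm : EE n →L[ℝ] EE n) : EE n →ₗ[ℝ] EE n)
      = ((L : EE n →L[ℝ] EE n).det)⁻¹ from eq_inv_of_mul_eq_one_left h, abs_inv]
  simp only [ContinuousLinearMap.det]
  ring

theorem det_chartD_ne (hG : IsCH G) (hd : dens G y = |(L : EE n →L[ℝ] EE n).det|) (z : EE n) :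
    (chartD hG y L z).det ≠ 0 := by
  intro h
  have := chart_jac hG hd z
  rw [h, abs_zero, zero_mul] at this
  linarith [one_le_jac hG y (L.symm z)]

variable (hL : ∀ v w, G y v w = ⟪L v, L w⟫)
include hL

theorem gdist_chart (hG : IsCH G) (z : EE n) : gdist hG y (chart hG y L z) = ‖z‖ := by
  rw [chart, gdist_expG, gnorm, hL, L.apply_symm_apply, real_inner_self_eq_norm_sq,
    Real.sqrt_sq (norm_nonneg _)]

omit hL in
theorem chartD_self (hG : IsCH G) (z : EE n) :
    chartD hG y L z z = -logG hG (chart hG y L z) y := by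
  have h := flowG_logG hG y (chart hG y L z)
  rw [show logG hG y (chart hG y L z) = L.symm z from logG_expG hG y _] at h
  show fderiv ℝ (expG hG y) (L.symm z) (L.symm z) = _
  rw [fderiv_expG_self, h]

/-- Gauss lemma in normal coordinates -/
theorem chart_gauss (hG : IsCH G) (z a : EE n) :
    G (chart hG y L z) (chartD hG y L z z) (chartD hG y L z a) = ⟪z, a⟫ := by
  have h := pullG_radial hG y (L.symm z) (L.symm a)
  rw [pullG, hL, L.apply_symm_apply, L.apply_symm_apply] at h
  exact h

omit hL in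
/-- Rauch in normal coordinates -/
theorem chart_mono (hG : IsCH G) (z a : EE n) {l : ℝ} (h0 : 0 ≤ l) (h1 : l ≤ 1) :
    G (chart hG y L (l • z)) (chartD hG y L (l • z) a) (chartD hG y L (l • z) a)
      ≤ G (chart hG y L z) (chartD hG y L z a) (chartD hG y L z a) := by
  have h := pullG_mono hG y (L.symm z) (L.symm a) h0 h1
  rw [one_smul] at h
  simpa [pullG, chart, chartD] using h

omit hL in
/-- a frame of the pulled back metric -/
theorem exists_chart_frame (hG : IsCH G) (hd : dens G y = |(L : EE n →L[ℝ] EE n).det|)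
    (z : EE n) (p : EE n →L[ℝ] ℝ) :
    ∃ S : EE n →L[ℝ] EE n, ∃ η : EE n, S.det ≠ 0 ∧ |S.det| = jac hG y (L.symm z) ∧
      (∀ a b, G (chart hG y L z) (chartD hG y L z a) (chartD hG y L z b) = ⟪S a, S b⟫) ∧
      (∀ a, p (chartD hG y L z a) = ⟪η, S a⟫) ∧ ‖η‖ = conorm G (chart hG y L z) p := by
  obtain ⟨Lx, hLx, hdx⟩ := exists_det_sq hG (chart hG y L z)
  have hdet : ((Lx : EE n →L[ℝ] EE n).comp (chartD hG y L z)).det
      = (Lx : EE n →L[ℝ] EE n).det * (chartD hG y L z).det := LinearMap.det_comp _ _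
  have hne : (Lx : EE n →L[ℝ] EE n).det ≠ 0 := by
    intro h
    have := dens_pos hG (chart hG y L z)
    rw [hdx, h, abs_zero] at this
    exact lt_irrefl _ this
  refine ⟨(Lx : EE n →L[ℝ] EE n).comp (chartD hG y L z),
    (InnerProductSpace.toDual ℝ (EE n)).symm (p.comp (Lx.symm : EE n →L[ℝ] EE n)),
    ?_, ?_, fun a b => hLx _ _, fun a => ?_, ?_⟩
  · rw [hdet]; exact mul_ne_zero hne (det_chartD_ne hG hd z)
  · rw [hdet, abs_mul, ← hdx, mul_comm, chart_jac hG hd z]
  · simp [InnerProductSpace.toDual_symm_apply]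
  · refine (conorm_of_inner hne hLx fun a => ?_).symm
    simp [InnerProductSpace.toDual_symm_apply]

/-- the total variation density after contraction; no derivative of the metric is used -/
theorem tv_pointwise (hn : n ≠ 0) (hG : IsCH G)
    (hd : dens G y = |(L : EE n →L[ℝ] EE n).det|) (A : Radial) {C τ R c : ℝ}
    (hC : ∀ t, 0 ≤ t → |A.F t| ≤ C ∧ |A.dF t| ≤ C ∧ |A.f t| ≤ C)
    (hR : 0 < R) (hτ : 0 ≤ τ) (h4 : τ * C ≤ 1 / 4) (z : EE n) (p q : EE n →L[ℝ] ℝ)
    (hpq : ∀ a, q (chartD hG y L (contract A τ R z) (contractD A τ R z a))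
      = p (chartD hG y L z a))
    (hc : p (chartD hG y L z z) = -c * (‖z‖ * conorm G (chart hG y L z) p)) :
    conorm G (chart hG y L (contract A τ R z)) q
        * (jac hG y (L.symm (contract A τ R z)) * |(contractD A τ R z).det|)
      ≤ conorm G (chart hG y L z) p * jac hG y (L.symm z)
        * ((1 - τ * A.dF (‖z‖ / R)) * (1 - τ * A.f (‖z‖ / R)) ^ (n - 1)
          * √((1 - c ^ 2) / (1 - τ * A.f (‖z‖ / R)) ^ 2
            + c ^ 2 / (1 - τ * A.dF (‖z‖ / R)) ^ 2)) := by
  obtain ⟨hl0, hl1⟩ := lamR_mem hC hR hτ h4 z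
  have hlp : 0 < lamR A τ R z := by linarith
  have hh' : 0 < 1 - τ * A.dF (‖z‖ / R) := by
    have := (abs_le.1 (abs_tau_le hC hR hτ z).1).2
    linarith
  have hTne := det_contractD_ne hC hR hτ h4 z
  obtain ⟨S', η', hS'ne, hS'det, hS'G, hS'p, hη'⟩ :=
    exists_chart_frame hG hd (contract A τ R z) q
  obtain ⟨S, η₀, hSne, hSdet, hSG, hSp, hη₀⟩ := exists_chart_frame hG hd z p
  have hSz : ∀ a, ⟪S z, S a⟫ = ⟪z, a⟫ := fun a => by rw [← hSG, chart_gauss hL]
  obtain ⟨η, hη, hηn⟩ := exists_contracted_covector A (R := R) (τ := τ) hlp.ne' hh'.ne' S η₀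
    (c := c) hSz (by rw [← hSp, hc, hη₀])
  have hd1 : (S'.comp (contractD A τ R z)).det = S'.det * (contractD A τ R z).det :=
    LinearMap.det_comp _ _
  have hd2 : (S.comp (contractD A τ R z)).det = S.det * (contractD A τ R z).det :=
    LinearMap.det_comp _ _
  have hn1 : (S'.comp (contractD A τ R z)).det ≠ 0 := by rw [hd1]; exact mul_ne_zero hS'ne hTne
  have hn2 : (S.comp (contractD A τ R z)).det ≠ 0 := by rw [hd2]; exact mul_ne_zero hSne hTne
  have hmono := frame_mono (η' := η') (η := η) (φ := p.comp (chartD hG y L z)) hn1 hn2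
    (fun a => by
      rw [ContinuousLinearMap.comp_apply, ContinuousLinearMap.comp_apply, ← hS'G, ← hSG]
      exact chart_mono hG z (contractD A τ R z a) (by linarith) hl1)
    (fun a => by rw [ContinuousLinearMap.comp_apply, ContinuousLinearMap.comp_apply, ← hS'p, hpq])
    (fun a => by rw [ContinuousLinearMap.comp_apply, ContinuousLinearMap.comp_apply, hSp, hη])
  rw [hd1, hd2, abs_mul, abs_mul, hη', hS'det, hSdet, hηn, hη₀] at hmono
  refine hmono.trans (le_of_eq ?_)
  have hdet := det_contractD' hn A τ R z hlp.ne'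
  rw [abs_of_nonneg (a := (contractD A τ R z).det)
    (by rw [hdet]; exact mul_nonneg hh'.le (pow_nonneg hlp.le _)), hdet]
  simp only [lamR]
  ring

end Frame

end Vale.Agent.P219
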