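import Vale.Agent.P219.Core

/-!
# P219 module Var.Euclid: elementary tools of the first variation

Forms given by a linear map, a rank one determinant, the scalar Taylor bounds, the expansion of
the model profile and the identity `∫ x·∇W = -n ∫ W` obtained from dilations.
-/

open MeasureTheory Set Filter Topology ContinuousLinearMap
open scoped RealInnerProductSpace

namespace Vale.Agent.P219

variable {n : ℕ}

/-- a form written as `⟪S v, S w⟫` is positive -/
theorem pos_of_inner {B : Form n} {S : EE n →L[ℝ] EE n} (hS : S.det ≠ 0)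
    (hB : ∀ v w, B v w = ⟪S v, S w⟫) (a : EE n) (ha : a ≠ 0) : 0 < B a a := by
  rw [hB, real_inner_self_eq_norm_sq]
  have h : S a ≠ 0 := by
    intro h
    apply ha
    apply (S.toContinuousLinearEquivOfDetNeZero hS).injective
    simpa using h
  positivity

/-- the length of a covector for a form written as `⟪S v, S w⟫` -/
theorem conorm_of_inner {G : EE n → Form n} {x η : EE n} {S : EE n →L[ℝ] EE n}
    {p : EE n →L[ℝ] ℝ} (hS : S.det ≠ 0) (hG : ∀ v w, G x v w = ⟪S v, S w⟫)
    (hp : ∀ a, p a = ⟪η, S a⟫) : conorm G x p = ‖η‖ := by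
  set e := S.toContinuousLinearEquivOfDetNeZero hS with he
  have hi : Function.Injective (G x) := by
    intro a b hab
    by_contra hne
    have := pos_of_inner hS hG (a - b) (sub_ne_zero.2 hne)
    have hz : G x (a - b) = 0 := by rw [map_sub, hab, sub_self]
    rw [hz] at this
    simp at this
  have hfr : Module.finrank ℝ (EE n) = Module.finrank ℝ (EE n →L[ℝ] ℝ) :=
    (InnerProductSpace.toDual ℝ (EE n)).toLinearEquiv.finrank_eq
  have hinv : (G x).IsInvertible :=
    ⟨((G x : EE n →ₗ[ℝ] (EE n →L[ℝ] ℝ)).linearEquivOfInjective hi hfr).toContinuousLinearEquiv,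
      by ext; rfl⟩
  have hw : G x (e.symm η) = p := by
    ext a
    have h : S (e.symm η) = η := e.apply_symm_apply η
    rw [hG, hp, h]
  have hwi : (G x).inverse p = e.symm η := by
    obtain ⟨E, hE⟩ := hinv
    rw [← hE] at hw ⊢
    rw [inverse_equiv, ← hw]
    exact E.symm_apply_apply _
  rw [conorm, hwi, hp, show S (e.symm η) = η from e.apply_symm_apply η,
    real_inner_self_eq_norm_sq, Real.sqrt_sq (norm_nonneg _)]

/-- the density of a form written as `⟪S v, S w⟫` -/
theorem dens_of_inner {G : EE n → Form n} {x : EE n} {S : EE n →L[ℝ] EE n}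
    (hG : ∀ v w, G x v w = ⟪S v, S w⟫) : dens G x = |S.det| := by
  classical
  set b := (EuclideanSpace.basisFun (Fin n) ℝ).toBasis
  set M := LinearMap.toMatrix b b (S : EE n →ₗ[ℝ] EE n)
  have hM : ∀ i j, M i j = S (EuclideanSpace.single j (1 : ℝ)) i := by
    intro i j
    simp [M, b, LinearMap.toMatrix_apply]
  have : (Matrix.of fun i j : Fin n => G x (EuclideanSpace.single i (1 : ℝ))
      (EuclideanSpace.single j (1 : ℝ))) = M.transpose * M := by
    ext i j
    simp only [Matrix.of_apply, Matrix.mul_apply, Matrix.transpose_apply, hM, hG,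
      PiLp.inner_apply, RCLike.inner_apply, conj_trivial]
    exact Finset.sum_congr rfl fun k _ => by ring
  rw [dens, this, Matrix.det_mul, Matrix.det_transpose, Real.sqrt_mul_self_eq_abs]
  rw [ContinuousLinearMap.det, ← LinearMap.det_toMatrix b]

/-- determinant of a rank one perturbation of a homothety -/
theorem det_rankOne_add {l : ℝ} (hl : l ≠ 0) (u w : EE n) :
    (l • ContinuousLinearMap.id ℝ (EE n) + (innerSL ℝ w).smulRight u).det
      = l ^ n * (1 + ⟪w, u⟫ / l) := by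
  classical
  set b := (EuclideanSpace.basisFun (Fin n) ℝ).toBasis
  rw [ContinuousLinearMap.det, ← LinearMap.det_toMatrix b]
  have : LinearMap.toMatrix b b
      ((l • ContinuousLinearMap.id ℝ (EE n) + (innerSL ℝ w).smulRight u : EE n →L[ℝ] EE n) :
        EE n →ₗ[ℝ] EE n)
      = l • (1 + Matrix.replicateCol Unit (fun i => u i / l)
          * Matrix.replicateRow Unit (fun i => w i)) := by
    ext i j
    by_cases h : i = j
    · subst h
      simp [b, LinearMap.toMatrix_apply, Matrix.mul_apply, EuclideanSpace.inner_single_right]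
      field_simp
    · simp [b, LinearMap.toMatrix_apply, Matrix.mul_apply, h, EuclideanSpace.inner_single_right]
      field_simp
  rw [this, Matrix.det_smul, Matrix.det_one_add_replicateCol_mul_replicateRow, Fintype.card_fin]
  congr 2
  simp only [dotProduct, PiLp.inner_apply, RCLike.inner_apply, conj_trivial, Finset.sum_div]
  exact Finset.sum_congr rfl fun k _ => by ring

theorem one_sub_le_exp_neg (a : ℝ) : 1 - a ≤ Real.exp (-a) := by
  linarith [Real.add_one_le_exp (-a)]

/-- the Jacobian factor to first order -/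
theorem volume_factor (m : ℕ) {a b ε : ℝ} (ha : |a| ≤ ε) (hb : |b| ≤ ε)
    (hε : ((m : ℝ) + 1) * ε ≤ 1) :
    |(1 - a) * (1 - b) ^ m - (1 - a - m * b)| ≤ ((m : ℝ) + 1) ^ 2 * ε ^ 2 := by
  have hm : (0 : ℝ) ≤ m := Nat.cast_nonneg m
  obtain ⟨ha1, ha2⟩ := abs_le.1 ha
  obtain ⟨hb1, hb2⟩ := abs_le.1 hb
  have h0 : 0 ≤ ε := le_trans (abs_nonneg a) ha
  have hle : ε ≤ 1 := le_trans (le_mul_of_one_le_left h0 (by linarith)) hε
  rw [abs_le]
  constructor
  · have h1 : 1 + (m : ℝ) * (-b) ≤ (1 + -b) ^ m := one_add_mul_le_pow (by linarith) m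
    have h2 := mul_le_mul_of_nonneg_left h1 (show 0 ≤ 1 - a by linarith)
    have h3 : |a * b| ≤ ε ^ 2 := by
      rw [abs_mul, sq]; exact mul_le_mul ha hb (abs_nonneg _) h0
    have h4 : (m : ℝ) * |a * b| ≤ ((m : ℝ) + 1) ^ 2 * ε ^ 2 :=
      mul_le_mul (by nlinarith) h3 (abs_nonneg _) (sq_nonneg _)
    have h5 : (m : ℝ) * (-|a * b|) ≤ (m : ℝ) * (a * b) :=
      mul_le_mul_of_nonneg_left (neg_abs_le _) hm
    rw [← sub_eq_add_neg] at h2
    linarith
  · have h1 : (1 - a) * (1 - b) ^ m ≤ Real.exp (-a - m * b) := by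
      calc (1 - a) * (1 - b) ^ m ≤ Real.exp (-a) * Real.exp (-b) ^ m :=
            mul_le_mul (one_sub_le_exp_neg a)
              (pow_le_pow_left₀ (by linarith) (one_sub_le_exp_neg b) m)
              (pow_nonneg (by linarith) _) (Real.exp_pos _).le
        _ = Real.exp (-a - m * b) := by rw [← Real.exp_nat_mul, ← Real.exp_add]; ring_nf
    have hx : |-a - m * b| ≤ ((m : ℝ) + 1) * ε := by
      calc |-a - m * b| ≤ |a| + m * |b| := by
            rw [abs_le]
            have := mul_le_mul_of_nonneg_left (le_abs_self b) hm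
            have := mul_le_mul_of_nonneg_left (neg_abs_le b) hm
            constructor <;> linarith [le_abs_self a, neg_abs_le a]
        _ ≤ ε + m * ε := add_le_add ha (mul_le_mul_of_nonneg_left hb hm)
        _ = _ := by ring
    have h2 := (abs_le.1 (Real.abs_exp_sub_one_sub_id_le (hx.trans hε))).2
    have h3 : (-a - m * b) ^ 2 ≤ ((m : ℝ) + 1) ^ 2 * ε ^ 2 := by
      rw [← mul_pow, ← sq_abs]; exact pow_le_pow_left₀ (abs_nonneg _) hx 2
    linarith

/-- the total variation factor to first order; `c` is the cosine -/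
theorem tv_factor (m : ℕ) {a b ε c : ℝ} (ha : |a| ≤ ε) (hb : |b| ≤ ε) (hc : |c| ≤ 1)
    (hε : ((m : ℝ) + 20) * ε ≤ 1) :
    (1 - a) * (1 - b) ^ m * √((1 - c ^ 2) / (1 - b) ^ 2 + c ^ 2 / (1 - a) ^ 2)
      ≤ 1 - ((1 - c ^ 2) * a + ((m : ℝ) - 1 + c ^ 2) * b)
        + (16 + ((m : ℝ) + 20) ^ 2) * ε ^ 2 := by
  have hm : (0 : ℝ) ≤ m := Nat.cast_nonneg m
  obtain ⟨ha1, ha2⟩ := abs_le.1 ha
  obtain ⟨hb1, hb2⟩ := abs_le.1 hb
  have h0 : 0 ≤ ε := le_trans (abs_nonneg a) ha
  have hle : ε ≤ 1 / 20 := by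
    have := mul_nonneg hm h0
    linarith
  have hc2 : c ^ 2 ≤ 1 := by rw [← sq_abs]; exact pow_le_one₀ (abs_nonneg c) hc
  have inv_sq : ∀ t : ℝ, |t| ≤ ε → 1 / (1 - t) ^ 2 ≤ 1 + 2 * t + 16 * ε ^ 2 := by
    intro t ht
    obtain ⟨ht1, ht2⟩ := abs_le.1 ht
    have hp : (3 : ℝ) / 4 ≤ (1 - t) ^ 2 := by nlinarith
    have hts : t ^ 2 ≤ ε ^ 2 := sq_le_sq' ht1 ht2
    rw [div_le_iff₀ (by linarith)]
    nlinarith [mul_le_mul hp hts (sq_nonneg t) (sq_nonneg (1 - t))]
  set X := (1 - c ^ 2) / (1 - b) ^ 2 + c ^ 2 / (1 - a) ^ 2 with hX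
  have hX0 : 0 ≤ X := by
    have : 0 ≤ 1 - c ^ 2 := by linarith
    positivity
  have hXle : X ≤ 1 + 2 * ((1 - c ^ 2) * b + c ^ 2 * a) + 16 * ε ^ 2 := by
    have h1 := mul_le_mul_of_nonneg_left (inv_sq b hb) (show 0 ≤ 1 - c ^ 2 by linarith)
    have h2 := mul_le_mul_of_nonneg_left (inv_sq a ha) (sq_nonneg c)
    rw [hX, div_eq_mul_one_div (1 - c ^ 2), div_eq_mul_one_div (c ^ 2)]
    linarith
  have hs : √X ≤ Real.exp ((1 - c ^ 2) * b + c ^ 2 * a + 8 * ε ^ 2) := by
    have h1 : √X ≤ (1 + X) / 2 := by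
      nlinarith [sq_nonneg (√X - 1), Real.sq_sqrt hX0]
    have := Real.add_one_le_exp ((1 - c ^ 2) * b + c ^ 2 * a + 8 * ε ^ 2)
    linarith
  have h1 : (1 - a) * (1 - b) ^ m ≤ Real.exp (-a) * Real.exp (-b) ^ m :=
    mul_le_mul (one_sub_le_exp_neg a) (pow_le_pow_left₀ (by linarith) (one_sub_le_exp_neg b) m)
      (pow_nonneg (by linarith) _) (Real.exp_pos _).le
  set x := -((1 - c ^ 2) * a + ((m : ℝ) - 1 + c ^ 2) * b) + 8 * ε ^ 2 with hx
  have h2 : (1 - a) * (1 - b) ^ m * √X ≤ Real.exp x := by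
    calc (1 - a) * (1 - b) ^ m * √X
        ≤ Real.exp (-a) * Real.exp (-b) ^ m
            * Real.exp ((1 - c ^ 2) * b + c ^ 2 * a + 8 * ε ^ 2) :=
          mul_le_mul h1 hs (Real.sqrt_nonneg _) (by positivity)
      _ = Real.exp x := by
          rw [← Real.exp_nat_mul, ← Real.exp_add, ← Real.exp_add, hx]; ring_nf
  have hxb : |x| ≤ ((m : ℝ) + 20) * ε := by
    have e1 : |(1 - c ^ 2) * a| ≤ ε := by
      rw [abs_mul, abs_of_nonneg (show 0 ≤ 1 - c ^ 2 by linarith)]
      calc (1 - c ^ 2) * |a| ≤ 1 * ε :=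
            mul_le_mul (by linarith [sq_nonneg c]) ha (abs_nonneg _) zero_le_one
        _ = ε := one_mul ε
    have e2 : |((m : ℝ) - 1 + c ^ 2) * b| ≤ ((m : ℝ) + 1) * ε := by
      rw [abs_mul]
      refine mul_le_mul ?_ hb (abs_nonneg _) (by linarith)
      rw [abs_le]; constructor <;> linarith [sq_nonneg c]
    have e3 : 8 * ε ^ 2 ≤ ε := by nlinarith
    rw [hx, abs_le]
    constructor <;>
      linarith [(abs_le.1 e1).1, (abs_le.1 e1).2, (abs_le.1 e2).1, (abs_le.1 e2).2, sq_nonneg ε]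
  have h3 := (abs_le.1 (Real.abs_exp_sub_one_sub_id_le (hxb.trans hε))).2
  have h4 : x ^ 2 ≤ ((m : ℝ) + 20) ^ 2 * ε ^ 2 := by
    rw [← mul_pow, ← sq_abs x]; exact pow_le_pow_left₀ (abs_nonneg _) hxb 2
  linarith [sq_nonneg ε]

theorem omega_nonneg (n : ℕ) : 0 ≤ omega n := ENNReal.toReal_nonneg

theorem omega_pos' (n : ℕ) : 0 < omega n :=
  ENNReal.toReal_pos (Metric.measure_closedBall_pos volume _ one_pos).ne'
    (isCompact_closedBall _ _).measure_lt_top.ne

/-- the model profile at `ω R^n` -/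
theorem gI_pow (hn : 2 ≤ n) {R : ℝ} (hR : 0 < R) :
    gI n (omega n * R ^ n) = omega n * n * R ^ (n - 1) := by
  have hn0 : (0 : ℝ) < n := by positivity
  have hw := omega_nonneg n
  have e : 1 / (n : ℝ) + ((n : ℝ) - 1) / n = 1 := by field_simp; ring
  have h2 : (R ^ n : ℝ) ^ (((n : ℝ) - 1) / n) = R ^ (n - 1) := by
    rw [← Real.rpow_natCast R n, ← Real.rpow_mul hR.le,
      mul_div_cancel₀ _ hn0.ne', ← Real.rpow_natCast, Nat.cast_sub (by omega), Nat.cast_one]
  rw [gI, Real.mul_rpow hw (by positivity), h2]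
  calc (n : ℝ) * omega n ^ (1 / (n : ℝ)) * (omega n ^ (((n : ℝ) - 1) / n) * R ^ (n - 1))
      = n * (omega n ^ (1 / (n : ℝ)) * omega n ^ (((n : ℝ) - 1) / n)) * R ^ (n - 1) := by ring
    _ = _ := by rw [← Real.rpow_add' hw (by rw [e]; exact one_ne_zero), e, Real.rpow_one]; ring

/-- second order lower bound of the model profile at `ω R^n` -/
theorem gI_expansion (hn : 2 ≤ n) {R d : ℝ} (hR : 0 < R) (hd : |d| ≤ 1 / 2) :
    omega n * (n : ℝ) * R ^ (n - 1) + ((n : ℝ) - 1) / R * (omega n * R ^ n * d)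
        - omega n * R ^ (n - 1) * d ^ 2
      ≤ gI n (omega n * R ^ n * (1 + d)) := by
  have hn0 : (0 : ℝ) < n := by positivity
  have hn1 : (1 : ℝ) ≤ n := by exact_mod_cast (le_trans (by norm_num) hn)
  obtain ⟨hd1, hd2⟩ := abs_le.1 hd
  set β := ((n : ℝ) - 1) / n with hβ
  have hw := omega_nonneg n
  have h1 : omega n ^ (1 / (n : ℝ)) * omega n ^ β = omega n := by
    rw [hβ, ← Real.rpow_add' hw]
    · rw [show 1 / (n : ℝ) + ((n : ℝ) - 1) / n = 1 by field_simp; ring, Real.rpow_one]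
    · rw [show 1 / (n : ℝ) + ((n : ℝ) - 1) / n = 1 by field_simp; ring]; exact one_ne_zero
  have h2 : (R ^ n : ℝ) ^ β = R ^ (n - 1) := by
    rw [← Real.rpow_natCast R n, ← Real.rpow_mul hR.le, hβ,
      mul_div_cancel₀ _ hn0.ne', ← Real.rpow_natCast, Nat.cast_sub (by omega), Nat.cast_one]
  have h3 : gI n (omega n * R ^ n * (1 + d)) = omega n * n * R ^ (n - 1) * (1 + d) ^ β := by
    rw [gI, ← hβ, Real.mul_rpow (by positivity) (by linarith), Real.mul_rpow hw (by positivity), h2]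
    calc (n : ℝ) * omega n ^ (1 / (n : ℝ)) * (omega n ^ β * R ^ (n - 1) * (1 + d) ^ β)
        = n * (omega n ^ (1 / (n : ℝ)) * omega n ^ β) * R ^ (n - 1) * (1 + d) ^ β := by ring
      _ = _ := by rw [h1]; ring
  have h4 : 1 + β * d - d ^ 2 / n ≤ (1 + d) ^ β := by
    have hb : (1 + d) ^ (1 / (n : ℝ)) ≤ 1 + 1 / (n : ℝ) * d :=
      rpow_one_add_le_one_add_mul_self (by linarith) (by positivity)
        (by rw [div_le_one hn0]; exact hn1)
    have hpos : 0 < (1 + d) ^ (1 / (n : ℝ)) := Real.rpow_pos_of_pos (by linarith) _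
    have hsplit : (1 + d) ^ β * (1 + d) ^ (1 / (n : ℝ)) = 1 + d := by
      rw [hβ, ← Real.rpow_add (by linarith),
        show ((n : ℝ) - 1) / n + 1 / (n : ℝ) = 1 by field_simp; ring, Real.rpow_one]
    by_contra hlt
    push Not at hlt
    have hβd : 0 < 1 + β * d - d ^ 2 / n :=
      lt_of_le_of_lt (Real.rpow_nonneg (by linarith) _) hlt
    have h5 : (1 + d) ^ β * (1 + d) ^ (1 / (n : ℝ))
        < (1 + β * d - d ^ 2 / n) * (1 + 1 / (n : ℝ) * d) :=
      lt_of_lt_of_le (mul_lt_mul_of_pos_right hlt hpos) (mul_le_mul_of_nonneg_left hb hβd.le)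
    rw [hsplit] at h5
    have e : (1 + β * d - d ^ 2 / n) * (1 + 1 / (n : ℝ) * d)
        = 1 + d - d ^ 2 * (1 + d) / (n : ℝ) ^ 2 := by
      rw [hβ]; field_simp; ring
    have : 0 ≤ d ^ 2 * (1 + d) / (n : ℝ) ^ 2 :=
      div_nonneg (mul_nonneg (sq_nonneg _) (by linarith)) (sq_nonneg _)
    linarith
  have h6 : R ^ n = R ^ (n - 1) * R := by rw [← pow_succ]; congr 1; omega
  rw [h3]
  refine le_trans (le_of_eq ?_) (mul_le_mul_of_nonneg_left h4 (by positivity))
  rw [hβ, h6]
  field_simp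

/-- `∫ x·∇W = -n ∫ W`, through dilations -/
theorem integral_dilation {W V : EE n → ℝ} (hW : Continuous W) (hWc : HasCompactSupport W)
    (hV : Continuous V) (hVc : HasCompactSupport V)
    (h : ∀ z, ∀ s : ℝ, 0 < s → HasDerivAt (fun r : ℝ => W (r • z)) (V (s • z) / s) s) :
    ∫ z, V z = -(n : ℝ) * ∫ z, W z := by
  obtain ⟨M, hM⟩ := hV.bounded_above_of_compact_support hVc
  obtain ⟨D, hD⟩ := hVc.isCompact.isBounded.subset_closedBall (0 : EE n)
  have hint : ∀ s : ℝ, 0 < s → ∫ z, W (s • z) = (s ^ n)⁻¹ * ∫ z, W z := by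
    intro s hs
    rw [Measure.integral_comp_smul, finrank_euclideanSpace_fin, smul_eq_mul,
      abs_of_pos (by positivity)]
  set bd := (Metric.closedBall (0 : EE n) (2 * D)).indicator fun _ => 2 * M with hbd
  have hbound : ∀ z : EE n, ∀ s ∈ Ioo (1 / 2 : ℝ) 2, ‖V (s • z) / s‖ ≤ bd z := by
    intro z s hs
    by_cases hz : z ∈ Metric.closedBall (0 : EE n) (2 * D)
    · rw [hbd, Set.indicator_of_mem hz, norm_div, Real.norm_of_nonneg (show (0 : ℝ) ≤ s by linarith [hs.1]),
        div_le_iff₀ (by linarith [hs.1])]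
      have hM0 : 0 ≤ M := le_trans (norm_nonneg _) (hM z)
      exact le_trans (hM _) (by nlinarith [hs.1])
    · rw [hbd, Set.indicator_of_notMem hz]
      suffices V (s • z) = 0 by simp [this]
      by_contra hne
      apply hz
      have := hD (subset_tsupport _ (Function.mem_support.2 hne))
      rw [Metric.mem_closedBall, dist_zero_right, norm_smul,
        Real.norm_of_nonneg (by linarith [hs.1])] at this
      rw [Metric.mem_closedBall, dist_zero_right]
      nlinarith [hs.1, norm_nonneg z]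
  have hbi : Integrable bd :=
    (integrable_indicator_iff measurableSet_closedBall).2
      (integrableOn_const (isCompact_closedBall _ _).measure_lt_top.ne)
  have hder := hasDerivAt_integral_of_dominated_loc_of_deriv_le (μ := volume)
    (F := fun s z => W (s • z)) (F' := fun s z => V (s • z) / s) (x₀ := (1 : ℝ))
    (Ioo_mem_nhds (by norm_num) (by norm_num))
    (Eventually.of_forall fun s => (hW.comp (continuous_const_smul s)).aestronglyMeasurable)
    (by simpa using hW.integrable_of_hasCompactSupport hWc)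
    ((hV.comp (continuous_const_smul (1 : ℝ))).div_const 1).aestronglyMeasurable
    (ae_of_all _ hbound) hbi
    (ae_of_all _ fun z s hs => h z s (by linarith [hs.1]))
  have h1 : HasDerivAt (fun s : ℝ => ∫ z, W (s • z)) (-(n : ℝ) * ∫ z, W z) 1 := by
    have h2 : HasDerivAt (fun s : ℝ => (s ^ n)⁻¹ * ∫ z, W z) (-(n : ℝ) * ∫ z, W z) 1 := by
      simpa using (((hasDerivAt_id (1 : ℝ)).pow n).inv (by simp)).mul_const (∫ z, W z)
    refine h2.congr_of_eventuallyEq ?_
    filter_upwards [Ioi_mem_nhds (zero_lt_one' ℝ)] with s hs using hint s hs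
  have := hder.2.unique h1
  simpa using this

end Vale.Agent.P219
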